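import Vale.Agent.Lib.P098.Var.JetDef

/-!
# P098: algebraic data of a certificate, general form

Scalars `v = (u, s, N, c₃, c₄, k₁, k₂)` with `u = x·p`, `s = |p|²`, `N = |A|²`, `c₃ = tr A³`,
`c₄ = tr A⁴`, `k₁ = p·Ap`, `k₂ = |Ap|²`; fields
`X = A:T, p, Ap, A²p, A³p, X₃ = A²:T, X₄ = A³:T, Y₁ = T(p,p,·), Y₂ = T(Ap,p,·)` and `x`.
-/

open scoped ContDiff

namespace Vale.Agent.P098

section jets

variable {d : ℕ}

/-- matrix square -/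
def mm (A : Fin d → Fin d → ℝ) (i j : Fin d) : ℝ := ∑ k, A i k * A k j

/-- `A²:T`, a third of the gradient of `tr A³` -/
def jX3 (A : Fin d → Fin d → ℝ) (T : Fin d → Fin d → Fin d → ℝ) (i : Fin d) : ℝ :=
  ∑ j, ∑ k, mm A j k * T i j k

/-- `A³:T`, a quarter of the gradient of `tr A⁴` -/
def jX4 (A : Fin d → Fin d → ℝ) (T : Fin d → Fin d → Fin d → ℝ) (i : Fin d) : ℝ :=
  ∑ j, ∑ k, (∑ l, mm A j l * A l k) * T i j k

/-- `T(q, p, ·)` -/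
def jTq (T : Fin d → Fin d → Fin d → ℝ) (q p : Fin d → ℝ) (i : Fin d) : ℝ :=
  ∑ j, ∑ k, T i j k * q j * p k

/-- `tr A⁴` -/
def jc4 (A : Fin d → Fin d → ℝ) : ℝ := ∑ i, ∑ j, mm A i j ^ 2

/-- `tr A⁵` -/
def jc5 (A : Fin d → Fin d → ℝ) : ℝ := ∑ i, ∑ j, mm A i j * ∑ l, mm A i l * A l j

/-- `Σ tr(T_i T_i A)` -/
def jJ1 (A : Fin d → Fin d → ℝ) (T : Fin d → Fin d → Fin d → ℝ) : ℝ :=
  ∑ i, ∑ j, ∑ k, (∑ l, A k l * T i j l) * T i j k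

/-- `Σ tr(T_i T_i A²)` -/
def jJ2 (A : Fin d → Fin d → ℝ) (T : Fin d → Fin d → Fin d → ℝ) : ℝ :=
  ∑ i, ∑ j, ∑ k, (∑ l, A k l * T i j l) ^ 2

/-- `Σ tr(T_i A T_i A)` -/
def jJ3 (A : Fin d → Fin d → ℝ) (T : Fin d → Fin d → Fin d → ℝ) : ℝ :=
  ∑ i, ∑ j, ∑ k, (∑ l, A k l * T i j l) * (∑ l, A j l * T i l k)

/-- `|T(p,·,·)|²` -/
def jTp (T : Fin d → Fin d → Fin d → ℝ) (p : Fin d → ℝ) : ℝ :=
  ∑ i, ∑ j, (∑ k, T i j k * p k) ^ 2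

/-- the scalars -/
def jV (x p : Fin d → ℝ) (A : Fin d → Fin d → ℝ) : Fin 7 → ℝ :=
  ![dot x p, dot p p, jN A, jC3 A, jc4 A, dot p (mv A p), dot (mv A p) (mv A p)]

/-- the degrees of the scalars -/
def del7 : Fin 7 → ℤ := ![1, 0, -2, -3, -4, -1, -2]

/-- the fields (all but `x`) -/
def jF (p : Fin d → ℝ) (A : Fin d → Fin d → ℝ) (T : Fin d → Fin d → Fin d → ℝ) :
    Fin 9 → Fin d → ℝ :=
  ![jX A T, p, mv A p, mv A (mv A p), mv A (mv A (mv A p)), jX3 A T, jX4 A T, jTq T p p,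
    jTq T (mv A p) p]

/-- the degrees of the fields -/
def deg9 : Fin 9 → ℤ := ![-3, 0, -1, -2, -3, -4, -5, -2, -3]

/-- the gradients of the scalars -/
def jG (p : Fin d → ℝ) (A : Fin d → Fin d → ℝ) (T : Fin d → Fin d → Fin d → ℝ) :
    Fin 7 → Fin d → ℝ :=
  ![p, fun i => 2 * mv A p i, fun i => 2 * jX A T i, fun i => 3 * jX3 A T i,
    fun i => 4 * jX4 A T i, fun i => jTq T p p i + 2 * mv A (mv A p) i,
    fun i => 2 * jTq T (mv A p) p i + 2 * mv A (mv A (mv A p)) i]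

/-- the divergences of the fields -/
def jD (p : Fin d → ℝ) (A : Fin d → Fin d → ℝ) (T : Fin d → Fin d → Fin d → ℝ) :
    Fin 9 → ℝ :=
  ![jT T, 0, jN A, dot (jX A T) p + jC3 A, dot (jX A T) (mv A p) + dot (jX3 A T) p + jc4 A,
    2 * jJ1 A T, 2 * jJ2 A T + jJ3 A T, 2 * dot (jX A T) p,
    jTp T p + dot (jX3 A T) p + dot (jX A T) (mv A p)]

/-- a coefficient function of the scalars with its partial derivatives -/
structure Co where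
  f : (Fin 7 → ℝ) → ℝ
  D : Fin 7 → (Fin 7 → ℝ) → ℝ

/-- gradient of the extension of `c` with homogeneity `k`, at `|x| = 1` -/
def Co.grad (c : Co) (k : ℝ) (x p : Fin d → ℝ) (A : Fin d → Fin d → ℝ)
    (T : Fin d → Fin d → Fin d → ℝ) (i : Fin d) : ℝ :=
  ∑ a, c.D a (jV x p A) * jG p A T a i +
    (k * c.f (jV x p A) - ∑ a, (del7 a : ℝ) * jV x p A a * c.D a (jV x p A)) * x i

/-- smoothness for `N > 0` and correctness of the derivatives -/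
structure Co.Good (c : Co) : Prop where
  smooth : ∀ v : Fin 7 → ℝ, 0 < v 2 → ContDiffAt ℝ ∞ c.f v
  deriv : ∀ v : Fin 7 → ℝ, 0 < v 2 → ∀ a : Fin 7,
    HasDerivAt (fun t => c.f (Function.update v a t)) (c.D a v) (v a)

/-- coefficient functions of `E` and of the fields; the coefficient of `x` is determined -/
structure CS where
  φ : Co
  c : Fin 9 → Co

/-- the coefficient of `x`, at `|x| = 1` -/
def CS.cx (C : CS) (α : ℝ) (v : Fin 7 → ℝ) : ℝ :=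
  (C.c 0).f v * v 2 - (C.c 1).f v * v 0 + (C.c 5).f v * v 3 + (C.c 6).f v * v 4 +
    (C.c 7).f v * v 5 + (C.c 8).f v * v 6 - α * C.φ.f v

/-- the divergence of `Z`, at `|x| = 1` -/
def CS.div (C : CS) (α : ℝ) (x p : Fin d → ℝ) (A : Fin d → Fin d → ℝ)
    (T : Fin d → Fin d → Fin d → ℝ) : ℝ :=
  ∑ m, (dot ((C.c m).grad (-1 - 2 * α - deg9 m) x p A T) (jF p A T m) +
    (C.c m).f (jV x p A) * jD p A T m) + (d - 2 - 2 * α) * C.cx α (jV x p A)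

/-- the square of the gradient of `E`, at `|x| = 1` -/
def CS.gr (C : CS) (α : ℝ) (x p : Fin d → ℝ) (A : Fin d → Fin d → ℝ)
    (T : Fin d → Fin d → Fin d → ℝ) : ℝ :=
  ∑ i, (C.φ.grad (-2 * α) x p A T i) ^ 2

/-- exponents in the bounds of the derivatives of `φ` -/
noncomputable def eD : Fin 7 → ℝ := ![0, 1 / 2, 1, 3 / 2, 2, 1 / 2, 1]

/-- exponents in the bounds of the coefficients -/
noncomputable def eF : Fin 9 → ℝ := ![1, 0, 1 / 2, 1, 3 / 2, 3 / 2, 2, 1 / 2, 1]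

/-- the scalars which occur -/
structure Dom (R : ℝ) (v : Fin 7 → ℝ) : Prop where
  u_le : |v 0| ≤ R
  s_nn : 0 ≤ v 1
  s_le : v 1 ≤ R
  N_pos : 0 < v 2
  N_le : v 2 ≤ R
  c3 : |v 3| ≤ v 2 ^ (3 / 2 : ℝ)
  c4 : |v 4| ≤ v 2 ^ 2
  k1 : |v 5| ≤ v 2 ^ (1 / 2 : ℝ) * v 1
  k2 : |v 6| ≤ v 2 * v 1

/-- **Certificates**, `κ` is the constant in `s + κ u² N ≤ 1`, `a` the exponent of `N`. -/
structure Certi (d : ℕ) (α γ a κ : ℝ) (C : CS) : Prop where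
  a_lo : 1 / 2 < a
  /-- interior inequality -/
  int : ∀ (x p : Fin d → ℝ) (A : Fin d → Fin d → ℝ) (T : Fin d → Fin d → Fin d → ℝ),
    Jet x p A T → 0 < dot x p → dot p p + κ * (dot x p ^ 2 * jN A) ≤ 1 → 0 < jN A →
    γ * C.φ.f (jV x p A) ≤ C.div α x p A T - C.gr α x p A T / (4 * C.φ.f (jV x p A))
  /-- boundary inequality -/
  bdry : ∀ (x p : Fin d → ℝ) (A : Fin d → Fin d → ℝ) (Q : ℝ), BJet x p A Q → 0 < jN A →
    ∀ v : Fin 7 → ℝ, v = ![0, 1, jN A, jC3 A, jc4 A, Q, Q ^ 2] →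
    Q * C.φ.f v ≤ (C.c 0).f v * (2 * Q * jN A - jC3 A) + (C.c 1).f v + (C.c 2).f v * Q +
      (C.c 3).f v * Q ^ 2 + (C.c 4).f v * Q ^ 3 +
      (C.c 5).f v * (Q * jC3 A - jc4 A + jN A * Q ^ 2) +
      (C.c 6).f v * (Q * jc4 A - jc5 A + jN A * Q ^ 3) + (C.c 7).f v * jN A +
      (C.c 8).f v * (Q * jN A)
  /-- positivity with a lower bound -/
  lower : ∀ R : ℝ, ∃ c : ℝ, 0 < c ∧ ∀ (x p : Fin d → ℝ) (A : Fin d → Fin d → ℝ),
    ∑ i, x i ^ 2 = 1 → (∀ i j, A i j = A j i) → ∑ i, A i i = 0 →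
    (∀ j, ∑ i, x i * A i j = 0) → 0 ≤ dot x p →
    dot p p + κ * (dot x p ^ 2 * jN A) ≤ 1 → 0 < jN A → jN A ≤ R →
    c * jN A ^ a ≤ C.φ.f (jV x p A)
  zero : ∀ v : Fin 7 → ℝ, v 2 = 0 → v 3 = 0 → v 4 = 0 → v 5 = 0 → v 6 = 0 → C.φ.f v = 0
  /-- upper bounds near `N = 0` -/
  upper : ∀ R : ℝ, ∃ c : ℝ, ∀ v : Fin 7 → ℝ, Dom R v → |C.φ.f v| ≤ c * v 2 ^ a ∧
    (∀ b, |C.φ.D b v| ≤ c * v 2 ^ (a - eD b)) ∧ ∀ m, |(C.c m).f v| ≤ c * v 2 ^ (a - eF m)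

end jets

end Vale.Agent.P098
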