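import Vale.Agent.Lib.P098.Var.Kato
import Vale.Agent.Lib.P098.Sta.Est

/-!
# P098: relations between the derivatives of a smooth cone

On the closure of the positivity set minus the origin: symmetry, trace relations and Euler's
relations; on the free boundary: `D²w ∇w = -H ∇w` and the relation for `D³w(∇w, ·, ·)`.
-/

open MeasureTheory Set Filter Topology
open scoped ContDiff

namespace Vale.Agent.P098

section

variable {d : ℕ} {u w : Ed d → ℝ} {U : Set (Ed d)}

theorem pd_coord (i j : Fin d) (x : Ed d) :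
    pd i (fun y : Ed d => y j) x = if i = j then 1 else 0 := by
  unfold pd
  have h1 : HasFDerivAt (fun y : Ed d => y j) (EuclideanSpace.proj j : Ed d →L[ℝ] ℝ) x :=
    (EuclideanSpace.proj j : Ed d →L[ℝ] ℝ).hasFDerivAt
  rw [h1.fderiv]
  simp [eq_comm]

theorem coord_diff (j : Fin d) (x : Ed d) : DifferentiableAt ℝ (fun y : Ed d => y j) x :=
  (EuclideanSpace.proj j : Ed d →L[ℝ] ℝ).differentiableAt

namespace SmoothCone

theorem diff0 (h : SmoothCone u w U) {x : Ed d} (hx : x ∈ U) : DifferentiableAt ℝ w x :=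
  (h.smoothAt hx).differentiableAt (by simp)

theorem diff1 (h : SmoothCone u w U) {x : Ed d} (hx : x ∈ U) (i : Fin d) :
    DifferentiableAt ℝ (pd i w) x :=
  ((h.contDiffOn_pdw i).contDiffAt (h.isOpen.mem_nhds hx)).differentiableAt (by simp)

theorem diff2 (h : SmoothCone u w U) {x : Ed d} (hx : x ∈ U) (i j : Fin d) :
    DifferentiableAt ℝ (pd i (pd j w)) x :=
  ((h.contDiffOn_pdpdw i j).contDiffAt (h.isOpen.mem_nhds hx)).differentiableAt (by simp)

theorem diff3 (h : SmoothCone u w U) {x : Ed d} (hx : x ∈ U) (k i j : Fin d) :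
    DifferentiableAt ℝ (pd k (pd i (pd j w))) x :=
  ((h.smooth3 k i j).contDiffAt (h.isOpen.mem_nhds hx)).differentiableAt (by simp)

theorem symm2 (h : SmoothCone u w U) {x : Ed d} (hx : x ∈ U) (i j : Fin d) :
    pd i (pd j w) x = pd j (pd i w) x :=
  pd_comm ((h.smoothAt hx).of_le ENat.LEInfty.out) i j

theorem symm3a (h : SmoothCone u w U) {x : Ed d} (hx : x ∈ U) (k i j : Fin d) :
    pd k (pd i (pd j w)) x = pd k (pd j (pd i w)) x :=
  pd_congr (pd_comm_nhds (h.smoothAt hx) i j)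

theorem symm3b (h : SmoothCone u w U) {x : Ed d} (hx : x ∈ U) (k i j : Fin d) :
    pd k (pd i (pd j w)) x = pd i (pd k (pd j w)) x :=
  pd_comm (((h.contDiffOn_pdw j).contDiffAt (h.isOpen.mem_nhds hx)).of_le ENat.LEInfty.out) k i

/-- an identity between continuous functions extends from the positivity set to its closure -/
theorem extend (h : SmoothCone u w U) {f g : Ed d → ℝ} (hf : ContinuousOn f U)
    (hg : ContinuousOn g U) (hfg : ∀ x ∈ Pos u, f x = g x) {x : Ed d}
    (hx : x ∈ closure (Pos u)) (hx0 : x ≠ 0) : f x = g x := by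
  have hxU : x ∈ U := h.sub ⟨hx, hx0⟩
  have hUn := h.isOpen.mem_nhds hxU
  have : (𝓝[Pos u] x).NeBot := mem_closure_iff_nhdsWithin_neBot.1 hx
  have h2 : Tendsto f (𝓝[Pos u] x) (𝓝 (f x)) :=
    (hf.continuousAt hUn).tendsto.mono_left nhdsWithin_le_nhds
  have h3 : Tendsto g (𝓝[Pos u] x) (𝓝 (g x)) :=
    (hg.continuousAt hUn).tendsto.mono_left nhdsWithin_le_nhds
  have h4 : f =ᶠ[𝓝[Pos u] x] g := by
    filter_upwards [self_mem_nhdsWithin] with y hy
    exact hfg y hy
  exact tendsto_nhds_unique (h2.congr' h4) h3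

theorem tr2 (h : SmoothCone u w U) {x : Ed d} (hx : x ∈ closure (Pos u)) (hx0 : x ≠ 0) :
    ∑ i, pd i (pd i w) x = 0 :=
  h.extend (continuousOn_finsetSum _ fun i _ => (h.contDiffOn_pdpdw i i).continuousOn)
    continuousOn_const h.harm hx hx0

theorem tr3 (h : SmoothCone u w U) {x : Ed d} (hx : x ∈ closure (Pos u)) (hx0 : x ≠ 0)
    (j : Fin d) : ∑ i, pd i (pd i (pd j w)) x = 0 :=
  h.extend (continuousOn_finsetSum _ fun i _ => (h.smooth3 i i j).continuousOn)
    continuousOn_const (fun _ hy => sum_pd_pd_pd h.isOpen_pos (h.smooth.mono h.pos_sub) h.harm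
      hy j) hx hx0

theorem euler0_pos (h : SmoothCone u w U) {x : Ed d} (hx : x ∈ Pos u) :
    ∑ i, x i * pd i w x = w x := by
  rw [← fderiv_apply_eq]
  have hd : DifferentiableAt ℝ w x := h.diff0 (h.pos_sub hx)
  have h1 : HasDerivAt (fun r : ℝ => w (r • x)) (fderiv ℝ w x x) 1 := by
    have h2 : HasDerivAt (fun r : ℝ => r • x) ((1 : ℝ) • x) 1 := (hasDerivAt_id 1).smul_const x
    rw [one_smul] at h2
    have h3 : HasFDerivAt w (fderiv ℝ w x) ((1 : ℝ) • x) := by
      rw [one_smul]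
      exact hd.hasFDerivAt
    exact h3.comp_hasDerivAt (1 : ℝ) h2
  have h4 : HasDerivAt (fun r : ℝ => r * w x) (w x) 1 := by
    simpa using (hasDerivAt_id (1 : ℝ)).mul_const (w x)
  have h6 : (fun r : ℝ => w (r • x)) =ᶠ[𝓝 1] fun r : ℝ => r * w x := by
    filter_upwards [lt_mem_nhds (zero_lt_one' ℝ)] with r hr
    rw [h.eq _ (h.smul_mem hx hr), h.hom r hr, h.eq x hx]
  exact h1.unique (h4.congr_of_eventuallyEq h6)

theorem euler1_pos (h : SmoothCone u w U) {x : Ed d} (hx : x ∈ Pos u) (j : Fin d) :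
    ∑ i, x i * pd j (pd i w) x = 0 := by
  have hxU := h.pos_sub hx
  have h1 : (fun y => ∑ i, y i * pd i w y) =ᶠ[𝓝 x] w := by
    filter_upwards [h.isOpen_pos.mem_nhds hx] with y hy
    exact h.euler0_pos hy
  have h2 := pd_congr (i := j) h1
  have hd : ∀ i, DifferentiableAt ℝ (fun y : Ed d => y i * pd i w y) x := fun i =>
    (coord_diff i x).mul (h.diff1 hxU i)
  rw [pd_sum _ _ fun i _ => hd i] at h2
  have h3 : ∀ i, pd j (fun y : Ed d => y i * pd i w y) x =
      (if j = i then pd i w x else 0) + x i * pd j (pd i w) x := by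
    intro i
    rw [pd_mul (coord_diff i x) (h.diff1 hxU i), pd_coord]
    split_ifs <;> simp
  rw [Finset.sum_congr rfl fun i _ => h3 i, Finset.sum_add_distrib, Finset.sum_ite_eq] at h2
  simp only [Finset.mem_univ, if_true] at h2
  linarith

theorem euler2_pos (h : SmoothCone u w U) {x : Ed d} (hx : x ∈ Pos u) (k j : Fin d) :
    ∑ i, x i * pd k (pd j (pd i w)) x = - pd j (pd k w) x := by
  have hxU := h.pos_sub hx
  have h1 : (fun y => ∑ i, y i * pd j (pd i w) y) =ᶠ[𝓝 x] fun _ => 0 := by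
    filter_upwards [h.isOpen_pos.mem_nhds hx] with y hy
    exact h.euler1_pos hy j
  have h2 := pd_congr (i := k) h1
  have hd : ∀ i, DifferentiableAt ℝ (fun y : Ed d => y i * pd j (pd i w) y) x := fun i =>
    (coord_diff i x).mul (h.diff2 hxU j i)
  rw [pd_sum _ _ fun i _ => hd i, pd_const] at h2
  have h3 : ∀ i, pd k (fun y : Ed d => y i * pd j (pd i w) y) x =
      (if k = i then pd j (pd i w) x else 0) + x i * pd k (pd j (pd i w)) x := by
    intro i
    rw [pd_mul (coord_diff i x) (h.diff2 hxU j i), pd_coord]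
    split_ifs <;> simp
  rw [Finset.sum_congr rfl fun i _ => h3 i, Finset.sum_add_distrib, Finset.sum_ite_eq] at h2
  simp only [Finset.mem_univ, if_true] at h2
  linarith

theorem euler0 (h : SmoothCone u w U) {x : Ed d} (hx : x ∈ closure (Pos u)) (hx0 : x ≠ 0) :
    ∑ i, x i * pd i w x = w x :=
  h.extend (continuousOn_finsetSum _ fun i _ =>
    ((EuclideanSpace.proj i : Ed d →L[ℝ] ℝ).continuous.continuousOn).mul
      (h.contDiffOn_pdw i).continuousOn) h.smooth.continuousOn
    (fun _ hy => h.euler0_pos hy) hx hx0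

theorem euler1 (h : SmoothCone u w U) {x : Ed d} (hx : x ∈ closure (Pos u)) (hx0 : x ≠ 0)
    (j : Fin d) : ∑ i, x i * pd j (pd i w) x = 0 :=
  h.extend (continuousOn_finsetSum _ fun i _ =>
    ((EuclideanSpace.proj i : Ed d →L[ℝ] ℝ).continuous.continuousOn).mul
      (h.contDiffOn_pdpdw j i).continuousOn) continuousOn_const
    (fun _ hy => h.euler1_pos hy j) hx hx0

theorem euler2 (h : SmoothCone u w U) {x : Ed d} (hx : x ∈ closure (Pos u)) (hx0 : x ≠ 0)
    (k j : Fin d) : ∑ i, x i * pd k (pd j (pd i w)) x = - pd j (pd k w) x :=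
  h.extend (continuousOn_finsetSum _ fun i _ =>
    ((EuclideanSpace.proj i : Ed d →L[ℝ] ℝ).continuous.continuousOn).mul
      (h.smooth3 k j i).continuousOn) (h.contDiffOn_pdpdw j k).continuousOn.neg
    (fun _ hy => h.euler2_pos hy k j) hx hx0

/-! ### the free boundary -/

/-- `D²w ∇w = D²w(∇w,∇w) ∇w` on the free boundary -/
theorem fb1 (h : SmoothCone u w U) {z : Ed d} (hz : z ∈ frontier (Pos u)) (hz0 : z ≠ 0)
    (i : Fin d) : ∑ j, pd i (pd j w) z * pd j w z = Qw w z * pd i w z := by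
  have hzU := h.frontier_sub hz hz0
  have h1 := h.grad_parallel h.Wd_smooth (fun _ hz hz0 => h.Wd_zero hz hz0) hz hz0 i
  rw [h.pd_Wd hzU i] at h1
  have h2 : ∑ j, pd j (Wd w) z * pd j w z = - Qw w z := by
    unfold Qw
    rw [← Finset.sum_neg_distrib]
    refine Finset.sum_congr rfl fun j _ => ?_
    rw [h.pd_Wd hzU j, neg_mul, Finset.sum_mul]
    congr 1
    exact Finset.sum_congr rfl fun l _ => by ring
  rw [h2] at h1
  linarith

theorem smoothQ (h : SmoothCone u w U) : ContDiffOn ℝ ∞ (Qw w) U := by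
  have e : Qw w = fun x => ∑ i, ∑ j, pd i w x * pd i (pd j w) x * pd j w x := rfl
  rw [e]
  exact ContDiffOn.sum fun i _ => ContDiffOn.sum fun j _ =>
    ((h.contDiffOn_pdw i).mul (h.contDiffOn_pdpdw i j)).mul (h.contDiffOn_pdw j)

theorem pd_pd_Wd (h : SmoothCone u w U) {x : Ed d} (hx : x ∈ U) (l i : Fin d) :
    pd l (pd i (Wd w)) x = -((∑ j, pd l (pd i (pd j w)) x * pd j w x) +
      ∑ j, pd i (pd j w) x * pd l (pd j w) x) := by
  have h1 : pd i (Wd w) =ᶠ[𝓝 x] fun y => - ∑ j, pd i (pd j w) y * pd j w y := by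
    filter_upwards [h.isOpen.mem_nhds hx] with y hy
    exact h.pd_Wd hy i
  have hd : ∀ j, DifferentiableAt ℝ (fun y => pd i (pd j w) y * pd j w y) x := fun j =>
    (h.diff2 hx i j).mul (h.diff1 hx j)
  rw [pd_congr h1, pd_neg, pd_sum _ _ fun j _ => hd j, ← Finset.sum_add_distrib]
  congr 1
  exact Finset.sum_congr rfl fun j _ => pd_mul (h.diff2 hx i j) (h.diff1 hx j)

/-- the second order relation on the free boundary, raw form -/
theorem fb2_raw (h : SmoothCone u w U) {z : Ed d} (hz : z ∈ frontier (Pos u)) (hz0 : z ≠ 0) :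
    ∃ k m : Fin d → ℝ, ∀ l i, ∑ j, pd l (pd i (pd j w)) z * pd j w z =
      - (∑ j, pd i (pd j w) z * pd l (pd j w) z) + Qw w z * pd l (pd i w) z + k l * pd i w z +
        m i * pd l w z := by
  have hzU := h.frontier_sub hz hz0
  have hn := h.isOpen.mem_nhds hzU
  have hgs : ∀ i, ContDiffOn ℝ ∞ (fun x => pd i (Wd w) x + Qw w x * pd i w x) U := fun i =>
    (contDiffOn_pd h.isOpen h.Wd_smooth (by simp)).add (h.smoothQ.mul (h.contDiffOn_pdw i))
  have hg0 : ∀ i, ∀ y ∈ frontier (Pos u), y ≠ 0 → pd i (Wd w) y + Qw w y * pd i w y = 0 := by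
    intro i y hy hy0
    rw [h.pd_Wd (h.frontier_sub hy hy0) i, h.fb1 hy hy0 i]
    ring
  refine ⟨fun l => pd l (Qw w) z, fun i => - ∑ j, pd j (fun x => pd i (Wd w) x +
    Qw w x * pd i w x) z * pd j w z, fun l i => ?_⟩
  have h1 := h.grad_parallel (hgs i) (hg0 i) hz hz0 l
  have d1 : DifferentiableAt ℝ (pd i (Wd w)) z :=
    ((contDiffOn_pd (m := ∞) h.isOpen h.Wd_smooth (by simp)).contDiffAt hn).differentiableAt
      (by simp)
  have dQ : DifferentiableAt ℝ (Qw w) z := (h.smoothQ.contDiffAt hn).differentiableAt (by simp)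
  have d2 : DifferentiableAt ℝ (fun x => Qw w x * pd i w x) z := dQ.mul (h.diff1 hzU i)
  have h2 : pd l (fun x => pd i (Wd w) x + Qw w x * pd i w x) z =
      -((∑ j, pd l (pd i (pd j w)) z * pd j w z) + ∑ j, pd i (pd j w) z * pd l (pd j w) z) +
        (pd l (Qw w) z * pd i w z + Qw w z * pd l (pd i w) z) := by
    rw [pd_add d1 d2, h.pd_pd_Wd hzU, pd_mul dQ (h.diff1 hzU i)]
  rw [h2] at h1
  linarith

/-- **The second order relation on the free boundary.** -/
theorem fb2 (h : SmoothCone u w U) {z : Ed d} (hz : z ∈ frontier (Pos u)) (hz0 : z ≠ 0) :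
    ∃ o : Fin d → ℝ, (∑ i, o i * pd i w z = 0) ∧ ∀ l i,
      ∑ j, pd l (pd i (pd j w)) z * pd j w z =
      - (∑ j, pd l (pd j w) z * pd j (pd i w) z) + Qw w z * pd l (pd i w) z +
        o l * pd i w z + pd l w z * o i + N2 w z * (pd l w z * pd i w z) := by
  obtain ⟨k, m, hkm⟩ := h.fb2_raw hz hz0
  have hzU := h.frontier_sub hz hz0
  have hgr := h.grad z hz hz0
  set p : Fin d → ℝ := fun i => pd i w z with hp
  have hpp : ∑ i, p i * p i = 1 := by
    rw [← hgr]
    exact Finset.sum_congr rfl fun i _ => by rw [hp]; ring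
  -- symmetry gives `k - m` parallel to `p`
  have hsym : ∀ l i, k l * p i + m i * p l = k i * p l + m l * p i := by
    intro l i
    have h1 := hkm l i
    have h2 := hkm i l
    have e1 : ∑ j, pd l (pd i (pd j w)) z * pd j w z = ∑ j, pd i (pd l (pd j w)) z * pd j w z :=
      Finset.sum_congr rfl fun j _ => by rw [h.symm3b hzU l i j]
    have e2 : ∑ j, pd i (pd j w) z * pd l (pd j w) z = ∑ j, pd l (pd j w) z * pd i (pd j w) z :=
      Finset.sum_congr rfl fun j _ => by ring
    have e3 : pd l (pd i w) z = pd i (pd l w) z := h.symm2 hzU l i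
    rw [e1, e2, e3] at h1
    have h3 : k l * pd i w z + m i * pd l w z = k i * pd l w z + m l * pd i w z := by linarith
    exact h3
  obtain ⟨s, hs⟩ : ∃ s, s = ∑ i, (k i - m i) * p i := ⟨_, rfl⟩
  have hkms : ∀ l, k l - m l = s * p l := by
    intro l
    have h1 : ∑ i, (k l * p i + m i * p l) * p i = ∑ i, (k i * p l + m l * p i) * p i :=
      Finset.sum_congr rfl fun i _ => by rw [hsym l i]
    have h2 : ∑ i, (k l * p i + m i * p l) * p i = k l * (∑ i, p i * p i) +
        (∑ i, m i * p i) * p l := by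
      rw [Finset.mul_sum, Finset.sum_mul, ← Finset.sum_add_distrib]
      exact Finset.sum_congr rfl fun i _ => by ring
    have h3 : ∑ i, (k i * p l + m l * p i) * p i = (∑ i, k i * p i) * p l +
        m l * (∑ i, p i * p i) := by
      rw [Finset.mul_sum, Finset.sum_mul, ← Finset.sum_add_distrib]
      exact Finset.sum_congr rfl fun i _ => by ring
    have h4 : s = ∑ i, k i * p i - ∑ i, m i * p i := by
      rw [hs, ← Finset.sum_sub_distrib]
      exact Finset.sum_congr rfl fun i _ => by ring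
    rw [h2, h3, hpp] at h1
    rw [h4]
    linarith
  obtain ⟨κ, hκ⟩ : ∃ κ, κ = ∑ i, k i * p i := ⟨_, rfl⟩
  -- the trace
  have htr : N2 w z = 2 * κ - s := by
    have h1 : ∑ l, ∑ j, pd l (pd l (pd j w)) z * pd j w z = 0 := by
      rw [Finset.sum_comm]
      refine Finset.sum_eq_zero fun j _ => ?_
      rw [← Finset.sum_mul, h.tr3 (frontier_subset_closure hz) hz0 j, zero_mul]
    have h2 : ∑ l, ∑ j, pd l (pd l (pd j w)) z * pd j w z =
        - N2 w z + Qw w z * ∑ l, pd l (pd l w) z + ∑ l, k l * p l + ∑ l, m l * p l := by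
      rw [Finset.sum_congr rfl fun l _ => hkm l l]
      unfold N2
      rw [Finset.mul_sum, ← Finset.sum_neg_distrib, ← Finset.sum_add_distrib,
        ← Finset.sum_add_distrib, ← Finset.sum_add_distrib]
      refine Finset.sum_congr rfl fun l _ => ?_
      have e1 : ∑ j, pd l (pd j w) z * pd l (pd j w) z = ∑ j, pd l (pd j w) z ^ 2 :=
        Finset.sum_congr rfl fun j _ => by ring
      rw [e1]
    rw [h.tr2 (frontier_subset_closure hz) hz0] at h2
    have h3 : s = ∑ i, k i * p i - ∑ i, m i * p i := by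
      rw [hs, ← Finset.sum_sub_distrib]
      exact Finset.sum_congr rfl fun i _ => by ring
    rw [hκ]
    linarith
  refine ⟨fun i => k i - κ * p i, ?_, fun l i => ?_⟩
  · have h1 : ∑ i, (k i - κ * p i) * pd i w z = κ - κ * ∑ i, p i * p i := by
      rw [hκ, Finset.mul_sum, ← Finset.sum_sub_distrib]
      exact Finset.sum_congr rfl fun i _ => by
        change (k i - (∑ i, k i * p i) * p i) * p i = _
        ring
    rw [h1, hpp]
    ring
  · rw [hkm l i, htr]
    have e1 : ∑ j, pd i (pd j w) z * pd l (pd j w) z = ∑ j, pd l (pd j w) z * pd j (pd i w) z :=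
      Finset.sum_congr rfl fun j _ => by rw [h.symm2 hzU i j]; ring
    rw [e1]
    have h1 := hkms i
    have h2 : m i = k i - s * p i := by linarith
    rw [h2]
    change _ + k l * p i + (k i - s * p i) * p l = _ + (k l - κ * p l) * p i +
      p l * (k i - κ * p i) + (2 * κ - s) * (p l * p i)
    ring

/-- cubic trace `tr (D²w)³` -/
noncomputable def _root_.Vale.Agent.P098.C3 {d : ℕ} (w : Ed d → ℝ) (x : Ed d) : ℝ :=
  ∑ i, ∑ j, (∑ l, pd i (pd l w) x * pd l (pd j w) x) * pd i (pd j w) x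

/-- `∇N·∇w = -2 tr A³ + 4 Q N` on the free boundary, `Q = D²w(∇w,∇w)` -/
theorem bdN (h : SmoothCone u w U) {z : Ed d} (hz : z ∈ frontier (Pos u)) (hz0 : z ≠ 0) :
    ∑ k, pd k (N2 w) z * pd k w z = -2 * C3 w z + 4 * Qw w z * N2 w z := by
  have hzU := h.frontier_sub hz hz0
  obtain ⟨o, ho, hrel⟩ := h.fb2 hz hz0
  have h1 : ∑ k, pd k (N2 w) z * pd k w z =
      2 * ∑ i, ∑ j, pd i (pd j w) z * ∑ k, pd i (pd j (pd k w)) z * pd k w z := by
    have e1 : ∀ k, pd k (N2 w) z * pd k w z =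
        2 * ∑ i, ∑ j, pd i (pd j w) z * (pd i (pd j (pd k w)) z * pd k w z) := by
      intro k
      rw [h.pdN2 hzU, mul_assoc, Finset.sum_mul]
      congr 1
      refine Finset.sum_congr rfl fun i _ => ?_
      rw [Finset.sum_mul]
      refine Finset.sum_congr rfl fun j _ => ?_
      have e2 : pd k (pd i (pd j w)) z = pd i (pd j (pd k w)) z := by
        rw [h.symm3b hzU k i j, h.symm3a hzU i k j]
      rw [e2]
      ring
    rw [Finset.sum_congr rfl fun k _ => e1 k, ← Finset.mul_sum]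
    congr 1
    rw [Finset.sum_comm]
    refine Finset.sum_congr rfl fun i _ => ?_
    rw [Finset.sum_comm]
    refine Finset.sum_congr rfl fun j _ => ?_
    rw [Finset.mul_sum]
  have h2 : ∀ i j, pd i (pd j w) z * ∑ k, pd i (pd j (pd k w)) z * pd k w z =
      - ((∑ l, pd i (pd l w) z * pd l (pd j w) z) * pd i (pd j w) z) +
        Qw w z * pd i (pd j w) z ^ 2 + o i * (pd i (pd j w) z * pd j w z) +
        o j * (pd j (pd i w) z * pd i w z) + N2 w z * (pd i w z * pd i (pd j w) z *
          pd j w z) := by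
    intro i j
    rw [hrel i j, h.symm2 hzU j i]
    ring
  have h3 : ∑ i, ∑ j, o i * (pd i (pd j w) z * pd j w z) = 0 := by
    have e1 : ∀ i, ∑ j, o i * (pd i (pd j w) z * pd j w z) = Qw w z * (o i * pd i w z) := by
      intro i
      rw [← Finset.mul_sum, h.fb1 hz hz0 i]
      ring
    rw [Finset.sum_congr rfl fun i _ => e1 i, ← Finset.mul_sum, ho, mul_zero]
  have h4 : ∑ i, ∑ j, o j * (pd j (pd i w) z * pd i w z) = 0 := by
    rw [Finset.sum_comm]
    exact h3
  have h3' : ∑ i, o i * ∑ j, pd i (pd j w) z * pd j w z = 0 := by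
    rw [← h3]
    exact Finset.sum_congr rfl fun i _ => Finset.mul_sum _ _ _
  rw [h1]
  simp only [h2, Finset.sum_add_distrib, Finset.sum_neg_distrib, ← Finset.mul_sum]
  rw [h3', h4]
  unfold C3 N2
  have e5 : ∑ i, ∑ j, pd i w z * pd i (pd j w) z * pd j w z = Qw w z := rfl
  rw [e5]
  ring

end SmoothCone

end

end Vale.Agent.P098
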