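import Vale.Agent.Lib.P098.Var.CDef
import Vale.Agent.Lib.P098.Var.Jet

/-!
# P098: gradients of the scalars `jV`
-/

open MeasureTheory Set Filter Topology
open scoped ContDiff

namespace Vale.Agent.P098

section

variable {d : ℕ}

/-- position as a function -/
def xj (x : Ed d) (i : Fin d) : ℝ := x i

/-- gradient -/
noncomputable def pj (w : Ed d → ℝ) (x : Ed d) (i : Fin d) : ℝ := pd i w x

/-- Hessian -/
noncomputable def Aj (w : Ed d → ℝ) (x : Ed d) (i j : Fin d) : ℝ := pd i (pd j w) x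

/-- third derivatives -/
noncomputable def Tj (w : Ed d → ℝ) (x : Ed d) (i j k : Fin d) : ℝ := pd i (pd j (pd k w)) x

/-! ### algebra of sums -/

section alg

variable {A : Fin d → Fin d → ℝ} {T : Fin d → Fin d → Fin d → ℝ} {p : Fin d → ℝ}

theorem mm_symm (hA : ∀ i j, A i j = A j i) (i j : Fin d) : mm A i j = mm A j i := by
  unfold mm
  refine Finset.sum_congr rfl fun k _ => ?_
  rw [hA i k, hA k j, mul_comm]

theorem alg_c3 (hA : ∀ i j, A i j = A j i) (hT : ∀ i j k, T i j k = T i k j) (k : Fin d) :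
    ∑ i, ∑ j, ((∑ l, (T k i l * A l j + A i l * T k l j)) * A i j +
      mm A i j * T k i j) = 3 * ∑ i, ∑ j, mm A i j * T k i j := by
  have e1 : ∑ i, ∑ j, (∑ l, T k i l * A l j) * A i j = ∑ i, ∑ j, mm A i j * T k i j := by
    refine Finset.sum_congr rfl fun i _ => ?_
    have : ∀ j, (∑ l, T k i l * A l j) * A i j = ∑ l, T k i l * (A i j * A j l) := by
      intro j
      rw [Finset.sum_mul]
      refine Finset.sum_congr rfl fun l _ => ?_
      rw [hA l j]
      ring
    rw [Finset.sum_congr rfl fun j _ => this j, Finset.sum_comm]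
    refine Finset.sum_congr rfl fun l _ => ?_
    rw [← Finset.mul_sum, mul_comm]
    rfl
  have e2 : ∑ i, ∑ j, (∑ l, A i l * T k l j) * A i j = ∑ i, ∑ j, mm A i j * T k i j := by
    rw [Finset.sum_comm]
    have : ∀ j, ∑ i, (∑ l, A i l * T k l j) * A i j = ∑ i, mm A j i * T k j i := by
      intro j
      have e3 : ∀ i, (∑ l, A i l * T k l j) * A i j = ∑ l, T k j l * (A j i * A i l) := by
        intro i
        rw [Finset.sum_mul]
        refine Finset.sum_congr rfl fun l _ => ?_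
        rw [hT k l j, hA i j]
        ring
      rw [Finset.sum_congr rfl fun i _ => e3 i, Finset.sum_comm]
      refine Finset.sum_congr rfl fun l _ => ?_
      rw [← Finset.mul_sum, mul_comm]
      rfl
    exact Finset.sum_congr rfl fun j _ => this j
  simp only [Finset.sum_add_distrib, add_mul]
  rw [e1, e2]
  ring

theorem alg_c4 (hA : ∀ i j, A i j = A j i) (hT : ∀ i j k, T i j k = T i k j) (k : Fin d) :
    ∑ i, ∑ j, 2 * mm A i j * (∑ l, (T k i l * A l j + A i l * T k l j)) =
      4 * ∑ i, ∑ j, (∑ l, mm A i l * A l j) * T k i j := by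
  have e1 : ∑ i, ∑ j, mm A i j * (∑ l, T k i l * A l j) =
      ∑ i, ∑ j, (∑ l, mm A i l * A l j) * T k i j := by
    refine Finset.sum_congr rfl fun i _ => ?_
    simp only [Finset.mul_sum, Finset.sum_mul]
    rw [Finset.sum_comm]
    refine Finset.sum_congr rfl fun l _ => Finset.sum_congr rfl fun j _ => ?_
    rw [hA l j]
    ring
  have e2 : ∑ i, ∑ j, mm A i j * (∑ l, A i l * T k l j) =
      ∑ i, ∑ j, (∑ l, mm A i l * A l j) * T k i j := by
    rw [Finset.sum_comm]
    refine Finset.sum_congr rfl fun j _ => ?_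
    simp only [Finset.mul_sum, Finset.sum_mul]
    rw [Finset.sum_comm]
    refine Finset.sum_congr rfl fun l _ => Finset.sum_congr rfl fun i _ => ?_
    rw [mm_symm hA i j, hT k l j]
    ring
  have e3 : ∀ i j, 2 * mm A i j * (∑ l, (T k i l * A l j + A i l * T k l j)) =
      2 * (mm A i j * (∑ l, T k i l * A l j)) + 2 * (mm A i j * (∑ l, A i l * T k l j)) := by
    intro i j
    rw [Finset.sum_add_distrib]
    ring
  rw [Finset.sum_congr rfl fun i _ => Finset.sum_congr rfl fun j _ => e3 i j]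
  simp only [Finset.sum_add_distrib, ← Finset.mul_sum]
  rw [e1, e2]
  ring

theorem mv_mv (hA : ∀ i j, A i j = A j i) (q r : Fin d → ℝ) : dot q (mv A r) = dot (mv A q) r := by
  unfold dot mv
  simp only [Finset.mul_sum, Finset.sum_mul]
  rw [Finset.sum_comm]
  refine Finset.sum_congr rfl fun i _ => Finset.sum_congr rfl fun j _ => ?_
  rw [hA i j]
  ring

theorem alg_k1 (hA : ∀ i j, A i j = A j i) (k : Fin d) :
    ∑ i, (A k i * mv A p i + p i * (∑ j, (T k i j * p j + A i j * A k j))) =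
      jTq T p p k + 2 * mv A (mv A p) k := by
  have e1 : ∑ i, p i * ∑ j, T k i j * p j = jTq T p p k := by
    unfold jTq
    refine Finset.sum_congr rfl fun i _ => ?_
    rw [Finset.mul_sum]
    exact Finset.sum_congr rfl fun j _ => by ring
  have e2 : ∑ i, p i * ∑ j, A i j * A k j = mv A (mv A p) k := by
    have := mv_mv hA p (fun j => A k j)
    unfold dot mv at this
    rw [this]
    unfold mv
    exact Finset.sum_congr rfl fun j _ => by ring
  simp only [Finset.sum_add_distrib, mul_add]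
  rw [e1, e2]
  have e3 : ∑ i, A k i * mv A p i = mv A (mv A p) k := rfl
  rw [e3]
  ring

theorem alg_k2 (hA : ∀ i j, A i j = A j i) (k : Fin d) :
    ∑ i, (2 * mv A p i * (∑ j, (T k i j * p j + A i j * A k j))) =
      2 * jTq T (mv A p) p k + 2 * mv A (mv A (mv A p)) k := by
  have e1 : ∑ i, mv A p i * ∑ j, T k i j * p j = jTq T (mv A p) p k := by
    unfold jTq
    refine Finset.sum_congr rfl fun i _ => ?_
    rw [Finset.mul_sum]
    exact Finset.sum_congr rfl fun j _ => by ring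
  have e2 : ∑ i, mv A p i * ∑ j, A i j * A k j = mv A (mv A (mv A p)) k := by
    have := mv_mv hA (mv A p) (fun j => A k j)
    unfold dot at this
    have e3 : ∀ i, mv A (fun j => A k j) i = ∑ j, A i j * A k j := fun i => rfl
    simp only [e3] at this
    rw [this]
    unfold mv
    exact Finset.sum_congr rfl fun j _ => by ring
  have e4 : ∀ i, 2 * mv A p i * (∑ j, (T k i j * p j + A i j * A k j)) =
      2 * (mv A p i * ∑ j, T k i j * p j) + 2 * (mv A p i * ∑ j, A i j * A k j) := by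
    intro i
    rw [Finset.sum_add_distrib]
    ring
  rw [Finset.sum_congr rfl fun i _ => e4 i]
  simp only [Finset.sum_add_distrib, ← Finset.mul_sum]
  rw [e1, e2]

end alg

variable {u w : Ed d → ℝ} {U : Set (Ed d)}

namespace SmoothCone

theorem symAj (h : SmoothCone u w U) {x : Ed d} (hx : x ∈ U) (i j : Fin d) :
    Aj w x i j = Aj w x j i := h.symm2 hx i j

theorem symTj1 (h : SmoothCone u w U) {x : Ed d} (hx : x ∈ U) (i j k : Fin d) :
    Tj w x i j k = Tj w x j i k := h.symm3b hx i j k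

theorem symTj2 (h : SmoothCone u w U) {x : Ed d} (hx : x ∈ U) (i j k : Fin d) :
    Tj w x i j k = Tj w x i k j := h.symm3a hx i j k

theorem smoothp (h : SmoothCone u w U) (i : Fin d) : ContDiffOn ℝ ∞ (fun x => pj w x i) U :=
  h.contDiffOn_pdw i

theorem smoothA (h : SmoothCone u w U) (i j : Fin d) :
    ContDiffOn ℝ ∞ (fun x => Aj w x i j) U := h.contDiffOn_pdpdw i j

theorem smoothT (h : SmoothCone u w U) (i j k : Fin d) :
    ContDiffOn ℝ ∞ (fun x => Tj w x i j k) U := h.smooth3 i j k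

theorem smoothmv (h : SmoothCone u w U) {q : Ed d → Fin d → ℝ}
    (hq : ∀ i, ContDiffOn ℝ ∞ (fun x => q x i) U) (i : Fin d) :
    ContDiffOn ℝ ∞ (fun x => mv (Aj w x) (q x) i) U :=
  ContDiffOn.sum fun j _ => (h.smoothA i j).mul (hq j)

theorem smoothmm (h : SmoothCone u w U) (i j : Fin d) :
    ContDiffOn ℝ ∞ (fun x => mm (Aj w x) i j) U :=
  ContDiffOn.sum fun k _ => (h.smoothA i k).mul (h.smoothA k j)

theorem smoothdot {q r : Ed d → Fin d → ℝ}
    (hq : ∀ i, ContDiffOn ℝ ∞ (fun x => q x i) U) (hr : ∀ i, ContDiffOn ℝ ∞ (fun x => r x i) U) :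
    ContDiffOn ℝ ∞ (fun x => dot (q x) (r x)) U :=
  ContDiffOn.sum fun i _ => (hq i).mul (hr i)

theorem smoothx (i : Fin d) : ContDiffOn ℝ ∞ (fun x : Ed d => xj x i) U :=
  (EuclideanSpace.proj i : Ed d →L[ℝ] ℝ).contDiff.contDiffOn

/-- the scalars as functions of the point -/
noncomputable def _root_.Vale.Agent.P098.W7 {d : ℕ} (w : Ed d → ℝ) (x : Ed d) : Fin 7 → ℝ :=
  jV (xj x) (pj w x) (Aj w x)

theorem smoothW (h : SmoothCone u w U) (a : Fin 7) :
    ContDiffOn ℝ ∞ (fun x => W7 w x a) U := by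
  have hmv := h.smoothmv h.smoothp
  fin_cases a
  · exact smoothdot smoothx h.smoothp
  · exact smoothdot h.smoothp h.smoothp
  · change ContDiffOn ℝ ∞ (fun x => ∑ i, ∑ j, Aj w x i j ^ 2) U
    exact ContDiffOn.sum fun i _ => ContDiffOn.sum fun j _ => (h.smoothA i j).pow 2
  · change ContDiffOn ℝ ∞ (fun x => ∑ i, ∑ j, mm (Aj w x) i j * Aj w x i j) U
    exact ContDiffOn.sum fun i _ => ContDiffOn.sum fun j _ =>
      (h.smoothmm i j).mul (h.smoothA i j)
  · change ContDiffOn ℝ ∞ (fun x => ∑ i, ∑ j, mm (Aj w x) i j ^ 2) U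
    exact ContDiffOn.sum fun i _ => ContDiffOn.sum fun j _ => (h.smoothmm i j).pow 2
  · exact smoothdot h.smoothp hmv
  · exact smoothdot hmv hmv

theorem dA (h : SmoothCone u w U) {x : Ed d} (hx : x ∈ U) (i j : Fin d) :
    DifferentiableAt ℝ (fun x => Aj w x i j) x := h.diff2 hx i j

theorem dp (h : SmoothCone u w U) {x : Ed d} (hx : x ∈ U) (i : Fin d) :
    DifferentiableAt ℝ (fun x => pj w x i) x := h.diff1 hx i

theorem diff_of_smooth (h : SmoothCone u w U) {x : Ed d} (hx : x ∈ U) {f : Ed d → ℝ}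
    (hf : ContDiffOn ℝ ∞ f U) : DifferentiableAt ℝ f x :=
  (hf.contDiffAt (h.isOpen.mem_nhds hx)).differentiableAt (by simp)

theorem pd_mm (h : SmoothCone u w U) {x : Ed d} (hx : x ∈ U) (k i j : Fin d) :
    pd k (fun x => mm (Aj w x) i j) x =
      ∑ l, (Tj w x k i l * Aj w x l j + Aj w x i l * Tj w x k l j) := by
  have hd : ∀ l, DifferentiableAt ℝ (fun x => Aj w x i l * Aj w x l j) x := fun l =>
    (h.dA hx i l).mul (h.dA hx l j)
  have e : (fun x => mm (Aj w x) i j) = fun x => ∑ l, Aj w x i l * Aj w x l j := rfl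
  rw [e, pd_sum _ _ fun l _ => hd l]
  exact Finset.sum_congr rfl fun l _ => pd_mul (h.dA hx i l) (h.dA hx l j)

theorem pd_mv (h : SmoothCone u w U) {x : Ed d} (hx : x ∈ U) {q : Ed d → Fin d → ℝ}
    (hq : ∀ i, DifferentiableAt ℝ (fun x => q x i) x) (k i : Fin d) :
    pd k (fun x => mv (Aj w x) (q x) i) x =
      ∑ j, (Tj w x k i j * q x j + Aj w x i j * pd k (fun x => q x j) x) := by
  have hd : ∀ l, DifferentiableAt ℝ (fun x => Aj w x i l * q x l) x := fun l =>
    (h.dA hx i l).mul (hq l)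
  have e : (fun x => mv (Aj w x) (q x) i) = fun x => ∑ l, Aj w x i l * q x l := rfl
  rw [e, pd_sum _ _ fun l _ => hd l]
  exact Finset.sum_congr rfl fun l _ => pd_mul (h.dA hx i l) (hq l)

theorem pd_mvp (h : SmoothCone u w U) {x : Ed d} (hx : x ∈ U) (k i : Fin d) :
    pd k (fun x => mv (Aj w x) (pj w x) i) x =
      ∑ j, (Tj w x k i j * pj w x j + Aj w x i j * Aj w x k j) :=
  h.pd_mv hx (h.dp hx) k i

/-- gradients of the scalars on the positivity set -/
theorem pdW (h : SmoothCone u w U) {x : Ed d} (hx : x ∈ Pos u) (a : Fin 7) (k : Fin d) :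
    pd k (fun x => W7 w x a) x = jG (pj w x) (Aj w x) (Tj w x) a k := by
  have hxU := h.pos_sub hx
  have hA := h.symAj hxU
  have hT2 := h.symTj2 hxU
  have dmv : ∀ i, DifferentiableAt ℝ (fun x => mv (Aj w x) (pj w x) i) x := fun i =>
    h.diff_of_smooth hxU (h.smoothmv h.smoothp i)
  fin_cases a
  · change pd k (fun x : Ed d => ∑ i, x i * pd i w x) x = pd k w x
    have hd : ∀ i, DifferentiableAt ℝ (fun x : Ed d => x i * pd i w x) x := fun i =>
      (coord_diff i x).mul (h.diff1 hxU i)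
    rw [pd_sum _ _ fun i _ => hd i]
    have e1 : ∀ i, pd k (fun x : Ed d => x i * pd i w x) x =
        (if k = i then 1 else 0) * pd i w x + x i * pd k (pd i w) x := by
      intro i
      rw [pd_mul (coord_diff i x) (h.diff1 hxU i), pd_coord]
    rw [Finset.sum_congr rfl fun i _ => e1 i, Finset.sum_add_distrib]
    have e2 : ∑ i, x i * pd k (pd i w) x = 0 := by
      rw [← h.euler1_pos hx k]
    rw [e2, add_zero]
    simp
  · change pd k (fun x => ∑ i, pj w x i * pj w x i) x = 2 * mv (Aj w x) (pj w x) k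
    have hd : ∀ i, DifferentiableAt ℝ (fun x => pj w x i * pj w x i) x := fun i =>
      (h.dp hxU i).mul (h.dp hxU i)
    rw [pd_sum _ _ fun i _ => hd i]
    unfold mv
    rw [Finset.mul_sum]
    refine Finset.sum_congr rfl fun i _ => ?_
    rw [pd_mul (h.dp hxU i) (h.dp hxU i)]
    change pd k (pd i w) x * pd i w x + pd i w x * pd k (pd i w) x =
      2 * (pd k (pd i w) x * pd i w x)
    ring
  · exact h.pdN2 hxU k
  · change pd k (fun x => ∑ i, ∑ j, mm (Aj w x) i j * Aj w x i j) x =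
      3 * ∑ i, ∑ j, mm (Aj w x) i j * Tj w x k i j
    have dmm : ∀ i j, DifferentiableAt ℝ (fun x => mm (Aj w x) i j) x := fun i j =>
      h.diff_of_smooth hxU (h.smoothmm i j)
    have hd : ∀ i j, DifferentiableAt ℝ (fun x => mm (Aj w x) i j * Aj w x i j) x := fun i j =>
      (dmm i j).mul (h.dA hxU i j)
    rw [pd_sum _ _ fun i _ => DifferentiableAt.fun_sum fun j _ => hd i j, ← alg_c3 hA hT2]
    refine Finset.sum_congr rfl fun i _ => ?_
    rw [pd_sum _ _ fun j _ => hd i j]
    refine Finset.sum_congr rfl fun j _ => ?_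
    rw [pd_mul (dmm i j) (h.dA hxU i j), h.pd_mm hxU]
    rfl
  · change pd k (fun x => ∑ i, ∑ j, mm (Aj w x) i j ^ 2) x =
      4 * ∑ i, ∑ j, (∑ l, mm (Aj w x) i l * Aj w x l j) * Tj w x k i j
    have dmm : ∀ i j, DifferentiableAt ℝ (fun x => mm (Aj w x) i j) x := fun i j =>
      h.diff_of_smooth hxU (h.smoothmm i j)
    have hd : ∀ i j, DifferentiableAt ℝ (fun x => mm (Aj w x) i j ^ 2) x := fun i j =>
      (dmm i j).pow 2
    rw [pd_sum _ _ fun i _ => DifferentiableAt.fun_sum fun j _ => hd i j, ← alg_c4 hA hT2]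
    refine Finset.sum_congr rfl fun i _ => ?_
    rw [pd_sum _ _ fun j _ => hd i j]
    refine Finset.sum_congr rfl fun j _ => ?_
    rw [pd_sq (dmm i j), h.pd_mm hxU]
  · change pd k (fun x => ∑ i, pj w x i * mv (Aj w x) (pj w x) i) x =
      jTq (Tj w x) (pj w x) (pj w x) k + 2 * mv (Aj w x) (mv (Aj w x) (pj w x)) k
    have hd : ∀ i, DifferentiableAt ℝ (fun x => pj w x i * mv (Aj w x) (pj w x) i) x := fun i =>
      (h.dp hxU i).mul (dmv i)
    rw [pd_sum _ _ fun i _ => hd i, ← alg_k1 hA]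
    refine Finset.sum_congr rfl fun i _ => ?_
    rw [pd_mul (h.dp hxU i) (dmv i), h.pd_mvp hxU]
    rfl
  · change pd k (fun x => ∑ i, mv (Aj w x) (pj w x) i * mv (Aj w x) (pj w x) i) x =
      2 * jTq (Tj w x) (mv (Aj w x) (pj w x)) (pj w x) k +
        2 * mv (Aj w x) (mv (Aj w x) (mv (Aj w x) (pj w x))) k
    have hd : ∀ i, DifferentiableAt ℝ
        (fun x => mv (Aj w x) (pj w x) i * mv (Aj w x) (pj w x) i) x := fun i =>
      (dmv i).mul (dmv i)
    rw [pd_sum _ _ fun i _ => hd i, ← alg_k2 hA]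
    refine Finset.sum_congr rfl fun i _ => ?_
    rw [pd_mul (dmv i) (dmv i), h.pd_mvp hxU]
    ring

end SmoothCone

end

end Vale.Agent.P098
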