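import Vale.Agent.Lib.P098.Var.Field
import Vale.Agent.Lib.P098.Var.Fld

/-!
# P098: divergences of the fields `jF`
-/

open MeasureTheory Set Filter Topology
open scoped ContDiff

namespace Vale.Agent.P098

section

variable {d : ℕ}

section alg

variable {A : Fin d → Fin d → ℝ} {T : Fin d → Fin d → Fin d → ℝ} {p : Fin d → ℝ}

/-- pairing of a matrix with `T(·,·,p)` -/
theorem alg_pair (hT1 : ∀ i j k, T i j k = T j i k) (hT2 : ∀ i j k, T i j k = T i k j)
    (M : Fin d → Fin d → ℝ) (p : Fin d → ℝ) :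
    ∑ i, ∑ j, ∑ k, M i j * p k * T i j k = dot (fun i => ∑ j, ∑ k, M j k * T i j k) p := by
  unfold dot
  have e1 : ∀ i j, ∑ k, M i j * p k * T i j k = ∑ k, M i j * T k i j * p k := by
    intro i j
    refine Finset.sum_congr rfl fun k _ => ?_
    rw [hT2 i j k, hT1 i k j]
    ring
  simp only [e1, Finset.sum_mul]
  rw [Finset.sum_congr rfl fun i _ => Finset.sum_comm, Finset.sum_comm]

theorem alg_5 (hA : ∀ i j, A i j = A j i) (hT2 : ∀ i j k, T i j k = T i k j) :
    ∑ i, ∑ j, ∑ k, (∑ l, (T i j l * A l k + A j l * T i l k)) * T i j k = 2 * jJ1 A T := by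
  have e1 : ∑ i, ∑ j, ∑ k, (∑ l, T i j l * A l k) * T i j k = jJ1 A T := by
    unfold jJ1
    refine Finset.sum_congr rfl fun i _ => Finset.sum_congr rfl fun j _ =>
      Finset.sum_congr rfl fun k _ => ?_
    congr 1
    refine Finset.sum_congr rfl fun l _ => ?_
    rw [hA l k, mul_comm]
  have e2 : ∑ i, ∑ j, ∑ k, (∑ l, A j l * T i l k) * T i j k = jJ1 A T := by
    unfold jJ1
    refine Finset.sum_congr rfl fun i _ => ?_
    rw [Finset.sum_comm]
    refine Finset.sum_congr rfl fun k _ => Finset.sum_congr rfl fun j _ => ?_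
    rw [hT2 i j k]
    congr 1
    refine Finset.sum_congr rfl fun l _ => ?_
    rw [hT2 i l k]
  simp only [Finset.sum_add_distrib, add_mul]
  rw [e1, e2]
  ring

theorem alg_6 (hA : ∀ i j, A i j = A j i) (hT2 : ∀ i j k, T i j k = T i k j) :
    ∑ i, ∑ j, ∑ k, (∑ l, ((∑ m, (T i j m * A m l + A j m * T i m l)) * A l k +
      mm A j l * T i l k)) * T i j k = 2 * jJ2 A T + jJ3 A T := by
  have e1 : ∑ i, ∑ j, ∑ k, (∑ l, (∑ m, T i j m * A m l) * A l k) * T i j k = jJ2 A T := by
    unfold jJ2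
    refine Finset.sum_congr rfl fun i _ => Finset.sum_congr rfl fun j _ => ?_
    simp only [Finset.sum_mul]
    rw [Finset.sum_comm]
    refine Finset.sum_congr rfl fun l _ => ?_
    rw [sq, Finset.sum_mul]
    simp only [Finset.mul_sum]
    rw [Finset.sum_comm]
    refine Finset.sum_congr rfl fun m _ => Finset.sum_congr rfl fun k _ => ?_
    rw [hA m l]
    ring
  have e2 : ∑ i, ∑ j, ∑ k, (∑ l, (∑ m, A j m * T i m l) * A l k) * T i j k = jJ3 A T := by
    unfold jJ3
    refine Finset.sum_congr rfl fun i _ => Finset.sum_congr rfl fun j _ => ?_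
    simp only [Finset.sum_mul]
    rw [Finset.sum_comm]
    refine Finset.sum_congr rfl fun l _ => Finset.sum_congr rfl fun k _ => ?_
    rw [Finset.mul_sum]
    refine Finset.sum_congr rfl fun m _ => ?_
    ring
  have e3 : ∑ i, ∑ j, ∑ k, (∑ l, mm A j l * T i l k) * T i j k = jJ2 A T := by
    unfold jJ2
    refine Finset.sum_congr rfl fun i _ => ?_
    rw [Finset.sum_comm]
    refine Finset.sum_congr rfl fun k _ => ?_
    have e4 : ∀ m, (∑ l, A m l * T i k l) ^ 2 =
        ∑ j, ∑ l, (A j m * A m l) * T i l k * T i j k := by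
      intro m
      rw [sq, Finset.sum_mul]
      refine Finset.sum_congr rfl fun j _ => ?_
      rw [Finset.mul_sum]
      refine Finset.sum_congr rfl fun l _ => ?_
      rw [hT2 i k j, hT2 i k l, hA m j]
      ring
    rw [Finset.sum_congr rfl fun m _ => e4 m, Finset.sum_comm]
    refine Finset.sum_congr rfl fun j _ => ?_
    rw [Finset.sum_comm, Finset.sum_mul]
    refine Finset.sum_congr rfl fun l _ => ?_
    unfold mm
    rw [Finset.sum_mul, Finset.sum_mul]
  have e5 : ∀ i j k, (∑ l, ((∑ m, (T i j m * A m l + A j m * T i m l)) * A l k +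
      mm A j l * T i l k)) * T i j k =
      (∑ l, (∑ m, T i j m * A m l) * A l k) * T i j k +
      (∑ l, (∑ m, A j m * T i m l) * A l k) * T i j k +
      (∑ l, mm A j l * T i l k) * T i j k := by
    intro i j k
    rw [← add_mul, ← add_mul, ← Finset.sum_add_distrib, ← Finset.sum_add_distrib]
    congr 1
    refine Finset.sum_congr rfl fun l _ => ?_
    rw [Finset.sum_add_distrib, add_mul]
  rw [Finset.sum_congr rfl fun i _ => Finset.sum_congr rfl fun j _ =>
    Finset.sum_congr rfl fun k _ => e5 i j k]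
  simp only [Finset.sum_add_distrib]
  rw [e1, e2, e3]
  ring

theorem alg_7 (hT1 : ∀ i j k, T i j k = T j i k) (hT2 : ∀ i j k, T i j k = T i k j) :
    ∑ i, ∑ j, ∑ k, (A i j * p k + p j * A i k) * T i j k = 2 * dot (jX A T) p := by
  have e1 : ∑ i, ∑ j, ∑ k, A i j * p k * T i j k = dot (jX A T) p := alg_pair hT1 hT2 A p
  have e2 : ∑ i, ∑ j, ∑ k, p j * A i k * T i j k = dot (jX A T) p := by
    rw [← e1]
    refine Finset.sum_congr rfl fun i _ => ?_
    rw [Finset.sum_comm]
    refine Finset.sum_congr rfl fun k _ => Finset.sum_congr rfl fun j _ => ?_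
    rw [hT2 i j k]
    ring
  simp only [Finset.sum_add_distrib, add_mul]
  rw [e1, e2]
  ring

theorem alg_8 (hA : ∀ i j, A i j = A j i) (hT1 : ∀ i j k, T i j k = T j i k)
    (hT2 : ∀ i j k, T i j k = T i k j) (q : Fin d → ℝ) :
    ∑ i, ∑ j, ∑ k, ((∑ l, (T i j l * p l + A j l * A i l)) * p k + q j * A i k) * T i j k =
      jTp T p + dot (jX3 A T) p + dot (jX A T) q := by
  have e1 : ∑ i, ∑ j, ∑ k, (∑ l, T i j l * p l) * p k * T i j k = jTp T p := by
    unfold jTp
    refine Finset.sum_congr rfl fun i _ => Finset.sum_congr rfl fun j _ => ?_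
    rw [sq, Finset.mul_sum]
    exact Finset.sum_congr rfl fun k _ => by ring
  have e2 : ∑ i, ∑ j, ∑ k, (∑ l, A j l * A i l) * p k * T i j k = dot (jX3 A T) p := by
    refine Eq.trans ?_ (alg_pair hT1 hT2 (mm A) p)
    refine Finset.sum_congr rfl fun i _ => Finset.sum_congr rfl fun j _ =>
      Finset.sum_congr rfl fun k _ => ?_
    congr 2
    unfold mm
    refine Finset.sum_congr rfl fun l _ => ?_
    rw [hA j l, mul_comm]
  have e3 : ∑ i, ∑ j, ∑ k, q j * A i k * T i j k = dot (jX A T) q := by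
    refine Eq.trans ?_ (alg_pair hT1 hT2 A q)
    refine Finset.sum_congr rfl fun i _ => ?_
    rw [Finset.sum_comm]
    refine Finset.sum_congr rfl fun k _ => Finset.sum_congr rfl fun j _ => ?_
    rw [hT2 i j k]
    ring
  simp only [Finset.sum_add_distrib, add_mul]
  rw [e1, e2, e3]

theorem alg_Yp (hT1 : ∀ i j k, T i j k = T j i k) (hT2 : ∀ i j k, T i j k = T i k j) :
    ∑ i, ∑ j, A i j * ∑ k, A j k * ∑ l, T i k l * p l = dot (jX3 A T) p := by
  refine Eq.trans ?_ (alg_pair hT1 hT2 (mm A) p)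
  refine Finset.sum_congr rfl fun i _ => ?_
  simp only [Finset.mul_sum]
  rw [Finset.sum_comm]
  refine Finset.sum_congr rfl fun k _ => ?_
  rw [Finset.sum_comm]
  refine Finset.sum_congr rfl fun l _ => ?_
  unfold mm
  simp only [Finset.sum_mul]
  exact Finset.sum_congr rfl fun j _ => by ring

theorem alg_C4 (hA : ∀ i j, A i j = A j i) :
    ∑ i, ∑ j, A i j * ∑ k, A j k * ∑ l, A k l * A i l = jc4 A := by
  unfold jc4
  refine Finset.sum_congr rfl fun i _ => ?_
  have e1 : ∀ k, mm A i k ^ 2 = ∑ j, A i j * A j k * ∑ l, A k l * A i l := by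
    intro k
    rw [sq, ← Finset.sum_mul]
    congr 1
    rw [mm_symm hA]
    unfold mm
    exact Finset.sum_congr rfl fun l _ => by rw [hA l i]
  rw [Finset.sum_congr rfl fun k _ => e1 k, Finset.sum_comm]
  refine Finset.sum_congr rfl fun j _ => ?_
  rw [Finset.mul_sum]
  exact Finset.sum_congr rfl fun k _ => by ring

end alg

variable {u w : Ed d → ℝ} {U : Set (Ed d)}

namespace SmoothCone

theorem dT (h : SmoothCone u w U) {x : Ed d} (hx : x ∈ U) (i j k : Fin d) :
    DifferentiableAt ℝ (fun x => Tj w x i j k) x := h.diff3 hx i j k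

theorem lapT (h : SmoothCone u w U) {x : Ed d} (hx : x ∈ Pos u) (j k : Fin d) :
    ∑ i, pd i (fun x => Tj w x i j k) x = 0 := by
  have h1 : ContDiffOn ℝ ∞ (pd k w) (Pos u) := (h.contDiffOn_pdw k).mono h.pos_sub
  have h2 : ∀ y ∈ Pos u, lap (pd k w) y = 0 := fun y hy =>
    sum_pd_pd_pd h.isOpen_pos (h.smooth.mono h.pos_sub) h.harm hy k
  exact sum_pd_pd_pd h.isOpen_pos h1 h2 hx j

theorem divM (h : SmoothCone u w U) {x : Ed d} (hx : x ∈ Pos u)
    {M : Fin d → Fin d → Ed d → ℝ} (hM : ∀ j k, DifferentiableAt ℝ (M j k) x) :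
    ∑ i, pd i (fun y => ∑ j, ∑ k, M j k y * Tj w y i j k) x =
      ∑ i, ∑ j, ∑ k, pd i (M j k) x * Tj w x i j k := by
  have hxU := h.pos_sub hx
  have hd : ∀ i j k, DifferentiableAt ℝ (fun y => M j k y * Tj w y i j k) x := fun i j k =>
    (hM j k).mul (h.dT hxU i j k)
  have e1 : ∀ i, pd i (fun y => ∑ j, ∑ k, M j k y * Tj w y i j k) x =
      ∑ j, ∑ k, pd i (M j k) x * Tj w x i j k +
      ∑ j, ∑ k, M j k x * pd i (fun y => Tj w y i j k) x := by
    intro i
    rw [pd_sum _ _ fun j _ => DifferentiableAt.fun_sum fun k _ => hd i j k,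
      ← Finset.sum_add_distrib]
    refine Finset.sum_congr rfl fun j _ => ?_
    rw [pd_sum _ _ fun k _ => hd i j k, ← Finset.sum_add_distrib]
    exact Finset.sum_congr rfl fun k _ => pd_mul (hM j k) (h.dT hxU i j k)
  rw [Finset.sum_congr rfl fun i _ => e1 i, Finset.sum_add_distrib]
  have e2 : ∑ i, ∑ j, ∑ k, M j k x * pd i (fun y => Tj w y i j k) x = 0 := by
    rw [Finset.sum_comm]
    refine Finset.sum_eq_zero fun j _ => ?_
    rw [Finset.sum_comm]
    refine Finset.sum_eq_zero fun k _ => ?_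
    rw [← Finset.mul_sum, h.lapT hx, mul_zero]
  rw [e2, add_zero]

/-- the fields as functions of the point -/
noncomputable def _root_.Vale.Agent.P098.F9 {d : ℕ} (w : Ed d → ℝ) (m : Fin 9) (i : Fin d)
    (x : Ed d) : ℝ := jF (pj w x) (Aj w x) (Tj w x) m i

theorem smoothTM (h : SmoothCone u w U) {M : Fin d → Fin d → Ed d → ℝ}
    (hM : ∀ j k, ContDiffOn ℝ ∞ (M j k) U) (i : Fin d) :
    ContDiffOn ℝ ∞ (fun y => ∑ j, ∑ k, M j k y * Tj w y i j k) U :=
  ContDiffOn.sum fun j _ => ContDiffOn.sum fun k _ => (hM j k).mul (h.smoothT i j k)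

theorem smoothTq (h : SmoothCone u w U) {q r : Ed d → Fin d → ℝ}
    (hq : ∀ i, ContDiffOn ℝ ∞ (fun x => q x i) U) (hr : ∀ i, ContDiffOn ℝ ∞ (fun x => r x i) U)
    (i : Fin d) : ContDiffOn ℝ ∞ (fun x => jTq (Tj w x) (q x) (r x) i) U :=
  ContDiffOn.sum fun j _ => ContDiffOn.sum fun k _ =>
    ((h.smoothT i j k).mul (hq j)).mul (hr k)

theorem smooth9 (h : SmoothCone u w U) (m : Fin 9) (i : Fin d) :
    ContDiffOn ℝ ∞ (F9 w m i) U := by
  have hmv := h.smoothmv h.smoothp
  have hmv2 := h.smoothmv hmv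
  fin_cases m
  · exact h.smoothTM (M := fun j k y => Aj w y j k) h.smoothA i
  · exact h.smoothp i
  · exact hmv i
  · exact hmv2 i
  · exact h.smoothmv hmv2 i
  · exact h.smoothTM (M := fun j k y => mm (Aj w y) j k) h.smoothmm i
  · exact h.smoothTM (M := fun j k y => ∑ l, mm (Aj w y) j l * Aj w y l k)
      (fun j k => ContDiffOn.sum fun l _ => (h.smoothmm j l).mul (h.smoothA l k)) i
  · exact h.smoothTq h.smoothp h.smoothp i
  · exact h.smoothTq hmv h.smoothp i

/-- **Divergences of the fields.** -/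
theorem div9 (h : SmoothCone u w U) {x : Ed d} (hx : x ∈ Pos u) (m : Fin 9) :
    ∑ i, pd i (F9 w m i) x = jD (pj w x) (Aj w x) (Tj w x) m := by
  have hxU := h.pos_sub hx
  have hA := h.symAj hxU
  have hT1 := h.symTj1 hxU
  have hT2 := h.symTj2 hxU
  have dmv : ∀ i, DifferentiableAt ℝ (fun x => mv (Aj w x) (pj w x) i) x := fun i =>
    h.diff_of_smooth hxU (h.smoothmv h.smoothp i)
  have dmm : ∀ i j, DifferentiableAt ℝ (fun x => mm (Aj w x) i j) x := fun i j =>
    h.diff_of_smooth hxU (h.smoothmm i j)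
  fin_cases m
  · exact h.divF hx 0
  · exact h.divF hx 1
  · exact h.divF hx 2
  · exact h.divF hx 3
  · have h1 := h.divF hx 4
    change ∑ i, pd i (F9 w 4 i) x = _ at h1
    change ∑ i, pd i (F9 w 4 i) x = dot (jX (Aj w x) (Tj w x)) (mv (Aj w x) (pj w x)) +
      dot (jX3 (Aj w x) (Tj w x)) (pj w x) + jc4 (Aj w x)
    rw [h1, ← alg_Yp hT1 hT2, ← alg_C4 hA]
    rfl
  · change ∑ i, pd i (fun y => ∑ j, ∑ k, mm (Aj w y) j k * Tj w y i j k) x =
      2 * jJ1 (Aj w x) (Tj w x)
    rw [h.divM hx (M := fun j k y => mm (Aj w y) j k) dmm, ← alg_5 hA hT2]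
    refine Finset.sum_congr rfl fun i _ => Finset.sum_congr rfl fun j _ =>
      Finset.sum_congr rfl fun k _ => ?_
    rw [h.pd_mm hxU]
  · change ∑ i, pd i (fun y => ∑ j, ∑ k, (∑ l, mm (Aj w y) j l * Aj w y l k) *
      Tj w y i j k) x = 2 * jJ2 (Aj w x) (Tj w x) + jJ3 (Aj w x) (Tj w x)
    have hd : ∀ j k l, DifferentiableAt ℝ (fun y => mm (Aj w y) j l * Aj w y l k) x :=
      fun j k l => (dmm j l).mul (h.dA hxU l k)
    rw [h.divM hx (M := fun j k y => ∑ l, mm (Aj w y) j l * Aj w y l k)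
      (fun j k => DifferentiableAt.fun_sum fun l _ => hd j k l), ← alg_6 hA hT2]
    refine Finset.sum_congr rfl fun i _ => Finset.sum_congr rfl fun j _ =>
      Finset.sum_congr rfl fun k _ => ?_
    congr 1
    rw [pd_sum _ _ fun l _ => hd j k l]
    refine Finset.sum_congr rfl fun l _ => ?_
    rw [pd_mul (dmm j l) (h.dA hxU l k), h.pd_mm hxU]
    rfl
  · have e0 : ∀ i, F9 w 7 i = fun y => ∑ j, ∑ k, pj w y j * pj w y k * Tj w y i j k := by
      intro i
      funext y
      change jTq (Tj w y) (pj w y) (pj w y) i = _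
      exact Finset.sum_congr rfl fun j _ => Finset.sum_congr rfl fun k _ => by ring
    change ∑ i, pd i (F9 w 7 i) x = 2 * dot (jX (Aj w x) (Tj w x)) (pj w x)
    simp only [e0]
    rw [h.divM hx (M := fun j k y => pj w y j * pj w y k)
      (fun j k => (h.dp hxU j).mul (h.dp hxU k)), ← alg_7 hT1 hT2]
    refine Finset.sum_congr rfl fun i _ => Finset.sum_congr rfl fun j _ =>
      Finset.sum_congr rfl fun k _ => ?_
    rw [pd_mul (h.dp hxU j) (h.dp hxU k)]
    rfl
  · have e0 : ∀ i, F9 w 8 i = fun y => ∑ j, ∑ k, mv (Aj w y) (pj w y) j * pj w y k *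
        Tj w y i j k := by
      intro i
      funext y
      change jTq (Tj w y) (mv (Aj w y) (pj w y)) (pj w y) i = _
      exact Finset.sum_congr rfl fun j _ => Finset.sum_congr rfl fun k _ => by ring
    change ∑ i, pd i (F9 w 8 i) x = jTp (Tj w x) (pj w x) +
      dot (jX3 (Aj w x) (Tj w x)) (pj w x) + dot (jX (Aj w x) (Tj w x)) (mv (Aj w x) (pj w x))
    simp only [e0]
    rw [h.divM hx (M := fun j k y => mv (Aj w y) (pj w y) j * pj w y k)
      (fun j k => (dmv j).mul (h.dp hxU k)), ← alg_8 hA hT1 hT2]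
    refine Finset.sum_congr rfl fun i _ => Finset.sum_congr rfl fun j _ =>
      Finset.sum_congr rfl fun k _ => ?_
    rw [pd_mul (dmv j) (h.dp hxU k), h.pd_mvp hxU]
    rfl

end SmoothCone

end

end Vale.Agent.P098
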