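import Vale.Agent.Lib.P098.Var.HomFun

/-!
# P098: homogeneity of the jets and of `E = φ(V)`, `Z = Σ c_m(V) F_m`
-/

open MeasureTheory Set Filter Topology
open scoped ContDiff

namespace Vale.Agent.P098

section

variable {d : ℕ} {u w : Ed d → ℝ} {U : Set (Ed d)}

theorem pd_scale {f : Ed d → ℝ} {x : Ed d} {r c : ℝ} (hr : 0 < r)
    (hf : DifferentiableAt ℝ f (r • x)) (h : ∀ᶠ y in 𝓝 x, f (r • y) = c * f y)
    (hfx : DifferentiableAt ℝ f x) (i : Fin d) : pd i f (r • x) = c / r * pd i f x := by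
  have h1 : pd i (fun y => f (r • y)) x = r * pd i f (r • x) := by
    unfold pd
    have h2 : HasFDerivAt (fun y : Ed d => r • y) (r • ContinuousLinearMap.id ℝ (Ed d)) x :=
      (hasFDerivAt_id x).const_smul r
    have h3 := (hf.hasFDerivAt.comp x h2).fderiv
    have e : (fun y => f (r • y)) = f ∘ fun y : Ed d => r • y := rfl
    rw [e, h3]
    simp
  have h4 : pd i (fun y => f (r • y)) x = c * pd i f x := by
    rw [pd_congr h, pd_const_mul _ hfx]
  rw [h1] at h4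
  rw [div_mul_eq_mul_div, eq_div_iff hr.ne', mul_comm]
  exact h4

namespace SmoothCone

theorem smul_pos (h : SmoothCone u w U) {x : Ed d} (hx : x ∈ Pos u) {r : ℝ} (hr : 0 < r) :
    r • x ∈ Pos u := by
  change 0 < u (r • x)
  rw [h.hom r hr]
  exact mul_pos hr hx

theorem hom0 (h : SmoothCone u w U) {x : Ed d} (hx : x ∈ Pos u) {r : ℝ} (hr : 0 < r) :
    w (r • x) = r * w x := by
  rw [h.eq _ (h.smul_pos hx hr), h.eq _ hx, h.hom r hr]

theorem hom1 (h : SmoothCone u w U) {x : Ed d} (hx : x ∈ Pos u) {r : ℝ} (hr : 0 < r)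
    (i : Fin d) : pd i w (r • x) = pd i w x := by
  have h1 := pd_scale hr (h.diff0 (h.pos_sub (h.smul_pos hx hr)))
    (by filter_upwards [h.isOpen_pos.mem_nhds hx] with y hy using h.hom0 hy hr)
    (h.diff0 (h.pos_sub hx)) i
  rw [h1, div_self hr.ne', one_mul]

theorem hom2 (h : SmoothCone u w U) {x : Ed d} (hx : x ∈ Pos u) {r : ℝ} (hr : 0 < r)
    (i j : Fin d) : pd i (pd j w) (r • x) = r⁻¹ * pd i (pd j w) x := by
  have h1 := pd_scale (c := 1) hr (h.diff1 (h.pos_sub (h.smul_pos hx hr)) j)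
    (by
      filter_upwards [h.isOpen_pos.mem_nhds hx] with y hy
      rw [h.hom1 hy hr, one_mul]) (h.diff1 (h.pos_sub hx) j) i
  rw [h1, one_div]

theorem hom3 (h : SmoothCone u w U) {x : Ed d} (hx : x ∈ Pos u) {r : ℝ} (hr : 0 < r)
    (k i j : Fin d) : pd k (pd i (pd j w)) (r • x) = (r ^ 2)⁻¹ * pd k (pd i (pd j w)) x := by
  have h1 := pd_scale (c := r⁻¹) hr (h.diff2 (h.pos_sub (h.smul_pos hx hr)) i j)
    (by filter_upwards [h.isOpen_pos.mem_nhds hx] with y hy using h.hom2 hy hr i j)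
    (h.diff2 (h.pos_sub hx) i j) k
  rw [h1]
  congr 1
  field_simp

/-- degrees of the fields -/
def _root_.Vale.Agent.P098.deg6 : Fin 6 → ℤ := ![-3, 0, -1, -2, -3, 1]

theorem homF (h : SmoothCone u w U) {x : Ed d} (hx : x ∈ Pos u) {r : ℝ} (hr : 0 < r)
    (m : Fin 6) (i : Fin d) : F6 w m i (r • x) = r ^ (deg6 m) * F6 w m i x := by
  have hr0 := hr.ne'
  have e2 : ∀ i, ∑ j, pd i (pd j w) (r • x) * pd j w (r • x) =
      r⁻¹ * ∑ j, pd i (pd j w) x * pd j w x := by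
    intro i
    rw [Finset.mul_sum]
    refine Finset.sum_congr rfl fun j _ => ?_
    rw [h.hom2 hx hr, h.hom1 hx hr]
    ring
  have e3 : ∀ i, ∑ j, pd i (pd j w) (r • x) * ∑ k, pd j (pd k w) (r • x) * pd k w (r • x) =
      (r ^ 2)⁻¹ * ∑ j, pd i (pd j w) x * ∑ k, pd j (pd k w) x * pd k w x := by
    intro i
    rw [Finset.mul_sum]
    refine Finset.sum_congr rfl fun j _ => ?_
    rw [h.hom2 hx hr, e2]
    field_simp
  fin_cases m
  · change ∑ j, ∑ k, pd j (pd k w) (r • x) * pd i (pd j (pd k w)) (r • x) =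
      r ^ (-3 : ℤ) * ∑ j, ∑ k, pd j (pd k w) x * pd i (pd j (pd k w)) x
    rw [Finset.mul_sum]
    refine Finset.sum_congr rfl fun j _ => ?_
    rw [Finset.mul_sum]
    refine Finset.sum_congr rfl fun k _ => ?_
    rw [h.hom2 hx hr, h.hom3 hx hr, zpow_neg]
    have : r ^ (3 : ℤ) = r ^ 3 := by norm_cast
    rw [this]
    field_simp
  · change pd i w (r • x) = r ^ (0 : ℤ) * pd i w x
    rw [h.hom1 hx hr]
    simp
  · change ∑ j, pd i (pd j w) (r • x) * pd j w (r • x) =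
      r ^ (-1 : ℤ) * ∑ j, pd i (pd j w) x * pd j w x
    rw [e2]
    simp
  · change ∑ j, pd i (pd j w) (r • x) * ∑ k, pd j (pd k w) (r • x) * pd k w (r • x) =
      r ^ (-2 : ℤ) * ∑ j, pd i (pd j w) x * ∑ k, pd j (pd k w) x * pd k w x
    rw [e3, zpow_neg]
    norm_cast
  · change ∑ j, pd i (pd j w) (r • x) * (∑ k, pd j (pd k w) (r • x) *
      ∑ l, pd k (pd l w) (r • x) * pd l w (r • x)) =
      r ^ (-3 : ℤ) * ∑ j, pd i (pd j w) x * (∑ k, pd j (pd k w) x *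
        ∑ l, pd k (pd l w) x * pd l w x)
    rw [Finset.mul_sum]
    refine Finset.sum_congr rfl fun j _ => ?_
    rw [h.hom2 hx hr, e3, zpow_neg]
    have : r ^ (3 : ℤ) = r ^ 3 := by norm_cast
    rw [this]
    field_simp
  · change (r • x) i = r ^ (1 : ℤ) * x i
    simp

theorem homN2 (h : SmoothCone u w U) {x : Ed d} (hx : x ∈ Pos u) {r : ℝ} (hr : 0 < r) :
    N2 w (r • x) = (r ^ 2)⁻¹ * N2 w x := by
  unfold N2
  rw [Finset.mul_sum]
  refine Finset.sum_congr rfl fun i _ => ?_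
  rw [Finset.mul_sum]
  refine Finset.sum_congr rfl fun j _ => ?_
  rw [h.hom2 hx hr]
  field_simp

theorem homS (h : SmoothCone u w U) {x : Ed d} (hx : x ∈ Pos u) {r : ℝ} (hr : 0 < r) :
    Sw w (r • x) = Sw w x := by
  unfold Sw
  refine Finset.sum_congr rfl fun i _ => ?_
  rw [h.hom1 hx hr]

theorem rho_pos {x : Ed d} (hx : x ≠ 0) : 0 < ∑ i, x i ^ 2 := by
  have h1 : ∑ i, x i ^ 2 = ‖x‖ ^ 2 := by
    rw [EuclideanSpace.norm_sq_eq]
    simp
  rw [h1]
  have := norm_pos_iff.2 hx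
  positivity

theorem homV (h : SmoothCone u w U) {x : Ed d} (hx : x ∈ Pos u) {r : ℝ} (hr : 0 < r)
    (c : Coef) (k : ℝ) : c.hom k (V4 w (r • x)) = r ^ k * c.hom k (V4 w x) := by
  have hρ := rho_pos (h.ne_zero hx)
  have e3 : V4 w (r • x) 3 = r ^ 2 * V4 w x 3 := by
    change ∑ i, (r • x) i ^ 2 = r ^ 2 * ∑ i, x i ^ 2
    rw [Finset.mul_sum]
    refine Finset.sum_congr rfl fun i _ => ?_
    simp
    ring
  have e0 : V4 w (r • x) 0 = r * V4 w x 0 := h.hom0 hx hr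
  have e1 : V4 w (r • x) 1 = V4 w x 1 := h.homS hx hr
  have e2 : V4 w (r • x) 2 = (r ^ 2)⁻¹ * V4 w x 2 := h.homN2 hx hr
  have hρ' : 0 < V4 w x 3 := hρ
  unfold Coef.hom
  rw [e0, e1, e2, e3]
  have hsq : Real.sqrt (r ^ 2 * V4 w x 3) = r * Real.sqrt (V4 w x 3) := by
    rw [Real.sqrt_mul (by positivity), Real.sqrt_sq hr.le]
  have a1 : r * V4 w x 0 / Real.sqrt (r ^ 2 * V4 w x 3) = V4 w x 0 / Real.sqrt (V4 w x 3) := by
    rw [hsq, mul_div_mul_left _ _ hr.ne']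
  have a2 : r ^ 2 * V4 w x 3 * ((r ^ 2)⁻¹ * V4 w x 2) = V4 w x 3 * V4 w x 2 := by
    have : r ^ 2 ≠ 0 := by positivity
    field_simp
  have a3 : (r ^ 2 * V4 w x 3) ^ (k / 2) = r ^ k * V4 w x 3 ^ (k / 2) := by
    rw [Real.mul_rpow (by positivity) hρ'.le, ← Real.rpow_natCast r 2, ← Real.rpow_mul hr.le]
    congr 2
    push_cast
    ring
  rw [a1, a2, a3]
  ring

end SmoothCone

/-- the coefficient of `x` -/
def CoefSys.f4 (C : CoefSys) (α : ℝ) : Coef where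
  f u s N := C.g.f u s N * N - C.f0.f u s N * u - α * C.φ.f u s N
  fu u s N := C.g.fu u s N * N - (C.f0.fu u s N * u + C.f0.f u s N) - α * C.φ.fu u s N
  fs u s N := C.g.fs u s N * N - C.f0.fs u s N * u - α * C.φ.fs u s N
  fN u s N := (C.g.fN u s N * N + C.g.f u s N) - C.f0.fN u s N * u - α * C.φ.fN u s N

theorem CoefSys.f4_good {C : CoefSys} (hC : C.Good) (α : ℝ) : (C.f4 α).Good where
  smooth v hv := by
    have hp : ∀ i, ContDiffAt ℝ ∞ (fun v : Fin 3 → ℝ => v i) v := fun i =>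
      (contDiff_apply ℝ ℝ i).contDiffAt
    exact (((hC.g.smooth v hv).mul (hp 2)).sub ((hC.f0.smooth v hv).mul (hp 0))).sub
      (contDiffAt_const.mul (hC.φ.smooth v hv))
  hu u s N hN := by
    have h1 : HasDerivAt (fun t : ℝ => t) 1 u := hasDerivAt_id u
    have h2 := (((hC.g.hu u s N hN).mul_const N).sub ((hC.f0.hu u s N hN).mul h1)).sub
      ((hC.φ.hu u s N hN).const_mul α)
    refine h2.congr_deriv ?_
    simp only [CoefSys.f4]
    ring
  hs u s N hN := (((hC.g.hs u s N hN).mul_const N).sub ((hC.f0.hs u s N hN).mul_const u)).sub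
      ((hC.φ.hs u s N hN).const_mul α)
  hN u s N hN := by
    have h1 : HasDerivAt (fun t : ℝ => t) 1 N := hasDerivAt_id N
    have h2 := (((hC.g.hN u s N hN).mul h1).sub ((hC.f0.hN u s N hN).mul_const u)).sub
      ((hC.φ.hN u s N hN).const_mul α)
    refine h2.congr_deriv ?_
    simp only [CoefSys.f4]
    ring

/-- the six coefficients of `Z` -/
def CoefSys.cf (C : CoefSys) (α : ℝ) : Fin 6 → Coef := ![C.g, C.f0, C.f1, C.f2, C.f3, C.f4 α]

/-- their degrees -/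
noncomputable def kdeg (α : ℝ) : Fin 6 → ℝ :=
  ![2 - 2 * α, -1 - 2 * α, -2 * α, 1 - 2 * α, 2 - 2 * α, -2 - 2 * α]

theorem CoefSys.cf_good {C : CoefSys} (hC : C.Good) (α : ℝ) (m : Fin 6) : (C.cf α m).Good := by
  fin_cases m
  · exact hC.g
  · exact hC.f0
  · exact hC.f1
  · exact hC.f2
  · exact hC.f3
  · exact C.f4_good hC α

/-- the density -/
noncomputable def CoefSys.E (C : CoefSys) (α : ℝ) (w : Ed d → ℝ) (x : Ed d) : ℝ :=
  C.φ.hom (-(2 * α)) (V4 w x)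

/-- the field -/
noncomputable def CoefSys.Z (C : CoefSys) (α : ℝ) (w : Ed d → ℝ) (i : Fin d) (x : Ed d) : ℝ :=
  ∑ m, (C.cf α m).hom (kdeg α m) (V4 w x) * F6 w m i x

theorem CoefSys.homE (C : CoefSys) (α : ℝ) (h : SmoothCone u w U) {x : Ed d} (hx : x ∈ Pos u)
    {r : ℝ} (hr : 0 < r) : C.E α w (r • x) = r ^ (-(2 * α)) * C.E α w x :=
  h.homV hx hr C.φ _

theorem CoefSys.homZ (C : CoefSys) (α : ℝ) (h : SmoothCone u w U) {x : Ed d} (hx : x ∈ Pos u)
    {r : ℝ} (hr : 0 < r) (i : Fin d) :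
    C.Z α w i (r • x) = r ^ (-1 - 2 * α) * C.Z α w i x := by
  unfold CoefSys.Z
  rw [Finset.mul_sum]
  refine Finset.sum_congr rfl fun m _ => ?_
  rw [h.homV hx hr, h.homF hx hr, ← Real.rpow_intCast]
  have : r ^ kdeg α m * r ^ ((deg6 m : ℤ) : ℝ) = r ^ (-1 - 2 * α) := by
    rw [← Real.rpow_add hr]
    congr 1
    fin_cases m <;> simp [kdeg, deg6] <;> ring
  rw [← this]
  ring

end

end Vale.Agent.P098
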