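import Vale.Agent.Lib.P098.Var.CDef

/-!
# P098: scaling and bounds of the scalars and fields
-/

open MeasureTheory Set Filter Topology
open scoped ContDiff

namespace Vale.Agent.P098

section

variable {d : ℕ} {A : Fin d → Fin d → ℝ} {T : Fin d → Fin d → Fin d → ℝ} {x p q : Fin d → ℝ}

/-! ### scaling -/

theorem mv_s (c : ℝ) (q : Fin d → ℝ) (i : Fin d) :
    mv (fun i j => c * A i j) q i = c * mv A q i := by
  unfold mv
  rw [Finset.mul_sum]
  exact Finset.sum_congr rfl fun j _ => by ring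

theorem mv_q (c : ℝ) (q : Fin d → ℝ) (i : Fin d) :
    mv A (fun i => c * q i) i = c * mv A q i := by
  unfold mv
  rw [Finset.mul_sum]
  exact Finset.sum_congr rfl fun j _ => by ring

theorem mv1_s (c : ℝ) : mv (fun i j => c * A i j) p = fun i => c * mv A p i := by
  funext i
  exact mv_s c p i

theorem mv2_s (c : ℝ) : mv (fun i j => c * A i j) (mv (fun i j => c * A i j) p) =
    fun i => c ^ 2 * mv A (mv A p) i := by
  funext i
  rw [mv_s, mv1_s, mv_q]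
  ring

theorem mv3_s (c : ℝ) : mv (fun i j => c * A i j) (mv (fun i j => c * A i j)
    (mv (fun i j => c * A i j) p)) = fun i => c ^ 3 * mv A (mv A (mv A p)) i := by
  funext i
  rw [mv_s, mv2_s, mv_q]
  ring

theorem mm_s (c : ℝ) (i j : Fin d) : mm (fun i j => c * A i j) i j = c ^ 2 * mm A i j := by
  unfold mm
  rw [Finset.mul_sum]
  exact Finset.sum_congr rfl fun j _ => by ring

theorem jN_s (c : ℝ) : jN (fun i j => c * A i j) = c ^ 2 * jN A := by
  unfold jN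
  simp only [Finset.mul_sum]
  exact Finset.sum_congr rfl fun i _ => Finset.sum_congr rfl fun j _ => by ring

theorem jC3_mm : jC3 A = ∑ i, ∑ j, mm A i j * A i j := rfl

theorem jC3_s (c : ℝ) : jC3 (fun i j => c * A i j) = c ^ 3 * jC3 A := by
  rw [jC3_mm, jC3_mm]
  simp only [mm_s, Finset.mul_sum]
  exact Finset.sum_congr rfl fun i _ => Finset.sum_congr rfl fun j _ => by ring

theorem jc4_s (c : ℝ) : jc4 (fun i j => c * A i j) = c ^ 4 * jc4 A := by
  unfold jc4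
  simp only [mm_s, Finset.mul_sum]
  exact Finset.sum_congr rfl fun i _ => Finset.sum_congr rfl fun j _ => by ring

theorem jc5_s (c : ℝ) : jc5 (fun i j => c * A i j) = c ^ 5 * jc5 A := by
  unfold jc5
  simp only [mm_s, Finset.mul_sum]
  exact Finset.sum_congr rfl fun i _ => Finset.sum_congr rfl fun j _ =>
    Finset.sum_congr rfl fun l _ => by ring

theorem jX_s (c b : ℝ) (i : Fin d) : jX (fun i j => c * A i j) (fun i j k => b * T i j k) i =
    c * b * jX A T i := by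
  unfold jX
  simp only [Finset.mul_sum]
  exact Finset.sum_congr rfl fun i _ => Finset.sum_congr rfl fun j _ => by ring

theorem jX3_s (c b : ℝ) (i : Fin d) : jX3 (fun i j => c * A i j) (fun i j k => b * T i j k) i =
    c ^ 2 * b * jX3 A T i := by
  unfold jX3
  simp only [mm_s, Finset.mul_sum]
  exact Finset.sum_congr rfl fun i _ => Finset.sum_congr rfl fun j _ => by ring

theorem jX4_s (c b : ℝ) (i : Fin d) : jX4 (fun i j => c * A i j) (fun i j k => b * T i j k) i =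
    c ^ 3 * b * jX4 A T i := by
  unfold jX4
  simp only [mm_s, Finset.mul_sum, Finset.sum_mul]
  exact Finset.sum_congr rfl fun i _ => Finset.sum_congr rfl fun j _ =>
    Finset.sum_congr rfl fun l _ => by ring

theorem jTq_s (b c : ℝ) (q : Fin d → ℝ) (i : Fin d) :
    jTq (fun i j k => b * T i j k) (fun i => c * q i) p i = b * c * jTq T q p i := by
  unfold jTq
  simp only [Finset.mul_sum]
  exact Finset.sum_congr rfl fun i _ => Finset.sum_congr rfl fun j _ => by ring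

theorem jTp_s (b : ℝ) (i : Fin d) :
    jTq (fun i j k => b * T i j k) p p i = b * jTq T p p i := by
  unfold jTq
  simp only [Finset.mul_sum]
  exact Finset.sum_congr rfl fun i _ => Finset.sum_congr rfl fun j _ => by ring

theorem dot_s (b c : ℝ) (q r : Fin d → ℝ) :
    dot (fun i => b * q i) (fun i => c * r i) = b * c * dot q r := by
  unfold dot
  simp only [Finset.mul_sum]
  exact Finset.sum_congr rfl fun i _ => by ring

theorem dot_s1 (b : ℝ) (q r : Fin d → ℝ) :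
    dot (fun i => b * q i) r = b * dot q r := by
  unfold dot
  simp only [Finset.mul_sum]
  exact Finset.sum_congr rfl fun i _ => by ring

theorem dot_s2 (b : ℝ) (q r : Fin d → ℝ) :
    dot q (fun i => b * r i) = b * dot q r := by
  unfold dot
  simp only [Finset.mul_sum]
  exact Finset.sum_congr rfl fun i _ => by ring

/-- scaling of the scalars -/
theorem jV_scale (r : ℝ) (a : Fin 7) :
    jV (fun i => r * x i) p (fun i j => r⁻¹ * A i j) a = r ^ (del7 a) * jV x p A a := by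
  fin_cases a
  · change dot (fun i => r * x i) p = r ^ (1 : ℤ) * dot x p
    rw [dot_s1]
    simp
  · change dot p p = r ^ (0 : ℤ) * dot p p
    simp
  · change jN (fun i j => r⁻¹ * A i j) = r ^ (-2 : ℤ) * jN A
    rw [jN_s, zpow_neg, inv_pow]
    norm_cast
  · change jC3 (fun i j => r⁻¹ * A i j) = r ^ (-3 : ℤ) * jC3 A
    rw [jC3_s, zpow_neg, inv_pow]
    norm_cast
  · change jc4 (fun i j => r⁻¹ * A i j) = r ^ (-4 : ℤ) * jc4 A
    rw [jc4_s, zpow_neg, inv_pow]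
    norm_cast
  · change dot p (mv (fun i j => r⁻¹ * A i j) p) = r ^ (-1 : ℤ) * dot p (mv A p)
    rw [mv1_s, dot_s2]
    simp
  · change dot (mv (fun i j => r⁻¹ * A i j) p) (mv (fun i j => r⁻¹ * A i j) p) =
      r ^ (-2 : ℤ) * dot (mv A p) (mv A p)
    rw [mv1_s, dot_s, zpow_neg]
    have : r ^ (2 : ℤ) = r * r := by
      rw [← sq]
      norm_cast
    rw [this, mul_inv]

/-- scaling of the fields -/
theorem jF_scale (r : ℝ) (m : Fin 9) (i : Fin d) :
    jF p (fun i j => r⁻¹ * A i j) (fun i j k => (r ^ 2)⁻¹ * T i j k) m i =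
      r ^ (deg9 m) * jF p A T m i := by
  fin_cases m
  · change jX (fun i j => r⁻¹ * A i j) (fun i j k => (r ^ 2)⁻¹ * T i j k) i =
      r ^ (-3 : ℤ) * jX A T i
    rw [jX_s, zpow_neg]
    congr 1
    rw [← mul_inv]
    congr 1
    rw [← pow_succ']
    norm_cast
  · change p i = r ^ (0 : ℤ) * p i
    simp
  · change mv (fun i j => r⁻¹ * A i j) p i = r ^ (-1 : ℤ) * mv A p i
    rw [mv_s]
    simp
  · change mv (fun i j => r⁻¹ * A i j) (mv (fun i j => r⁻¹ * A i j) p) i =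
      r ^ (-2 : ℤ) * mv A (mv A p) i
    rw [mv2_s, zpow_neg, inv_pow]
    norm_cast
  · change mv (fun i j => r⁻¹ * A i j) (mv (fun i j => r⁻¹ * A i j)
      (mv (fun i j => r⁻¹ * A i j) p)) i = r ^ (-3 : ℤ) * mv A (mv A (mv A p)) i
    rw [mv3_s, zpow_neg, inv_pow]
    norm_cast
  · change jX3 (fun i j => r⁻¹ * A i j) (fun i j k => (r ^ 2)⁻¹ * T i j k) i =
      r ^ (-4 : ℤ) * jX3 A T i
    rw [jX3_s, zpow_neg]
    congr 1
    rw [inv_pow, ← mul_inv]
    congr 1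
    rw [← pow_add]
    norm_cast
  · change jX4 (fun i j => r⁻¹ * A i j) (fun i j k => (r ^ 2)⁻¹ * T i j k) i =
      r ^ (-5 : ℤ) * jX4 A T i
    rw [jX4_s, zpow_neg]
    congr 1
    rw [inv_pow, ← mul_inv]
    congr 1
    rw [← pow_add]
    norm_cast
  · change jTq (fun i j k => (r ^ 2)⁻¹ * T i j k) p p i = r ^ (-2 : ℤ) * jTq T p p i
    rw [jTp_s, zpow_neg]
    norm_cast
  · change jTq (fun i j k => (r ^ 2)⁻¹ * T i j k) (mv (fun i j => r⁻¹ * A i j) p) p i =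
      r ^ (-3 : ℤ) * jTq T (mv A p) p i
    rw [mv1_s, jTq_s, zpow_neg]
    congr 1
    rw [← mul_inv]
    congr 1

/-! ### bounds -/

theorem jN_nonneg : 0 ≤ jN A :=
  Finset.sum_nonneg fun _ _ => Finset.sum_nonneg fun _ _ => sq_nonneg _

theorem jT_nonneg : 0 ≤ jT T :=
  Finset.sum_nonneg fun _ _ => Finset.sum_nonneg fun _ _ => Finset.sum_nonneg fun _ _ =>
    sq_nonneg _

theorem mv_sq_le (A : Fin d → Fin d → ℝ) (q : Fin d → ℝ) :
    ∑ i, mv A q i ^ 2 ≤ jN A * ∑ i, q i ^ 2 := by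
  unfold jN mv
  rw [Finset.sum_mul]
  exact Finset.sum_le_sum fun i _ => Finset.sum_mul_sq_le_sq_mul_sq _ _ _

theorem mm_sq_le (A B : Fin d → Fin d → ℝ) :
    ∑ i, ∑ j, (∑ k, A i k * B k j) ^ 2 ≤ jN A * jN B := by
  unfold jN
  rw [Finset.sum_mul]
  refine Finset.sum_le_sum fun i _ => ?_
  rw [Finset.sum_comm (f := fun i j => B i j ^ 2), Finset.mul_sum]
  exact Finset.sum_le_sum fun j _ => Finset.sum_mul_sq_le_sq_mul_sq _ _ _

theorem jc4_le (A : Fin d → Fin d → ℝ) : jc4 A ≤ jN A ^ 2 := by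
  rw [sq]
  exact mm_sq_le A A

theorem pair_sq_le (M B : Fin d → Fin d → ℝ) :
    (∑ i, ∑ j, M i j * B i j) ^ 2 ≤ jN M * jN B := by
  unfold jN
  simp only [← Finset.sum_product']
  exact Finset.sum_mul_sq_le_sq_mul_sq _ _ _

theorem jC3_sq_le (A : Fin d → Fin d → ℝ) : jC3 A ^ 2 ≤ jN A ^ 3 := by
  have h1 := pair_sq_le (mm A) A
  have h2 : jN (mm A) = jc4 A := rfl
  rw [h2] at h1
  have h3 := jc4_le A
  have h4 := jN_nonneg (A := A)
  calc jC3 A ^ 2 ≤ jc4 A * jN A := h1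
    _ ≤ jN A ^ 2 * jN A := mul_le_mul_of_nonneg_right h3 h4
    _ = jN A ^ 3 := by ring

theorem dot_sq_le (q r : Fin d → ℝ) : dot q r ^ 2 ≤ (∑ i, q i ^ 2) * ∑ i, r i ^ 2 :=
  Finset.sum_mul_sq_le_sq_mul_sq _ _ _

theorem MT_sq_le (M : Fin d → Fin d → ℝ) (T : Fin d → Fin d → Fin d → ℝ) :
    ∑ i, (∑ j, ∑ k, M j k * T i j k) ^ 2 ≤ jN M * jT T := by
  unfold jT
  rw [Finset.mul_sum]
  exact Finset.sum_le_sum fun i _ => pair_sq_le M (T i)

theorem jN_pq (p q : Fin d → ℝ) : jN (fun i j => p i * q j) =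
    (∑ i, p i ^ 2) * ∑ j, q j ^ 2 := by
  unfold jN
  rw [Finset.sum_mul_sum]
  exact Finset.sum_congr rfl fun i _ => Finset.sum_congr rfl fun j _ => by ring

theorem dot_pp (p : Fin d → ℝ) : dot p p = ∑ i, p i ^ 2 :=
  Finset.sum_congr rfl fun i _ => by ring

theorem pp_nonneg (p : Fin d → ℝ) : 0 ≤ ∑ i, p i ^ 2 := Finset.sum_nonneg fun i _ => sq_nonneg _

/-- bounds of the fields: `|F_m|² ≤ N^(2 e_m) s^(…) · …` -/
theorem jF_sq_le (p : Fin d → ℝ) (A : Fin d → Fin d → ℝ) (T : Fin d → Fin d → Fin d → ℝ) :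
    ∑ i, jF p A T 0 i ^ 2 ≤ jN A * jT T ∧ ∑ i, jF p A T 1 i ^ 2 ≤ ∑ i, p i ^ 2 ∧
    ∑ i, jF p A T 2 i ^ 2 ≤ jN A * ∑ i, p i ^ 2 ∧
    ∑ i, jF p A T 3 i ^ 2 ≤ jN A ^ 2 * ∑ i, p i ^ 2 ∧
    ∑ i, jF p A T 4 i ^ 2 ≤ jN A ^ 3 * ∑ i, p i ^ 2 ∧
    ∑ i, jF p A T 5 i ^ 2 ≤ jN A ^ 2 * jT T ∧ ∑ i, jF p A T 6 i ^ 2 ≤ jN A ^ 3 * jT T ∧
    ∑ i, jF p A T 7 i ^ 2 ≤ (∑ i, p i ^ 2) ^ 2 * jT T ∧
    ∑ i, jF p A T 8 i ^ 2 ≤ jN A * (∑ i, p i ^ 2) ^ 2 * jT T := by
  have hN := jN_nonneg (A := A)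
  have hT := jT_nonneg (T := T)
  have hp := pp_nonneg p
  have h1 := mv_sq_le A p
  have h2 := mv_sq_le A (mv A p)
  have h3 := mv_sq_le A (mv A (mv A p))
  have h1' : ∑ i, mv A (mv A p) i ^ 2 ≤ jN A ^ 2 * ∑ i, p i ^ 2 := by
    calc _ ≤ jN A * ∑ i, mv A p i ^ 2 := h2
      _ ≤ jN A * (jN A * ∑ i, p i ^ 2) := mul_le_mul_of_nonneg_left h1 hN
      _ = _ := by ring
  have hjT : ∀ (q r : Fin d → ℝ), ∑ i, jTq T q r i ^ 2 ≤
      ((∑ i, q i ^ 2) * ∑ i, r i ^ 2) * jT T := by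
    intro q r
    have e : ∀ i, jTq T q r i = ∑ j, ∑ k, (q j * r k) * T i j k := fun i =>
      Finset.sum_congr rfl fun j _ => Finset.sum_congr rfl fun k _ => by ring
    simp only [e]
    rw [← jN_pq]
    exact MT_sq_le (fun j k => q j * r k) T
  refine ⟨MT_sq_le A T, le_refl _, h1, h1', ?_, ?_, ?_, ?_, ?_⟩
  · calc _ ≤ jN A * ∑ i, mv A (mv A p) i ^ 2 := h3
      _ ≤ jN A * (jN A ^ 2 * ∑ i, p i ^ 2) := mul_le_mul_of_nonneg_left h1' hN
      _ = _ := by ring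
  · calc _ ≤ jN (mm A) * jT T := MT_sq_le (mm A) T
      _ ≤ jN A ^ 2 * jT T := mul_le_mul_of_nonneg_right (jc4_le A) hT
  · have h4 : jN (fun j k => ∑ l, mm A j l * A l k) ≤ jN A ^ 3 := by
      calc _ ≤ jN (mm A) * jN A := mm_sq_le (mm A) A
        _ ≤ jN A ^ 2 * jN A := mul_le_mul_of_nonneg_right (jc4_le A) hN
        _ = _ := by ring
    calc _ ≤ jN (fun j k => ∑ l, mm A j l * A l k) * jT T :=
        MT_sq_le (fun j k => ∑ l, mm A j l * A l k) T
      _ ≤ jN A ^ 3 * jT T := mul_le_mul_of_nonneg_right h4 hT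
  · have := hjT p p
    rw [← sq] at this
    exact this
  · calc _ ≤ ((∑ i, mv A p i ^ 2) * ∑ i, p i ^ 2) * jT T := hjT (mv A p) p
      _ ≤ ((jN A * ∑ i, p i ^ 2) * ∑ i, p i ^ 2) * jT T :=
        mul_le_mul_of_nonneg_right (mul_le_mul_of_nonneg_right h1 hp) hT
      _ = _ := by ring

theorem abs_le_rpow_of_sq_le {y N : ℝ} {n : ℕ} (hN : 0 ≤ N) (h : y ^ 2 ≤ N ^ n) :
    |y| ≤ N ^ ((n : ℝ) / 2) := by
  have h1 : (N ^ ((n : ℝ) / 2)) ^ 2 = N ^ n := by
    rw [← Real.rpow_natCast (N ^ ((n : ℝ) / 2)) 2, ← Real.rpow_mul hN]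
    push_cast
    rw [div_mul_cancel₀ _ (two_ne_zero), Real.rpow_natCast]
  exact abs_le_of_sq_le_sq (by rw [h1]; exact h) (Real.rpow_nonneg hN _)

/-- the scalars of a jet lie in the domain -/
theorem dom_of_jet {R : ℝ} (h0 : |dot x p| ≤ R) (h1 : dot p p ≤ R) (hN : 0 < jN A)
    (hN2 : jN A ≤ R) : Dom R (jV x p A) where
  u_le := h0
  s_nn := by
    change 0 ≤ dot p p
    rw [dot_pp]
    exact pp_nonneg p
  s_le := h1
  N_pos := hN
  N_le := hN2
  c3 := by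
    change |jC3 A| ≤ jN A ^ (3 / 2 : ℝ)
    have := abs_le_rpow_of_sq_le (n := 3) hN.le (jC3_sq_le A)
    push_cast at this
    exact this
  c4 := by
    change |jc4 A| ≤ jN A ^ 2
    rw [abs_of_nonneg (Finset.sum_nonneg fun _ _ => Finset.sum_nonneg fun _ _ => sq_nonneg _)]
    exact jc4_le A
  k1 := by
    change |dot p (mv A p)| ≤ jN A ^ (1 / 2 : ℝ) * dot p p
    rw [dot_pp]
    have h2 := dot_sq_le p (mv A p)
    have h3 := mv_sq_le A p
    have hp := pp_nonneg p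
    refine abs_le_of_sq_le_sq ?_ (mul_nonneg (Real.rpow_nonneg hN.le _) hp)
    have h4 : (jN A ^ (1 / 2 : ℝ) * ∑ i, p i ^ 2) ^ 2 = jN A * (∑ i, p i ^ 2) ^ 2 := by
      rw [mul_pow, ← Real.sqrt_eq_rpow, Real.sq_sqrt hN.le]
    rw [h4]
    calc _ ≤ (∑ i, p i ^ 2) * ∑ i, mv A p i ^ 2 := h2
      _ ≤ (∑ i, p i ^ 2) * (jN A * ∑ i, p i ^ 2) := mul_le_mul_of_nonneg_left h3 hp
      _ = _ := by ring
  k2 := by
    change |dot (mv A p) (mv A p)| ≤ jN A * dot p p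
    rw [dot_pp, dot_pp, abs_of_nonneg (pp_nonneg _)]
    exact mv_sq_le A p

end

end Vale.Agent.P098
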