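import Vale.Agent.Lib.P098.Var.FldX
import Vale.Agent.Lib.P098.Var.FldD
import Vale.Agent.Lib.P098.Var.HomJet
import Vale.Agent.Lib.P098.Var.Scale

/-!
# P098: the density `E` and the field `Z` of a certificate
-/

open MeasureTheory Set Filter Topology
open scoped ContDiff

namespace Vale.Agent.P098

section

variable {d : ℕ}

/-- `|x|²` -/
def rho (x : Ed d) : ℝ := ∑ i, x i ^ 2

theorem rho_pos' {x : Ed d} (hx : x ≠ 0) : 0 < rho x := SmoothCone.rho_pos hx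

theorem rho_norm (x : Ed d) : rho x = ‖x‖ ^ 2 := by
  unfold rho
  rw [EuclideanSpace.norm_sq_eq]
  simp

theorem rho_smooth : ContDiff ℝ ∞ (rho : Ed d → ℝ) :=
  ContDiff.sum fun i _ => (EuclideanSpace.proj i : Ed d →L[ℝ] ℝ).contDiff.pow 2

theorem pd_rho (x : Ed d) (i : Fin d) : pd i rho x = 2 * x i := by
  have hd : ∀ j, DifferentiableAt ℝ (fun y : Ed d => y j ^ 2) x := fun j =>
    (coord_diff j x).pow 2
  have e : (rho : Ed d → ℝ) = fun y => ∑ j, y j ^ 2 := rfl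
  rw [e, pd_sum _ _ fun j _ => hd j]
  have h1 : ∀ j, pd i (fun y : Ed d => y j ^ 2) x = if i = j then 2 * x j else 0 := by
    intro j
    rw [pd_sq (coord_diff j x), pd_coord]
    split_ifs <;> ring
  rw [Finset.sum_congr rfl fun j _ => h1 j, Finset.sum_ite_eq]
  simp

theorem rho_rpow_smooth {x : Ed d} (hx : x ≠ 0) (β : ℝ) :
    ContDiffAt ℝ ∞ (fun y => rho y ^ β) x :=
  rho_smooth.contDiffAt.rpow_const_of_ne (rho_pos' hx).ne'

theorem pd_rho_rpow {x : Ed d} (hx : x ≠ 0) (β : ℝ) (i : Fin d) :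
    pd i (fun y => rho y ^ β) x = β * rho x ^ (β - 1) * (2 * x i) := by
  have h1 : HasDerivAt (fun t : ℝ => t ^ β) (β * rho x ^ (β - 1)) (rho x) :=
    Real.hasDerivAt_rpow_const (Or.inl (rho_pos' hx).ne')
  rw [pd_comp (fun t => t ^ β) h1.differentiableAt
    (rho_smooth.differentiable (by simp) x), h1.deriv, pd_rho]

theorem rho_smul {x : Ed d} {r : ℝ} : rho (r • x) = r ^ 2 * rho x := by
  rw [rho_norm, rho_norm, norm_smul, mul_pow, Real.norm_eq_abs, sq_abs]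

theorem rho_smul_rpow {x : Ed d} {r : ℝ} (hr : 0 < r) (β : ℝ) :
    rho (r • x) ^ β = r ^ (2 * β) * rho x ^ β := by
  rw [rho_smul, Real.mul_rpow (by positivity) (by rw [rho_norm]; positivity),
    ← Real.rpow_natCast r 2, ← Real.rpow_mul hr.le]
  norm_cast

/-- normalized scalars -/
noncomputable def Vh (w : Ed d → ℝ) (x : Ed d) (a : Fin 7) : ℝ :=
  rho x ^ (-(del7 a : ℝ) / 2) * W7 w x a

/-- `E` -/
noncomputable def CS.E (C : CS) (α : ℝ) (w : Ed d → ℝ) (x : Ed d) : ℝ :=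
  rho x ^ (-α) * C.φ.f (Vh w x)

/-- coefficient of `F_m` -/
noncomputable def CS.cm (C : CS) (α : ℝ) (m : Fin 9) (w : Ed d → ℝ) (x : Ed d) : ℝ :=
  rho x ^ ((-1 - 2 * α - deg9 m) / 2) * (C.c m).f (Vh w x)

/-- coefficient of `x` -/
noncomputable def CS.cX (C : CS) (α : ℝ) (w : Ed d → ℝ) (x : Ed d) : ℝ :=
  rho x ^ (-1 - α) * C.cx α (Vh w x)

/-- `Z` -/
noncomputable def CS.Z (C : CS) (α : ℝ) (w : Ed d → ℝ) (i : Fin d) (x : Ed d) : ℝ :=
  ∑ m, C.cm α m w x * F9 w m i x + C.cX α w x * x i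

variable {u w : Ed d → ℝ} {U : Set (Ed d)}

theorem W7_two (w : Ed d → ℝ) (x : Ed d) : W7 w x 2 = N2 w x := rfl

theorem Vh_two (w : Ed d → ℝ) (x : Ed d) : Vh w x 2 = rho x * N2 w x := by
  unfold Vh
  have e : (-((del7 2 : ℤ) : ℝ) / 2) = 1 := by
    simp [del7]
  rw [e, Real.rpow_one]
  rfl

theorem Vh_one (w : Ed d → ℝ) (x : Ed d) : Vh w x 1 = W7 w x 1 := by
  unfold Vh
  have e : (-((del7 1 : ℤ) : ℝ) / 2) = 0 := by
    simp [del7]
  rw [e, Real.rpow_zero, one_mul]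

/-- the normalized scalars are the scalars of the rescaled jet -/
theorem Vh_eq (w : Ed d → ℝ) {x : Ed d} (hx : x ≠ 0) :
    Vh w x = jV (fun i => (Real.sqrt (rho x))⁻¹ * xj x i) (pj w x)
      (fun i j => Real.sqrt (rho x) * Aj w x i j) := by
  funext a
  have hr : 0 < Real.sqrt (rho x) := Real.sqrt_pos.2 (rho_pos' hx)
  have h1 := jV_scale (x := xj x) (p := pj w x) (A := Aj w x) (Real.sqrt (rho x))⁻¹ a
  rw [inv_inv] at h1
  rw [h1]
  unfold Vh W7
  congr 1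
  rw [inv_zpow', Real.sqrt_eq_rpow, ← Real.rpow_intCast, ← Real.rpow_mul (rho_pos' hx).le]
  congr 1
  push_cast
  ring

namespace SmoothCone

theorem Vh_smooth (h : SmoothCone u w U) {x : Ed d} (hx : x ∈ U) (hx0 : x ≠ 0) :
    ContDiffAt ℝ ∞ (Vh w) x := by
  rw [contDiffAt_pi]
  intro a
  exact (rho_rpow_smooth hx0 _).mul ((h.smoothW a).contDiffAt (h.isOpen.mem_nhds hx))

theorem co_smooth (h : SmoothCone u w U) {x : Ed d} (hx : x ∈ U) (hx0 : x ≠ 0)
    (hN : 0 < N2 w x) {c : Co} (hc : c.Good) : ContDiffAt ℝ ∞ (fun x => c.f (Vh w x)) x := by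
  have h2 : 0 < Vh w x 2 := by
    rw [Vh_two]
    exact mul_pos (rho_pos' hx0) hN
  exact (hc.smooth _ h2).comp x (h.Vh_smooth hx hx0)

theorem cf_smooth (h : SmoothCone u w U) {x : Ed d} (hx : x ∈ U) (hx0 : x ≠ 0)
    (hN : 0 < N2 w x) {c : Co} (hc : c.Good) (β : ℝ) :
    ContDiffAt ℝ ∞ (fun x => rho x ^ β * c.f (Vh w x)) x :=
  (rho_rpow_smooth hx0 β).mul (h.co_smooth hx hx0 hN hc)

/-! ### homogeneity -/

theorem homp (h : SmoothCone u w U) {x : Ed d} (hx : x ∈ Pos u) {r : ℝ} (hr : 0 < r) :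
    pj w (r • x) = pj w x := by
  funext i
  exact h.hom1 hx hr i

theorem homA (h : SmoothCone u w U) {x : Ed d} (hx : x ∈ Pos u) {r : ℝ} (hr : 0 < r) :
    Aj w (r • x) = fun i j => r⁻¹ * Aj w x i j := by
  funext i j
  exact h.hom2 hx hr i j

theorem homT (h : SmoothCone u w U) {x : Ed d} (hx : x ∈ Pos u) {r : ℝ} (hr : 0 < r) :
    Tj w (r • x) = fun i j k => (r ^ 2)⁻¹ * Tj w x i j k := by
  funext i j k
  exact h.hom3 hx hr i j k

theorem homW (h : SmoothCone u w U) {x : Ed d} (hx : x ∈ Pos u) {r : ℝ} (hr : 0 < r)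
    (a : Fin 7) : W7 w (r • x) a = r ^ (del7 a) * W7 w x a := by
  unfold W7
  have e : xj (r • x) = fun i => r * xj x i := by
    funext i
    simp [xj]
  rw [e, h.homp hx hr, h.homA hx hr]
  exact jV_scale r a

theorem homF9 (h : SmoothCone u w U) {x : Ed d} (hx : x ∈ Pos u) {r : ℝ} (hr : 0 < r)
    (m : Fin 9) (i : Fin d) : F9 w m i (r • x) = r ^ (deg9 m) * F9 w m i x := by
  unfold F9
  rw [h.homp hx hr, h.homA hx hr, h.homT hx hr]
  exact jF_scale r m i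

theorem homVh (h : SmoothCone u w U) {x : Ed d} (hx : x ∈ Pos u) {r : ℝ} (hr : 0 < r) :
    Vh w (r • x) = Vh w x := by
  funext a
  unfold Vh
  rw [h.homW hx hr, rho_smul_rpow hr, ← Real.rpow_intCast r (del7 a)]
  have e : r ^ (2 * (-(del7 a : ℝ) / 2)) * r ^ ((del7 a : ℤ) : ℝ) = 1 := by
    rw [← Real.rpow_add hr]
    have : 2 * (-(del7 a : ℝ) / 2) + (del7 a : ℝ) = 0 := by ring
    rw [this, Real.rpow_zero]
  calc r ^ (2 * (-(del7 a : ℝ) / 2)) * rho x ^ (-(del7 a : ℝ) / 2) *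
        (r ^ ((del7 a : ℤ) : ℝ) * W7 w x a)
      = (r ^ (2 * (-(del7 a : ℝ) / 2)) * r ^ ((del7 a : ℤ) : ℝ)) *
        (rho x ^ (-(del7 a : ℝ) / 2) * W7 w x a) := by ring
    _ = _ := by rw [e, one_mul]

theorem homE (h : SmoothCone u w U) (C : CS) (α : ℝ) {x : Ed d} (hx : x ∈ Pos u) {r : ℝ}
    (hr : 0 < r) : C.E α w (r • x) = r ^ (-(2 * α)) * C.E α w x := by
  unfold CS.E
  rw [h.homVh hx hr, rho_smul_rpow hr]
  have e : 2 * -α = -(2 * α) := by ring
  rw [e, mul_assoc]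

theorem homcX (h : SmoothCone u w U) (C : CS) (α : ℝ) {x : Ed d} (hx : x ∈ Pos u) {r : ℝ}
    (hr : 0 < r) : C.cX α w (r • x) = r ^ (-2 - 2 * α) * C.cX α w x := by
  unfold CS.cX
  rw [h.homVh hx hr, rho_smul_rpow hr]
  have e : 2 * (-1 - α) = -2 - 2 * α := by ring
  rw [e, mul_assoc]

theorem homZ (h : SmoothCone u w U) (C : CS) (α : ℝ) {x : Ed d} (hx : x ∈ Pos u) {r : ℝ}
    (hr : 0 < r) (i : Fin d) : C.Z α w i (r • x) = r ^ (-1 - 2 * α) * C.Z α w i x := by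
  unfold CS.Z
  rw [mul_add, Finset.mul_sum]
  congr 1
  · refine Finset.sum_congr rfl fun m _ => ?_
    unfold CS.cm
    rw [h.homVh hx hr, rho_smul_rpow hr, h.homF9 hx hr, ← Real.rpow_intCast r (deg9 m)]
    have e : r ^ (2 * ((-1 - 2 * α - (deg9 m : ℝ)) / 2)) * r ^ ((deg9 m : ℤ) : ℝ) =
        r ^ (-1 - 2 * α) := by
      rw [← Real.rpow_add hr]
      congr 1
      ring
    rw [← e]
    ring
  · rw [h.homcX C α hx hr]
    have e : r ^ (-2 - 2 * α) * r = r ^ (-1 - 2 * α) := by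
      nth_rewrite 2 [← Real.rpow_one r]
      rw [← Real.rpow_add hr]
      congr 1
      ring
    rw [← e]
    change r ^ (-2 - 2 * α) * C.cX α w x * (r • x) i = _
    rw [PiLp.smul_apply, smul_eq_mul]
    ring

end SmoothCone

/-- Euler's identity -/
theorem euler_hom {f : Ed d → ℝ} {x : Ed d} {k : ℝ} (hf : DifferentiableAt ℝ f x)
    (h : ∀ r : ℝ, 0 < r → f (r • x) = r ^ k * f x) : ∑ i, x i * pd i f x = k * f x := by
  have h0 : fderiv ℝ f x x = ∑ i, x i * pd i f x := Rigid_sum f x x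
  rw [← h0]
  have h1 : HasDerivAt (fun r : ℝ => f (r • x)) (fderiv ℝ f x x) 1 := by
    have h2 : HasDerivAt (fun r : ℝ => r • x) ((1 : ℝ) • x) 1 := (hasDerivAt_id 1).smul_const x
    rw [one_smul] at h2
    have h3 : HasFDerivAt f (fderiv ℝ f x) ((1 : ℝ) • x) := by
      rw [one_smul]
      exact hf.hasFDerivAt
    exact h3.comp_hasDerivAt (1 : ℝ) h2
  have h4 : HasDerivAt (fun r : ℝ => r ^ k * f x) (k * f x) 1 := by
    have h5 : HasDerivAt (fun r : ℝ => r ^ k) (k * 1 ^ (k - 1)) 1 :=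
      Real.hasDerivAt_rpow_const (Or.inl one_ne_zero)
    have h6 := h5.mul_const (f x)
    simpa using h6
  have h6 : (fun r : ℝ => f (r • x)) =ᶠ[𝓝 1] fun r : ℝ => r ^ k * f x := by
    filter_upwards [lt_mem_nhds (zero_lt_one' ℝ)] with r hr
    exact h r hr
  exact h1.unique (h4.congr_of_eventuallyEq h6)

end

end Vale.Agent.P098
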