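import Vale.Agent.Lib.P098.Var.CertBnd
import Vale.Agent.Lib.P098.Var.HomE

/-!
# P098: bounds of `|∇E|²` and `|Z|²`, integrability
-/

open MeasureTheory Set Filter Topology
open scoped ContDiff

namespace Vale.Agent.P098

section

variable {d : ℕ} {u w : Ed d → ℝ} {U : Set (Ed d)} {C : CS} {α γ a κ : ℝ}

theorem sum_sq_le {n : ℕ} (y : Fin n → Fin d → ℝ) (z : Fin d → ℝ) {B : ℝ}
    (hy : ∀ b, ∑ i, y b i ^ 2 ≤ B) (hz : ∑ i, z i ^ 2 ≤ B) :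
    ∑ i, (∑ b, y b i + z i) ^ 2 ≤ (2 * n ^ 2 + 2) * B := by
  have h1 : ∀ i, (∑ b, y b i + z i) ^ 2 ≤ 2 * (n * ∑ b, y b i ^ 2) + 2 * z i ^ 2 := by
    intro i
    have h2 : (∑ b, y b i) ^ 2 ≤ n * ∑ b, y b i ^ 2 := by
      have := sq_sum_le_card_mul_sum_sq (s := Finset.univ) (f := fun b => y b i)
      rw [Finset.card_univ, Fintype.card_fin] at this
      exact this
    nlinarith [sq_nonneg (∑ b, y b i - z i)]
  have h3 : ∑ i, ∑ b, y b i ^ 2 ≤ n * B := by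
    rw [Finset.sum_comm]
    calc ∑ b, ∑ i, y b i ^ 2 ≤ ∑ b : Fin n, B := Finset.sum_le_sum fun b _ => hy b
      _ = n * B := by rw [Finset.sum_const, Finset.card_univ, Fintype.card_fin, nsmul_eq_mul]
  calc _ ≤ ∑ i, (2 * (n * ∑ b, y b i ^ 2) + 2 * z i ^ 2) := Finset.sum_le_sum fun i _ => h1 i
    _ = 2 * n * (∑ i, ∑ b, y b i ^ 2) + 2 * ∑ i, z i ^ 2 := by
        rw [Finset.sum_add_distrib, ← Finset.mul_sum, ← Finset.mul_sum, ← Finset.mul_sum]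
        ring
    _ ≤ 2 * n * (n * B) + 2 * B := by
        have hn : (0 : ℝ) ≤ 2 * n := by positivity
        have := mul_le_mul_of_nonneg_left h3 hn
        linarith
    _ = _ := by ring

theorem const_x_sq {x : Ed d} (hx1 : rho x = 1) (c : ℝ) : ∑ i, (c * x i) ^ 2 = c ^ 2 := by
  have : ∀ i, (c * x i) ^ 2 = c ^ 2 * x i ^ 2 := fun i => by ring
  rw [Finset.sum_congr rfl fun i _ => this i, ← Finset.mul_sum]
  have h : ∑ i, x i ^ 2 = 1 := hx1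
  rw [h, mul_one]

/-- the bound of the gradient on the unit sphere -/
theorem grad_bd_unit (hc : Certi d α γ a κ C) {R : ℝ} (hR : 1 ≤ R) : ∃ K : ℝ, 0 ≤ K ∧
    ∀ (x : Ed d) (p : Fin d → ℝ) (A : Fin d → Fin d → ℝ) (T : Fin d → Fin d → Fin d → ℝ),
      rho x = 1 → |dot (xj x) p| ≤ R → ∑ i, p i ^ 2 ≤ R → 0 < jN A → jN A ≤ R →
      ∑ i, (C.φ.grad (-2 * α) (xj x) p A T i) ^ 2 ≤
        K * ((jN A ^ a) ^ 2 * (1 + jT T / jN A)) := by
  obtain ⟨c, hcu⟩ := hc.upper R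
  refine ⟨(2 * 7 ^ 2 + 2) * (c ^ 2 * (16 * R ^ 3) +
    (8 * (4 * α ^ 2 * c ^ 2 + 7 ^ 2 * (c ^ 2 * (16 * R ^ 2))))), by positivity,
    fun x p A T hx1 hu hs hN hNR => ?_⟩
  have hdom : Dom R (jV (xj x) p A) := dom_of_jet hu (by rw [dot_pp]; exact hs) hN hNR
  obtain ⟨h1, h2, -⟩ := hcu _ hdom
  have hT := jT_nonneg (T := T)
  set N := jN A with hNdef
  obtain ⟨y, hy⟩ : ∃ y : ℝ, y = 1 + jT T / N := ⟨_, rfl⟩
  have hy1 : 1 ≤ y := by
    rw [hy]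
    have : 0 ≤ jT T / N := by positivity
    linarith
  have hy0 : 0 ≤ y := by linarith
  set P := (N ^ a) ^ 2 with hP
  have hP0 : 0 ≤ P := by positivity
  rw [← hy]
  have hv2 : jV (xj x) p A 2 = N := rfl
  have hD : ∀ b, C.φ.D b (jV (xj x) p A) ^ 2 * N ^ nD b ≤ c ^ 2 * P := fun b =>
    sq_bd hN (nD_eq b) (h2 b)
  have hφ : C.φ.f (jV (xj x) p A) ^ 2 ≤ c ^ 2 * P := by
    rw [hP, ← mul_pow, ← sq_abs]
    exact pow_le_pow_left₀ (abs_nonneg _) h1 2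
  have hPy : P ≤ P * y := le_mul_of_one_le_right hP0 hy1
  have e0 : ∀ i, C.φ.grad (-2 * α) (xj x) p A T i =
      ∑ b, C.φ.D b (jV (xj x) p A) * jG p A T b i +
        (-2 * α * C.φ.f (jV (xj x) p A) -
          ∑ b, (del7 b : ℝ) * jV (xj x) p A b * C.φ.D b (jV (xj x) p A)) * x i := fun i => rfl
  rw [Finset.sum_congr rfl fun i _ => by rw [e0 i]]
  have hB1 : ∀ b, ∑ i, (C.φ.D b (jV (xj x) p A) * jG p A T b i) ^ 2 ≤
      c ^ 2 * (16 * R ^ 3) * (P * y) := by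
    intro b
    have e1 : ∑ i, (C.φ.D b (jV (xj x) p A) * jG p A T b i) ^ 2 =
        C.φ.D b (jV (xj x) p A) ^ 2 * ∑ i, jG p A T b i ^ 2 := by
      rw [Finset.mul_sum]
      exact Finset.sum_congr rfl fun i _ => by ring
    rw [e1]
    have e2 := jG_bd (T := T) hR hs hN hNR b
    rw [← hNdef, ← hy] at e2
    calc _ ≤ C.φ.D b (jV (xj x) p A) ^ 2 * (16 * R ^ 3 * (N ^ nD b * y)) :=
          mul_le_mul_of_nonneg_left e2 (sq_nonneg _)
      _ = (C.φ.D b (jV (xj x) p A) ^ 2 * N ^ nD b) * (16 * R ^ 3 * y) := by ring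
      _ ≤ (c ^ 2 * P) * (16 * R ^ 3 * y) := mul_le_mul_of_nonneg_right (hD b) (by positivity)
      _ = _ := by ring
  have hB2 : (-2 * α * C.φ.f (jV (xj x) p A) -
      ∑ b, (del7 b : ℝ) * jV (xj x) p A b * C.φ.D b (jV (xj x) p A)) ^ 2 ≤
      8 * (4 * α ^ 2 * c ^ 2 + 7 ^ 2 * (c ^ 2 * (16 * R ^ 2))) * (P * y) := by
    have e3 : (∑ b, (del7 b : ℝ) * jV (xj x) p A b * C.φ.D b (jV (xj x) p A)) ^ 2 ≤
        7 * ∑ b, ((del7 b : ℝ) * jV (xj x) p A b * C.φ.D b (jV (xj x) p A)) ^ 2 := by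
      have := sq_sum_le_card_mul_sum_sq (s := Finset.univ)
        (f := fun b : Fin 7 => (del7 b : ℝ) * jV (xj x) p A b * C.φ.D b (jV (xj x) p A))
      rw [Finset.card_univ, Fintype.card_fin] at this
      exact_mod_cast this
    have e4 : ∀ b, ((del7 b : ℝ) * jV (xj x) p A b * C.φ.D b (jV (xj x) p A)) ^ 2 ≤
        c ^ 2 * (16 * R ^ 2) * P := by
      intro b
      have e5 := dV_bd (A := A) hR hu hs b
      calc _ = ((del7 b : ℝ) * jV (xj x) p A b) ^ 2 * C.φ.D b (jV (xj x) p A) ^ 2 := by ring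
        _ ≤ (16 * R ^ 2 * N ^ nD b) * C.φ.D b (jV (xj x) p A) ^ 2 :=
          mul_le_mul_of_nonneg_right e5 (sq_nonneg _)
        _ = 16 * R ^ 2 * (C.φ.D b (jV (xj x) p A) ^ 2 * N ^ nD b) := by ring
        _ ≤ 16 * R ^ 2 * (c ^ 2 * P) := mul_le_mul_of_nonneg_left (hD b) (by positivity)
        _ = _ := by ring
    have e6 : ∑ b, ((del7 b : ℝ) * jV (xj x) p A b * C.φ.D b (jV (xj x) p A)) ^ 2 ≤
        7 * (c ^ 2 * (16 * R ^ 2) * P) := by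
      calc _ ≤ ∑ _b : Fin 7, c ^ 2 * (16 * R ^ 2) * P := Finset.sum_le_sum fun b _ => e4 b
        _ = _ := by
          rw [Finset.sum_const, Finset.card_univ, Fintype.card_fin, nsmul_eq_mul]
          norm_num
    have e7 : ∀ s t : ℝ, (s - t) ^ 2 ≤ 2 * s ^ 2 + 2 * t ^ 2 := fun s t => by
      nlinarith [sq_nonneg (s + t)]
    have e8 : (-2 * α * C.φ.f (jV (xj x) p A)) ^ 2 ≤ 4 * α ^ 2 * (c ^ 2 * P) := by
      calc _ = 4 * α ^ 2 * C.φ.f (jV (xj x) p A) ^ 2 := by ring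
        _ ≤ _ := mul_le_mul_of_nonneg_left hφ (by positivity)
    have e9 := e7 (-2 * α * C.φ.f (jV (xj x) p A))
      (∑ b, (del7 b : ℝ) * jV (xj x) p A b * C.φ.D b (jV (xj x) p A))
    have e10 : 8 * (4 * α ^ 2 * c ^ 2 + 7 ^ 2 * (c ^ 2 * (16 * R ^ 2))) * P ≤
        8 * (4 * α ^ 2 * c ^ 2 + 7 ^ 2 * (c ^ 2 * (16 * R ^ 2))) * (P * y) :=
      mul_le_mul_of_nonneg_left hPy (by positivity)
    have e11 : 0 ≤ c ^ 2 * (16 * R ^ 2) * P := by positivity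
    have e12 : 0 ≤ α ^ 2 * (c ^ 2 * P) := by positivity
    nlinarith
  have hK1 : 0 ≤ c ^ 2 * (16 * R ^ 3) * (P * y) := by positivity
  have hK2 : 0 ≤ 8 * (4 * α ^ 2 * c ^ 2 + 7 ^ 2 * (c ^ 2 * (16 * R ^ 2))) * (P * y) := by
    positivity
  have := sum_sq_le (fun b i => C.φ.D b (jV (xj x) p A) * jG p A T b i)
    (fun i => (-2 * α * C.φ.f (jV (xj x) p A) -
      ∑ b, (del7 b : ℝ) * jV (xj x) p A b * C.φ.D b (jV (xj x) p A)) * x i)
    (B := c ^ 2 * (16 * R ^ 3) * (P * y) +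
      8 * (4 * α ^ 2 * c ^ 2 + 7 ^ 2 * (c ^ 2 * (16 * R ^ 2))) * (P * y))
    (fun b => by linarith [hB1 b]) (by
      rw [const_x_sq hx1]
      linarith)
  refine this.trans (le_of_eq ?_)
  push_cast
  ring

/-- the bound of `|Z|²` on the unit sphere -/
theorem Z_bd_unit (hc : Certi d α γ a κ C) {R : ℝ} (hR : 1 ≤ R) : ∃ K : ℝ, 0 ≤ K ∧
    ∀ (x : Ed d) (p : Fin d → ℝ) (A : Fin d → Fin d → ℝ) (T : Fin d → Fin d → Fin d → ℝ),
      rho x = 1 → |dot (xj x) p| ≤ R → ∑ i, p i ^ 2 ≤ R → 0 < jN A → jN A ≤ R →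
      ∑ i, (∑ m, (C.c m).f (jV (xj x) p A) * jF p A T m i +
        C.cx α (jV (xj x) p A) * x i) ^ 2 ≤ K * ((jN A ^ a) ^ 2 * (1 + jT T / jN A)) := by
  obtain ⟨c, hcu⟩ := hc.upper R
  refine ⟨(2 * 9 ^ 2 + 2) * (c ^ 2 * R ^ 2 + 7 * (6 * (c ^ 2 * R ^ 2) + α ^ 2 * c ^ 2)),
    by positivity, fun x p A T hx1 hu hs hN hNR => ?_⟩
  have hdom : Dom R (jV (xj x) p A) := dom_of_jet hu (by rw [dot_pp]; exact hs) hN hNR
  obtain ⟨h1, -, h2⟩ := hcu _ hdom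
  have hT := jT_nonneg (T := T)
  set N := jN A with hNdef
  obtain ⟨y, hy⟩ : ∃ y : ℝ, y = 1 + jT T / N := ⟨_, rfl⟩
  have hy1 : 1 ≤ y := by
    rw [hy]
    have : 0 ≤ jT T / N := by positivity
    linarith
  have hy0 : 0 ≤ y := by linarith
  set P := (N ^ a) ^ 2 with hP
  have hP0 : 0 ≤ P := by positivity
  rw [← hy]
  set v := jV (xj x) p A with hv
  have hv2 : v 2 = N := rfl
  have hD : ∀ m, (C.c m).f v ^ 2 * N ^ nF m ≤ c ^ 2 * P := fun m =>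
    sq_bd hN (nF_eq m) (h2 m)
  have hφ : C.φ.f v ^ 2 ≤ c ^ 2 * P := by
    rw [hP, ← mul_pow, ← sq_abs]
    exact pow_le_pow_left₀ (abs_nonneg _) h1 2
  have hPy : P ≤ P * y := le_mul_of_one_le_right hP0 hy1
  have hB1 : ∀ m, ∑ i, ((C.c m).f v * jF p A T m i) ^ 2 ≤ c ^ 2 * R ^ 2 * (P * y) := by
    intro m
    have e1 : ∑ i, ((C.c m).f v * jF p A T m i) ^ 2 =
        (C.c m).f v ^ 2 * ∑ i, jF p A T m i ^ 2 := by
      rw [Finset.mul_sum]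
      exact Finset.sum_congr rfl fun i _ => by ring
    rw [e1]
    have e2 := jF_bd (T := T) hR hs hN m
    rw [← hNdef, ← hy] at e2
    calc _ ≤ (C.c m).f v ^ 2 * (R ^ 2 * (N ^ nF m * y)) :=
          mul_le_mul_of_nonneg_left e2 (sq_nonneg _)
      _ = ((C.c m).f v ^ 2 * N ^ nF m) * (R ^ 2 * y) := by ring
      _ ≤ (c ^ 2 * P) * (R ^ 2 * y) := mul_le_mul_of_nonneg_right (hD m) (by positivity)
      _ = _ := by ring
  have prod : ∀ (m : Fin 9) (b : Fin 7), b ≠ 1 → nF m = nD b →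
      ((C.c m).f v * v b) ^ 2 ≤ c ^ 2 * R ^ 2 * P := by
    intro m b hb hmb
    have e5 := V_bd (A := A) hR hu hs b hb
    calc _ = (C.c m).f v ^ 2 * v b ^ 2 := by ring
      _ ≤ (C.c m).f v ^ 2 * (R ^ 2 * N ^ nD b) := mul_le_mul_of_nonneg_left e5 (sq_nonneg _)
      _ = R ^ 2 * ((C.c m).f v ^ 2 * N ^ nF m) := by
        rw [hmb]
        ring
      _ ≤ R ^ 2 * (c ^ 2 * P) := mul_le_mul_of_nonneg_left (hD m) (by positivity)
      _ = _ := by ring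
  have hB2 : C.cx α v ^ 2 ≤ 7 * (6 * (c ^ 2 * R ^ 2) + α ^ 2 * c ^ 2) * (P * y) := by
    have e7 : ∀ s1 s2 s3 s4 s5 s6 s7 : ℝ, (s1 - s2 + s3 + s4 + s5 + s6 - s7) ^ 2 ≤
        7 * (s1 ^ 2 + s2 ^ 2 + s3 ^ 2 + s4 ^ 2 + s5 ^ 2 + s6 ^ 2 + s7 ^ 2) := by
      intro s1 s2 s3 s4 s5 s6 s7
      have := sq_sum_le_card_mul_sum_sq (s := Finset.univ)
        (f := (![s1, -s2, s3, s4, s5, s6, -s7] : Fin 7 → ℝ))
      rw [Finset.card_univ, Fintype.card_fin] at this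
      simp only [Fin.sum_univ_succ, Fin.sum_univ_zero] at this
      simp at this
      linarith
    have e8 := e7 ((C.c 0).f v * v 2) ((C.c 1).f v * v 0) ((C.c 5).f v * v 3)
      ((C.c 6).f v * v 4) ((C.c 7).f v * v 5) ((C.c 8).f v * v 6) (α * C.φ.f v)
    have p0 := prod 0 2 (by decide) rfl
    have p1 := prod 1 0 (by decide) rfl
    have p5 := prod 5 3 (by decide) rfl
    have p6 := prod 6 4 (by decide) rfl
    have p7 := prod 7 5 (by decide) rfl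
    have p8 := prod 8 6 (by decide) rfl
    have pφ : (α * C.φ.f v) ^ 2 ≤ α ^ 2 * (c ^ 2 * P) := by
      rw [mul_pow]
      exact mul_le_mul_of_nonneg_left hφ (sq_nonneg _)
    have e9 : C.cx α v = (C.c 0).f v * v 2 - (C.c 1).f v * v 0 + (C.c 5).f v * v 3 +
      (C.c 6).f v * v 4 + (C.c 7).f v * v 5 + (C.c 8).f v * v 6 - α * C.φ.f v := rfl
    rw [e9]
    have e10 : (7 * (6 * (c ^ 2 * R ^ 2) + α ^ 2 * c ^ 2)) * P ≤
        (7 * (6 * (c ^ 2 * R ^ 2) + α ^ 2 * c ^ 2)) * (P * y) :=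
      mul_le_mul_of_nonneg_left hPy (by positivity)
    refine e8.trans (le_trans ?_ e10)
    linarith
  have hK1 : 0 ≤ c ^ 2 * R ^ 2 * (P * y) := by positivity
  have hK2 : 0 ≤ 7 * (6 * (c ^ 2 * R ^ 2) + α ^ 2 * c ^ 2) * (P * y) := by positivity
  have := sum_sq_le (fun m i => (C.c m).f v * jF p A T m i) (fun i => C.cx α v * x i)
    (B := c ^ 2 * R ^ 2 * (P * y) + 7 * (6 * (c ^ 2 * R ^ 2) + α ^ 2 * c ^ 2) * (P * y))
    (fun b => by linarith [hB1 b]) (by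
      rw [const_x_sq hx1]
      linarith)
  refine this.trans (le_of_eq ?_)
  push_cast
  ring

end

end Vale.Agent.P098
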