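import Vale.Agent.Lib.P098.Var.Fld

/-!
# P098: products of the fields with `x` and, on the free boundary, with `p`
-/

open MeasureTheory Set Filter Topology
open scoped ContDiff

namespace Vale.Agent.P098

section

variable {d : ℕ}

/-- products of the fields with `x` -/
def jx (x p : Fin d → ℝ) (A : Fin d → Fin d → ℝ) : Fin 9 → ℝ :=
  ![-jN A, dot x p, 0, 0, 0, -jC3 A, -jc4 A, -dot p (mv A p), -dot (mv A p) (mv A p)]

section alg

variable {A : Fin d → Fin d → ℝ} {T : Fin d → Fin d → Fin d → ℝ} {x p : Fin d → ℝ}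

theorem dotx_T (hTx : ∀ j k, ∑ i, x i * T i j k = -A j k) (M : Fin d → Fin d → ℝ) :
    ∑ i, x i * ∑ j, ∑ k, M j k * T i j k = -∑ j, ∑ k, M j k * A j k := by
  simp only [Finset.mul_sum]
  rw [Finset.sum_comm, ← Finset.sum_neg_distrib]
  refine Finset.sum_congr rfl fun j _ => ?_
  rw [Finset.sum_comm, ← Finset.sum_neg_distrib]
  refine Finset.sum_congr rfl fun k _ => ?_
  rw [← mul_neg, ← hTx j k, Finset.mul_sum]
  exact Finset.sum_congr rfl fun i _ => by ring

theorem dotx_A (hAx : ∀ j, ∑ i, x i * A i j = 0) (q : Fin d → ℝ) :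
    ∑ i, x i * mv A q i = 0 := by
  unfold mv
  simp only [Finset.mul_sum]
  rw [Finset.sum_comm]
  refine Finset.sum_eq_zero fun j _ => ?_
  have e : ∑ i, x i * (A i j * q j) = (∑ i, x i * A i j) * q j := by
    rw [Finset.sum_mul]
    exact Finset.sum_congr rfl fun i _ => by ring
  rw [e, hAx j, zero_mul]

theorem alg_mmA (hA : ∀ i j, A i j = A j i) :
    ∑ j, ∑ k, (∑ l, mm A j l * A l k) * A j k = jc4 A := by
  unfold jc4
  refine Finset.sum_congr rfl fun j _ => ?_
  simp only [Finset.sum_mul]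
  rw [Finset.sum_comm]
  refine Finset.sum_congr rfl fun l _ => ?_
  rw [sq]
  nth_rewrite 3 [mm]
  rw [Finset.mul_sum]
  refine Finset.sum_congr rfl fun k _ => ?_
  rw [hA l k]
  ring

/-- products of the fields with `x` -/
theorem dotx (hA : ∀ i j, A i j = A j i) (hAx : ∀ j, ∑ i, x i * A i j = 0)
    (hTx : ∀ j k, ∑ i, x i * T i j k = -A j k) (m : Fin 9) :
    ∑ i, x i * jF p A T m i = jx x p A m := by
  fin_cases m
  · change ∑ i, x i * (∑ j, ∑ k, A j k * T i j k) = -jN A
    rw [dotx_T hTx]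
    unfold jN
    congr 1
    exact Finset.sum_congr rfl fun i _ => Finset.sum_congr rfl fun j _ => by ring
  · rfl
  · exact dotx_A hAx p
  · exact dotx_A hAx _
  · exact dotx_A hAx _
  · exact dotx_T hTx (mm A)
  · change ∑ i, x i * (∑ j, ∑ k, (∑ l, mm A j l * A l k) * T i j k) = -jc4 A
    rw [dotx_T hTx, alg_mmA hA]
  · change ∑ i, x i * (∑ j, ∑ k, T i j k * p j * p k) = -∑ j, p j * ∑ k, A j k * p k
    have e : ∀ i, ∑ j, ∑ k, T i j k * p j * p k = ∑ j, ∑ k, p j * p k * T i j k := fun i =>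
      Finset.sum_congr rfl fun j _ => Finset.sum_congr rfl fun k _ => by ring
    simp only [e]
    rw [dotx_T hTx (fun j k => p j * p k)]
    congr 1
    refine Finset.sum_congr rfl fun j _ => ?_
    rw [Finset.mul_sum]
    exact Finset.sum_congr rfl fun k _ => by ring
  · change ∑ i, x i * (∑ j, ∑ k, T i j k * mv A p j * p k) = -∑ j, mv A p j * mv A p j
    have e : ∀ i, ∑ j, ∑ k, T i j k * mv A p j * p k =
        ∑ j, ∑ k, mv A p j * p k * T i j k := fun i =>
      Finset.sum_congr rfl fun j _ => Finset.sum_congr rfl fun k _ => by ring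
    simp only [e]
    rw [dotx_T hTx (fun j k => mv A p j * p k)]
    congr 1
    refine Finset.sum_congr rfl fun j _ => ?_
    nth_rewrite 3 [mv]
    rw [Finset.mul_sum]
    exact Finset.sum_congr rfl fun k _ => by ring

/-- products of the fields with `p` on the free boundary -/
def jp (A : Fin d → Fin d → ℝ) (Q : ℝ) : Fin 9 → ℝ :=
  ![2 * Q * jN A - jC3 A, 1, Q, Q ^ 2, Q ^ 3, Q * jC3 A - jc4 A + jN A * Q ^ 2,
    Q * jc4 A - jc5 A + jN A * Q ^ 3, jN A, Q * jN A]

/-- pairing of a symmetric matrix commuting with the structure with `T(p,·,·)` -/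
theorem dotp_T {o : Fin d → ℝ} {Q : ℝ} (hp1 : ∑ i, p i ^ 2 = 1) (ho : ∑ i, o i * p i = 0)
    (hT : ∀ j k, ∑ i, T i j k * p i =
      -mm A j k + Q * A j k + o j * p k + p j * o k + jN A * (p j * p k))
    (M : Fin d → Fin d → ℝ) {c : ℝ} (hM : ∀ i, ∑ k, M i k * p k = c * p i)
    (hM2 : ∀ k, ∑ i, M i k * p i = c * p k) :
    ∑ i, (∑ j, ∑ k, M j k * T i j k) * p i =
      -∑ j, ∑ k, M j k * mm A j k + Q * ∑ j, ∑ k, M j k * A j k + jN A * c := by
  have e1 : ∑ i, (∑ j, ∑ k, M j k * T i j k) * p i =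
      ∑ j, ∑ k, M j k * ∑ i, T i j k * p i := by
    simp only [Finset.sum_mul, Finset.mul_sum]
    rw [Finset.sum_comm]
    refine Finset.sum_congr rfl fun j _ => ?_
    rw [Finset.sum_comm]
    refine Finset.sum_congr rfl fun k _ => Finset.sum_congr rfl fun i _ => ?_
    ring
  rw [e1]
  have e2 : ∀ j k, M j k * ∑ i, T i j k * p i = -(M j k * mm A j k) + Q * (M j k * A j k) +
      o j * (M j k * p k) + (M j k * p j) * o k + jN A * (p j * (M j k * p k)) := by
    intro j k
    rw [hT j k]
    ring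
  simp only [e2, Finset.sum_add_distrib]
  have e3 : ∑ j, ∑ k, o j * (M j k * p k) = 0 := by
    have : ∀ j, ∑ k, o j * (M j k * p k) = c * (o j * p j) := by
      intro j
      rw [← Finset.mul_sum, hM j]
      ring
    rw [Finset.sum_congr rfl fun j _ => this j, ← Finset.mul_sum, ho, mul_zero]
  have e4 : ∑ j, ∑ k, (M j k * p j) * o k = 0 := by
    rw [Finset.sum_comm]
    have : ∀ k, ∑ j, (M j k * p j) * o k = c * (o k * p k) := by
      intro k
      rw [← Finset.sum_mul, hM2 k]
      ring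
    rw [Finset.sum_congr rfl fun j _ => this j, ← Finset.mul_sum, ho, mul_zero]
  have e5 : ∑ j, ∑ k, jN A * (p j * (M j k * p k)) = jN A * c := by
    have : ∀ j, ∑ k, jN A * (p j * (M j k * p k)) = jN A * c * p j ^ 2 := by
      intro j
      rw [← Finset.mul_sum, ← Finset.mul_sum, hM j]
      ring
    rw [Finset.sum_congr rfl fun j _ => this j, ← Finset.mul_sum, hp1, mul_one]
  rw [e3, e4, e5]
  simp only [Finset.sum_neg_distrib, ← Finset.mul_sum]
  ring

theorem mv_Q {Q : ℝ} (hAp : ∀ i, mv A p i = Q * p i) {q : Fin d → ℝ} {c : ℝ}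
    (hq : ∀ i, q i = c * p i) (i : Fin d) : mv A q i = c * Q * p i := by
  have e : mv A q i = c * mv A p i := by
    unfold mv
    rw [Finset.mul_sum]
    exact Finset.sum_congr rfl fun j _ => by rw [hq j]; ring
  rw [e, hAp i]
  ring

theorem mm_p {Q : ℝ} (hAp : ∀ i, mv A p i = Q * p i) (i : Fin d) :
    ∑ k, mm A i k * p k = Q ^ 2 * p i := by
  have e : ∑ k, mm A i k * p k = mv A (mv A p) i := by
    unfold mm mv
    simp only [Finset.sum_mul, Finset.mul_sum]
    rw [Finset.sum_comm]
    exact Finset.sum_congr rfl fun j _ => Finset.sum_congr rfl fun k _ => by ring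
  rw [e, mv_Q hAp hAp]
  ring

/-- products of the fields with `p` on the free boundary -/
theorem dotp (hA : ∀ i j, A i j = A j i) {Q : ℝ} (hAp : ∀ i, mv A p i = Q * p i)
    (hp1 : ∑ i, p i ^ 2 = 1) {o : Fin d → ℝ} (ho : ∑ i, o i * p i = 0)
    (hT : ∀ j k, ∑ i, T i j k * p i =
      -mm A j k + Q * A j k + o j * p k + p j * o k + jN A * (p j * p k)) (m : Fin 9) :
    ∑ i, jF p A T m i * p i = jp A Q m := by
  have hAp2 : ∀ k, ∑ i, A i k * p i = Q * p k := by
    intro k
    rw [← hAp k]
    unfold mv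
    exact Finset.sum_congr rfl fun i _ => by rw [hA i k]
  have hmp := mm_p hAp
  have hmp2 : ∀ k, ∑ i, mm A i k * p i = Q ^ 2 * p k := by
    intro k
    rw [← hmp k]
    exact Finset.sum_congr rfl fun i _ => by rw [mm_symm hA i k]
  have hQ1 : ∀ (c : ℝ) (q : Fin d → ℝ), (∀ i, q i = c * p i) → ∑ i, q i * p i = c := by
    intro c q hq
    have : ∀ i, q i * p i = c * p i ^ 2 := fun i => by rw [hq i]; ring
    rw [Finset.sum_congr rfl fun i _ => this i, ← Finset.mul_sum, hp1, mul_one]
  have h2 : ∀ i, mv A (mv A p) i = Q ^ 2 * p i := fun i => by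
    rw [mv_Q hAp hAp]
    ring
  have h3 : ∀ i, mv A (mv A (mv A p)) i = Q ^ 3 * p i := fun i => by
    rw [mv_Q hAp h2]
    ring
  fin_cases m
  · change ∑ i, (∑ j, ∑ k, A j k * T i j k) * p i = 2 * Q * jN A - jC3 A
    rw [dotp_T hp1 ho hT A hAp hAp2]
    have e1 : ∑ j, ∑ k, A j k * mm A j k = jC3 A :=
      Finset.sum_congr rfl fun j _ => Finset.sum_congr rfl fun k _ => by
        rw [mul_comm]
        rfl
    have e2 : ∑ j, ∑ k, A j k * A j k = jN A :=
      Finset.sum_congr rfl fun j _ => Finset.sum_congr rfl fun k _ => by ring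
    rw [e1, e2]
    ring
  · change ∑ i, p i * p i = 1
    rw [← hp1]
    exact Finset.sum_congr rfl fun i _ => by ring
  · exact hQ1 Q _ hAp
  · exact hQ1 _ _ h2
  · exact hQ1 _ _ h3
  · change ∑ i, (∑ j, ∑ k, mm A j k * T i j k) * p i = Q * jC3 A - jc4 A + jN A * Q ^ 2
    rw [dotp_T hp1 ho hT (mm A) hmp hmp2]
    have e1 : ∑ j, ∑ k, mm A j k * mm A j k = jc4 A :=
      Finset.sum_congr rfl fun j _ => Finset.sum_congr rfl fun k _ => by ring
    have e2 : ∑ j, ∑ k, mm A j k * A j k = jC3 A := rfl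
    rw [e1, e2]
    ring
  · change ∑ i, (∑ j, ∑ k, (∑ l, mm A j l * A l k) * T i j k) * p i =
      Q * jc4 A - jc5 A + jN A * Q ^ 3
    have hc1 : ∀ i, ∑ k, (∑ l, mm A i l * A l k) * p k = Q ^ 3 * p i := by
      intro i
      have e : ∑ k, (∑ l, mm A i l * A l k) * p k = ∑ l, mm A i l * (Q * p l) := by
        simp only [Finset.sum_mul]
        rw [Finset.sum_comm]
        refine Finset.sum_congr rfl fun l _ => ?_
        rw [← hAp l]
        unfold mv
        rw [Finset.mul_sum]
        exact Finset.sum_congr rfl fun k _ => by ring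
      have e' : ∑ l, mm A i l * (Q * p l) = Q * ∑ l, mm A i l * p l := by
        rw [Finset.mul_sum]
        exact Finset.sum_congr rfl fun l _ => by ring
      rw [e, e', hmp i]
      ring
    have hc2 : ∀ k, ∑ i, (∑ l, mm A i l * A l k) * p i = Q ^ 3 * p k := by
      intro k
      have e : ∑ i, (∑ l, mm A i l * A l k) * p i = ∑ l, A l k * (Q ^ 2 * p l) := by
        simp only [Finset.sum_mul]
        rw [Finset.sum_comm]
        refine Finset.sum_congr rfl fun l _ => ?_
        rw [← hmp2 l, Finset.mul_sum]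
        exact Finset.sum_congr rfl fun k _ => by ring
      have e' : ∑ l, A l k * (Q ^ 2 * p l) = Q ^ 2 * ∑ l, A l k * p l := by
        rw [Finset.mul_sum]
        exact Finset.sum_congr rfl fun l _ => by ring
      rw [e, e', hAp2 k]
      ring
    rw [dotp_T hp1 ho hT (fun j k => ∑ l, mm A j l * A l k) hc1 hc2, alg_mmA hA]
    have e1 : ∑ j, ∑ k, (∑ l, mm A j l * A l k) * mm A j k = jc5 A :=
      Finset.sum_congr rfl fun j _ => Finset.sum_congr rfl fun k _ => by ring
    rw [e1]
    ring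
  · change ∑ i, (∑ j, ∑ k, T i j k * p j * p k) * p i = jN A
    have e : ∀ i, ∑ j, ∑ k, T i j k * p j * p k = ∑ j, ∑ k, p j * p k * T i j k := fun i =>
      Finset.sum_congr rfl fun j _ => Finset.sum_congr rfl fun k _ => by ring
    simp only [e]
    have hc1 : ∀ i, ∑ k, p i * p k * p k = 1 * p i := by
      intro i
      have : ∀ k, p i * p k * p k = p i * p k ^ 2 := fun k => by ring
      rw [Finset.sum_congr rfl fun k _ => this k, ← Finset.mul_sum, hp1]
      ring
    have hc2 : ∀ k, ∑ i, p i * p k * p i = 1 * p k := by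
      intro k
      have : ∀ i, p i * p k * p i = p k * p i ^ 2 := fun i => by ring
      rw [Finset.sum_congr rfl fun i _ => this i, ← Finset.mul_sum, hp1]
      ring
    rw [dotp_T hp1 ho hT (fun j k => p j * p k) hc1 hc2]
    have e1 : ∑ j, ∑ k, p j * p k * mm A j k = Q ^ 2 := by
      have : ∀ j, ∑ k, p j * p k * mm A j k = Q ^ 2 * p j ^ 2 := by
        intro j
        have e3 : ∑ k, p j * p k * mm A j k = p j * ∑ k, mm A j k * p k := by
          rw [Finset.mul_sum]
          exact Finset.sum_congr rfl fun k _ => by ring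
        rw [e3, hmp j]
        ring
      rw [Finset.sum_congr rfl fun j _ => this j, ← Finset.mul_sum, hp1, mul_one]
    have e2 : ∑ j, ∑ k, p j * p k * A j k = Q := by
      have : ∀ j, ∑ k, p j * p k * A j k = Q * p j ^ 2 := by
        intro j
        have e3 : ∑ k, p j * p k * A j k = p j * ∑ k, A j k * p k := by
          rw [Finset.mul_sum]
          exact Finset.sum_congr rfl fun k _ => by ring
        have e4 : ∑ k, A j k * p k = Q * p j := hAp j
        rw [e3, e4]
        ring
      rw [Finset.sum_congr rfl fun j _ => this j, ← Finset.mul_sum, hp1, mul_one]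
    rw [e1, e2]
    ring
  · change ∑ i, (∑ j, ∑ k, T i j k * mv A p j * p k) * p i = Q * jN A
    have e : ∀ i, ∑ j, ∑ k, T i j k * mv A p j * p k =
        ∑ j, ∑ k, Q * p j * p k * T i j k := fun i =>
      Finset.sum_congr rfl fun j _ => Finset.sum_congr rfl fun k _ => by
        rw [hAp j]
        ring
    simp only [e]
    have hc1 : ∀ i, ∑ k, Q * p i * p k * p k = Q * p i := by
      intro i
      have : ∀ k, Q * p i * p k * p k = Q * p i * p k ^ 2 := fun k => by ring
      rw [Finset.sum_congr rfl fun k _ => this k, ← Finset.mul_sum, hp1]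
      ring
    have hc2 : ∀ k, ∑ i, Q * p i * p k * p i = Q * p k := by
      intro k
      have : ∀ i, Q * p i * p k * p i = Q * p k * p i ^ 2 := fun i => by ring
      rw [Finset.sum_congr rfl fun i _ => this i, ← Finset.mul_sum, hp1]
      ring
    rw [dotp_T hp1 ho hT (fun j k => Q * p j * p k) hc1 hc2]
    have e1 : ∑ j, ∑ k, Q * p j * p k * mm A j k = Q ^ 3 := by
      have : ∀ j, ∑ k, Q * p j * p k * mm A j k = Q ^ 3 * p j ^ 2 := by
        intro j
        have e3 : ∑ k, Q * p j * p k * mm A j k = Q * p j * ∑ k, mm A j k * p k := by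
          rw [Finset.mul_sum]
          exact Finset.sum_congr rfl fun k _ => by ring
        rw [e3, hmp j]
        ring
      rw [Finset.sum_congr rfl fun j _ => this j, ← Finset.mul_sum, hp1, mul_one]
    have e2 : ∑ j, ∑ k, Q * p j * p k * A j k = Q ^ 2 := by
      have : ∀ j, ∑ k, Q * p j * p k * A j k = Q ^ 2 * p j ^ 2 := by
        intro j
        have e3 : ∑ k, Q * p j * p k * A j k = Q * p j * ∑ k, A j k * p k := by
          rw [Finset.mul_sum]
          exact Finset.sum_congr rfl fun k _ => by ring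
        have e4 : ∑ k, A j k * p k = Q * p j := hAp j
        rw [e3, e4]
        ring
      rw [Finset.sum_congr rfl fun j _ => this j, ← Finset.mul_sum, hp1, mul_one]
    rw [e1, e2]
    ring

end alg

end

end Vale.Agent.P098
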