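import Vale.Agent.Lib.P098.Var.CertInt
import Vale.Agent.Lib.P098.Var.CertJ
import Vale.Agent.Lib.P098.Var.FldX

/-!
# P098: a certificate gives a `PairCert`; flatness
-/

open MeasureTheory Set Filter Topology
open scoped ContDiff

namespace Vale.Agent.P098

section

variable {d : ℕ} {u w : Ed d → ℝ} {U : Set (Ed d)} {C : CS} {α γ a κ : ℝ}

theorem N3_un (h : SmoothCone u w U) {x : Ed d} (hx : x ∈ Pos u) :
    N3 w (un x) = ‖x‖ ^ 4 * N3 w x := by
  have hr := inv_pos.2 (norm_pos_iff.2 (h.ne_zero hx))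
  unfold N3 un
  rw [Finset.mul_sum]
  refine Finset.sum_congr rfl fun k _ => ?_
  rw [Finset.mul_sum]
  refine Finset.sum_congr rfl fun i _ => ?_
  rw [Finset.mul_sum]
  refine Finset.sum_congr rfl fun j _ => ?_
  rw [h.hom3 hx hr, inv_pow, inv_inv]
  ring

theorem integ_N3 (h : SmoothCone u w U) (ha : 1 / 2 < a) {K : Set (Ed d)} (hK : IsCompact K)
    (hK0 : (0 : Ed d) ∉ K) :
    IntegrableOn (fun x => N2 w x ^ (a - 1) * N3 w x) (Pos u ∩ K) volume := by
  by_cases ha1 : a < 1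
  · exact kato_integrable h ha ha1 hK hK0
  · have ha2 : 0 ≤ a - 1 := by linarith [not_lt.1 ha1]
    have hc : ContinuousOn (fun x => N2 w x ^ (a - 1) * N3 w x) U :=
      (h.smoothN2.continuousOn.rpow_const fun x _ => Or.inr ha2).mul h.contN3
    have hKU : closure (Pos u) ∩ K ⊆ U := by
      rintro x ⟨hx1, hx2⟩
      exact h.sub ⟨hx1, fun e => hK0 (e ▸ hx2)⟩
    have hKc : IsCompact (closure (Pos u) ∩ K) := hK.inter_left isClosed_closure
    exact ((hc.mono hKU).integrableOn_compact hKc).mono_set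
      (inter_subset_inter_left _ subset_closure)

theorem Vh_unit {x : Ed d} (hx1 : rho x = 1) : Vh w x = W7 w x := by
  funext a
  unfold Vh
  rw [hx1, Real.one_rpow, one_mul]

theorem E_unit {x : Ed d} (hx1 : rho x = 1) : C.E α w x = C.φ.f (W7 w x) := by
  unfold CS.E
  rw [hx1, Real.one_rpow, one_mul, Vh_unit hx1]

theorem Z_unit {x : Ed d} (hx1 : rho x = 1) (i : Fin d) : C.Z α w i x =
    ∑ m, (C.c m).f (W7 w x) * jF (pj w x) (Aj w x) (Tj w x) m i + C.cx α (W7 w x) * x i := by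
  unfold CS.Z CS.cm CS.cX
  simp only [hx1, Real.one_rpow, one_mul, Vh_unit hx1]
  rfl

theorem lower_unit (h : SmoothCone u w U) (hc : Certi d α γ a κ C)
    (hz : ∀ x ∈ Pos u, Sw w x + κ * (w x ^ 2 * N2 w x) ≤ 1) (R : ℝ) : ∃ c : ℝ, 0 < c ∧
    ∀ x ∈ Pos u, rho x = 1 → 0 < N2 w x → N2 w x ≤ R → c * N2 w x ^ a ≤ C.E α w x := by
  obtain ⟨c, hc0, hcl⟩ := hc.lower R
  refine ⟨c, hc0, fun x hx hx1 hN hNR => ?_⟩
  have hj := jet_unit h hx hx1
  have hu : dot (xj x) (pj w x) = w x := h.euler0_pos hx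
  have hs : dot (pj w x) (pj w x) = Sw w x := dot_pp _
  rw [E_unit hx1]
  refine hcl (xj x) (pj w x) (Aj w x) hj.unit hj.symA hj.trA hj.Ax ?_ ?_ hN hNR
  · rw [hu, h.eq x hx]
    exact h.nonneg x
  · rw [hu, hs]
    exact hz x hx

theorem E_pos (h : SmoothCone u w U) (hc : Certi d α γ a κ C)
    (hz : ∀ x ∈ Pos u, Sw w x + κ * (w x ^ 2 * N2 w x) ≤ 1) {x : Ed d} (hx : x ∈ Pos u)
    (hN : 0 < N2 w x) : 0 < C.E α w x := by
  have hx0 := h.ne_zero hx
  have hr : 0 < ‖x‖ := norm_pos_iff.2 hx0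
  have hy := un_pos h hx
  have hNy : 0 < N2 w (un x) := by
    rw [N2_un h hx]
    positivity
  obtain ⟨c, hc0, hcl⟩ := lower_unit h hc hz (N2 w (un x))
  have h1 := hcl (un x) hy (rho_un hx0) hNy le_rfl
  have h2 : 0 < c * N2 w (un x) ^ a := by positivity
  have eE : C.E α w x = ‖x‖ ^ (-(2 * α)) * C.E α w (un x) := by
    conv_lhs => rw [← un_smul hx0]
    exact h.homE C α hy hr
  rw [eE]
  have h3 : 0 < C.E α w (un x) := by linarith
  positivity

theorem rad_all (h : SmoothCone u w U) (C : CS) (α : ℝ) {x : Ed d} (hx : x ∈ Pos u) :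
    ∑ i, x i * C.Z α w i x = -(α * C.E α w x) := by
  have hx0 := h.ne_zero hx
  have hr : 0 < ‖x‖ := norm_pos_iff.2 hx0
  have hy := un_pos h hx
  have hy1 := rho_un hx0
  have key : ∀ y ∈ Pos u, rho y = 1 → ∑ i, y i * C.Z α w i y = -(α * C.E α w y) := by
    intro y hy hy1
    have hj := jet_unit h hy hy1
    have hdx := fun m => dotx (T := Tj w y) (p := pj w y) hj.symA hj.Ax hj.Tx m
    have e1 : ∀ i, y i * C.Z α w i y =
        ∑ m, (C.c m).f (W7 w y) * (xj y i * jF (pj w y) (Aj w y) (Tj w y) m i) +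
          C.cx α (W7 w y) * y i ^ 2 := by
      intro i
      rw [Z_unit hy1, mul_add, Finset.mul_sum]
      congr 1
      · exact Finset.sum_congr rfl fun m _ => by
          change y i * _ = _ * (y i * _)
          ring
      · ring
    rw [Finset.sum_congr rfl fun i _ => e1 i, Finset.sum_add_distrib, ← Finset.mul_sum,
      Finset.sum_comm]
    have e2 : ∑ i, y i ^ 2 = 1 := hy1
    rw [e2, mul_one]
    have e3 : ∀ m, ∑ i, (C.c m).f (W7 w y) * (xj y i * jF (pj w y) (Aj w y) (Tj w y) m i) =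
        (C.c m).f (W7 w y) * jx (xj y) (pj w y) (Aj w y) m := by
      intro m
      rw [← Finset.mul_sum, hdx m]
    rw [Finset.sum_congr rfl fun m _ => e3 m, E_unit hy1]
    have e4 : C.cx α (W7 w y) = (C.c 0).f (W7 w y) * W7 w y 2 - (C.c 1).f (W7 w y) * W7 w y 0 +
      (C.c 5).f (W7 w y) * W7 w y 3 + (C.c 6).f (W7 w y) * W7 w y 4 +
      (C.c 7).f (W7 w y) * W7 w y 5 + (C.c 8).f (W7 w y) * W7 w y 6 -
      α * C.φ.f (W7 w y) := rfl
    rw [e4]
    generalize C.φ.f (W7 w y) = φ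
    simp only [Fin.sum_univ_succ, Fin.sum_univ_zero, jx, W7, jV]
    simp
    ring
  have h1 := key (un x) hy hy1
  have e0 : x = ‖x‖ • un x := (un_smul hx0).symm
  have e1 : ∀ i, x i * C.Z α w i x =
      ‖x‖ ^ (-(2 * α)) * (un x i * C.Z α w i (un x)) := by
    intro i
    have e2 : C.Z α w i x = ‖x‖ ^ (-1 - 2 * α) * C.Z α w i (un x) := by
      conv_lhs => rw [e0]
      exact h.homZ C α hy hr i
    have e3 : x i = ‖x‖ * un x i := by
      conv_lhs => rw [e0]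
      simp
    rw [e2, e3]
    have e4 : ‖x‖ ^ (-(2 * α)) = ‖x‖ * ‖x‖ ^ (-1 - 2 * α) := by
      nth_rewrite 2 [← Real.rpow_one ‖x‖]
      rw [← Real.rpow_add hr]
      congr 1
      ring
    rw [e4]
    ring
  have e5 : C.E α w x = ‖x‖ ^ (-(2 * α)) * C.E α w (un x) := by
    conv_lhs => rw [e0]
    exact h.homE C α hy hr
  rw [Finset.sum_congr rfl fun i _ => e1 i, ← Finset.mul_sum, h1, e5]
  ring

/-- pointwise bound on the unit sphere -/
theorem G_unit (hd : 2 ≤ d) (h : SmoothCone u w U) (hc : Certi d α γ a κ C) (hφ : C.φ.Good)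
    (hz : ∀ x ∈ Pos u, Sw w x + κ * (w x ^ 2 * N2 w x) ≤ 1) {R : ℝ} (hR : 1 ≤ R) :
    ∃ K : ℝ, 0 ≤ K ∧ ∀ x ∈ Pos u, rho x = 1 → 0 < N2 w x → N2 w x ≤ R →
      (∑ i, pd i (C.E α w) x ^ 2) / C.E α w x +
        |∑ i, pd i (C.E α w) x * C.Z α w i x| / C.E α w x ≤
      K * (N2 w x ^ a * (1 + N3 w x / N2 w x)) := by
  obtain ⟨K1, hK1, h1⟩ := grad_bd_unit (d := d) hc hR
  obtain ⟨K2, hK2, h2⟩ := Z_bd_unit (d := d) hc hR
  obtain ⟨c, hc0, h3⟩ := lower_unit h hc hz R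
  refine ⟨(2 * K1 + K2) / c, by positivity, fun x hx hx1 hN hNR => ?_⟩
  have hs : ∑ i, pj w x i ^ 2 ≤ 1 := h.grad_le_one hd hx
  have hu : |dot (xj x) (pj w x)| ≤ 1 := by
    have h5 := dot_sq_le (xj x) (pj w x)
    have h6 : ∑ i, xj x i ^ 2 = 1 := hx1
    rw [h6, one_mul] at h5
    exact (sq_le_one_iff_abs_le_one _).1 (h5.trans hs)
  have hb1 := h1 x (pj w x) (Aj w x) (Tj w x) hx1 (hu.trans hR) (hs.trans hR) hN hNR
  have hb2 := h2 x (pj w x) (Aj w x) (Tj w x) hx1 (hu.trans hR) (hs.trans hR) hN hNR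
  have hb3 := h3 x hx hx1 hN hNR
  have e1 : ∑ i, pd i (C.E α w) x ^ 2 =
      ∑ i, (C.φ.grad (-2 * α) (xj x) (pj w x) (Aj w x) (Tj w x) i) ^ 2 :=
    Finset.sum_congr rfl fun i _ => by rw [gr_unit h hx hx1 hN hφ α i]
  have e2 : ∑ i, C.Z α w i x ^ 2 = ∑ i, (∑ m, (C.c m).f (jV (xj x) (pj w x) (Aj w x)) *
      jF (pj w x) (Aj w x) (Tj w x) m i + C.cx α (jV (xj x) (pj w x) (Aj w x)) * x i) ^ 2 :=
    Finset.sum_congr rfl fun i _ => by
      rw [Z_unit hx1 i]
      rfl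
  have hNe : jN (Aj w x) = N2 w x := rfl
  have hTe : jT (Tj w x) = N3 w x := rfl
  rw [← e1, hNe, hTe] at hb1
  rw [← e2, hNe, hTe] at hb2
  set N := N2 w x with hNdef
  set t := N3 w x with htdef
  have ht : 0 ≤ t := N3_nonneg w x
  have hE : 0 < C.E α w x := E_pos h hc hz hx hN
  have hNa : 0 < N ^ a := by positivity
  obtain ⟨y, hy⟩ : ∃ y : ℝ, y = 1 + t / N := ⟨_, rfl⟩
  have hy0 : 0 ≤ y := by
    rw [hy]
    positivity
  rw [← hy] at hb1 hb2 ⊢
  set g := ∑ i, pd i (C.E α w) x ^ 2 with hg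
  set zz := ∑ i, C.Z α w i x ^ 2 with hzz
  have hcross : |∑ i, pd i (C.E α w) x * C.Z α w i x| ≤ g + zz := by
    calc _ ≤ ∑ i, |pd i (C.E α w) x * C.Z α w i x| := Finset.abs_sum_le_sum_abs _ _
      _ ≤ ∑ i, (pd i (C.E α w) x ^ 2 + C.Z α w i x ^ 2) := by
        refine Finset.sum_le_sum fun i _ => ?_
        rw [abs_le]
        constructor <;> nlinarith [sq_nonneg (pd i (C.E α w) x + C.Z α w i x),
          sq_nonneg (pd i (C.E α w) x - C.Z α w i x), sq_nonneg (pd i (C.E α w) x),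
          sq_nonneg (C.Z α w i x)]
      _ = g + zz := by rw [Finset.sum_add_distrib]
  have htot : g + |∑ i, pd i (C.E α w) x * C.Z α w i x| ≤
      (2 * K1 + K2) * ((N ^ a) ^ 2 * y) := by
    linarith
  rw [← add_div, div_le_iff₀ hE]
  calc g + |∑ i, pd i (C.E α w) x * C.Z α w i x| ≤ (2 * K1 + K2) * ((N ^ a) ^ 2 * y) := htot
    _ = (2 * K1 + K2) / c * (N ^ a * y) * (c * N ^ a) := by
        field_simp
    _ ≤ (2 * K1 + K2) / c * (N ^ a * y) * C.E α w x :=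
        mul_le_mul_of_nonneg_left hb3 (by positivity)

theorem integ_all (hd : 2 ≤ d) (h : SmoothCone u w U) (hc : Certi d α γ a κ C) (hφ : C.φ.Good)
    (hz : ∀ x ∈ Pos u, Sw w x + κ * (w x ^ 2 * N2 w x) ≤ 1) {K : Set (Ed d)}
    (hK : IsCompact K) (hK0 : (0 : Ed d) ∉ K) : ∃ J : Ed d → ℝ,
    IntegrableOn J (Pos u ∩ K) volume ∧ ∀ x ∈ Pos u ∩ K, 0 < C.E α w x →
      (∑ i, pd i (C.E α w) x ^ 2) / C.E α w x +
        |∑ i, pd i (C.E α w) x * C.Z α w i x| / C.E α w x ≤ J x := by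
  have ha0 : 0 ≤ a := by linarith [hc.a_lo]
  have hKU : closure (Pos u) ∩ K ⊆ U := by
    rintro x ⟨hx1, hx2⟩
    exact h.sub ⟨hx1, fun e => hK0 (e ▸ hx2)⟩
  have hKc : IsCompact (closure (Pos u) ∩ K) := hK.inter_left isClosed_closure
  have hρc : ∀ β : ℝ, ContinuousOn (fun x : Ed d => rho x ^ β) (closure (Pos u) ∩ K) := by
    intro β x hx
    have hx0 : x ≠ 0 := fun e => hK0 (e ▸ hx.2)
    exact ((rho_rpow_smooth hx0 β).continuousAt).continuousWithinAt
  have hNc : ContinuousOn (N2 w) (closure (Pos u) ∩ K) := h.smoothN2.continuousOn.mono hKU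
  have hrc : ContinuousOn (rho : Ed d → ℝ) (closure (Pos u) ∩ K) :=
    rho_smooth.continuous.continuousOn
  obtain ⟨R0, hR0⟩ := hKc.exists_bound_of_continuousOn (hrc.mul hNc)
  obtain ⟨G0, hG0, hG⟩ := G_unit (α := α) hd h hc hφ hz (R := |R0| + 1)
    (by linarith [abs_nonneg R0])
  obtain ⟨M1, hM1⟩ := hKc.exists_bound_of_continuousOn ((hρc (-1 - α)).mul
    ((hrc.mul hNc).rpow_const fun x _ => Or.inr ha0))
  obtain ⟨M2, hM2⟩ := hKc.exists_bound_of_continuousOn (hρc (a - α))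
  refine ⟨fun x => G0 * |M1| + G0 * |M2| * (N2 w x ^ (a - 1) * N3 w x), ?_, ?_⟩
  · have hfin : volume (Pos u ∩ K) ≠ ⊤ :=
      ((measure_mono inter_subset_right).trans_lt hK.measure_lt_top).ne
    exact (integrableOn_const hfin).add ((integ_N3 h hc.a_lo hK hK0).const_mul _)
  · rintro x ⟨hx, hxK⟩ hE
    have hx0 := h.ne_zero hx
    have hr : 0 < ‖x‖ := norm_pos_iff.2 hx0
    have hy := un_pos h hx
    have hN : 0 < N2 w x := N2_pos_of_E hc hE
    have hNy : 0 < N2 w (un x) := by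
      rw [N2_un h hx]
      positivity
    have hxc : x ∈ closure (Pos u) ∩ K := ⟨subset_closure hx, hxK⟩
    have hNR : N2 w (un x) ≤ |R0| + 1 := by
      have h1 := hR0 x hxc
      rw [Real.norm_eq_abs] at h1
      have h2 : rho x * N2 w x ≤ |R0| := (le_abs_self _).trans (h1.trans (le_abs_self _))
      rw [N2_un h hx, ← rho_norm]
      linarith
    have h1 := hG (un x) hy (rho_un hx0) hNy hNR
    have e0 : x = ‖x‖ • un x := (un_smul hx0).symm
    have eE : C.E α w x = ‖x‖ ^ (-(2 * α)) * C.E α w (un x) := by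
      conv_lhs => rw [e0]
      exact h.homE C α hy hr
    have eG : ∀ i, pd i (C.E α w) x = ‖x‖ ^ (-1 - 2 * α) * pd i (C.E α w) (un x) := by
      intro i
      conv_lhs => rw [e0]
      exact pdE_scale h hφ hy hNy hr i
    have eZ : ∀ i, C.Z α w i x = ‖x‖ ^ (-1 - 2 * α) * C.Z α w i (un x) := by
      intro i
      conv_lhs => rw [e0]
      exact h.homZ C α hy hr i
    have k1 : (‖x‖ ^ (-1 - 2 * α)) ^ 2 = ‖x‖ ^ (-(2 * α)) * ‖x‖ ^ (-2 - 2 * α) := by
      rw [← Real.rpow_natCast, ← Real.rpow_mul hr.le, ← Real.rpow_add hr]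
      congr 1
      push_cast
      ring
    have eG2 : ∑ i, pd i (C.E α w) x ^ 2 = ‖x‖ ^ (-(2 * α)) * ‖x‖ ^ (-2 - 2 * α) *
        ∑ i, pd i (C.E α w) (un x) ^ 2 := by
      rw [Finset.mul_sum, ← k1]
      refine Finset.sum_congr rfl fun i _ => ?_
      rw [eG i]
      ring
    have eX : ∑ i, pd i (C.E α w) x * C.Z α w i x = ‖x‖ ^ (-(2 * α)) * ‖x‖ ^ (-2 - 2 * α) *
        ∑ i, pd i (C.E α w) (un x) * C.Z α w i (un x) := by
      rw [Finset.mul_sum, ← k1]
      refine Finset.sum_congr rfl fun i _ => ?_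
      rw [eG i, eZ i]
      ring
    have hp1 : 0 < ‖x‖ ^ (-(2 * α)) := Real.rpow_pos_of_pos hr _
    have hp2 : 0 < ‖x‖ ^ (-2 - 2 * α) := Real.rpow_pos_of_pos hr _
    have hEy : 0 < C.E α w (un x) := E_pos h hc hz hy hNy
    have e1 : (∑ i, pd i (C.E α w) x ^ 2) / C.E α w x +
        |∑ i, pd i (C.E α w) x * C.Z α w i x| / C.E α w x = ‖x‖ ^ (-2 - 2 * α) *
        ((∑ i, pd i (C.E α w) (un x) ^ 2) / C.E α w (un x) +
          |∑ i, pd i (C.E α w) (un x) * C.Z α w i (un x)| / C.E α w (un x)) := by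
      rw [eG2, eX, eE, abs_mul, abs_of_pos (mul_pos hp1 hp2)]
      field_simp
    rw [e1]
    refine (mul_le_mul_of_nonneg_left h1 hp2.le).trans ?_
    -- rewrite in terms of `x`
    have hρ := rho_pos' hx0
    have hpow : ∀ y : ℝ, ‖x‖ ^ (2 * y) = rho x ^ y := by
      intro y
      rw [rho_norm, ← Real.rpow_natCast ‖x‖ 2, ← Real.rpow_mul hr.le]
      norm_cast
    have e2 : ‖x‖ ^ (-2 - 2 * α) = rho x ^ (-1 - α) := by
      rw [← hpow]
      congr 1
      ring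
    have e3 : N2 w (un x) = rho x * N2 w x := by rw [N2_un h hx, rho_norm]
    have e4 : N3 w (un x) = rho x ^ 2 * N3 w x := by
      rw [N3_un h hx, rho_norm]
      ring
    rw [e2, e3, e4]
    have e5 : (rho x * N2 w x) ^ a * (1 + rho x ^ 2 * N3 w x / (rho x * N2 w x)) =
        (rho x * N2 w x) ^ a + rho x ^ (a + 1) * (N2 w x ^ (a - 1) * N3 w x) := by
      rw [mul_add, mul_one]
      congr 1
      rw [Real.mul_rpow hρ.le hN.le, Real.rpow_add_one hρ.ne', Real.rpow_sub_one hN.ne']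
      field_simp
    rw [e5]
    have b1 : rho x ^ (-1 - α) * (rho x * N2 w x) ^ a ≤ |M1| := by
      have := hM1 x hxc
      rw [Real.norm_eq_abs] at this
      exact (le_abs_self _).trans (this.trans (le_abs_self _))
    have b2 : rho x ^ (a - α) ≤ |M2| := by
      have := hM2 x hxc
      rw [Real.norm_eq_abs] at this
      exact (le_abs_self _).trans (this.trans (le_abs_self _))
    have b3 : 0 ≤ N2 w x ^ (a - 1) * N3 w x :=
      mul_nonneg (Real.rpow_nonneg hN.le _) (N3_nonneg w x)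
    have e6 : rho x ^ (-1 - α) * (G0 * ((rho x * N2 w x) ^ a +
        rho x ^ (a + 1) * (N2 w x ^ (a - 1) * N3 w x))) =
        G0 * (rho x ^ (-1 - α) * (rho x * N2 w x) ^ a) +
        G0 * (rho x ^ (-1 - α) * rho x ^ (a + 1)) * (N2 w x ^ (a - 1) * N3 w x) := by ring
    have e7 : rho x ^ (-1 - α) * rho x ^ (a + 1) = rho x ^ (a - α) := by
      rw [← Real.rpow_add hρ]
      congr 1
      ring
    rw [e6, e7]
    have c1 := mul_le_mul_of_nonneg_left b1 hG0
    have c2 := mul_le_mul_of_nonneg_right (mul_le_mul_of_nonneg_left b2 hG0) b3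
    linarith

end

end Vale.Agent.P098
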