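import Vale.Agent.Lib.P098.Var.Base

/-!
# P098: polar coordinates for homogeneous functions and radial test functions
-/

open MeasureTheory Set Filter Topology Metric
open scoped ContDiff

namespace Vale.Agent.P098

/-- polar coordinates for the product of a homogeneous function and a radial function -/
theorem polar_hom {d : ℕ} (hd : 0 < d) (A : Ed d → ℝ) (γ : ℝ)
    (hA : ∀ x : Ed d, ‖x‖ = 1 → ∀ r : ℝ, 0 < r → A (r • x) = r ^ γ * A x) (B : ℝ → ℝ) :
    ∫ x, A x * B ‖x‖ = (∫ y : sphere (0 : Ed d) 1, A y ∂(volume : Measure (Ed d)).toSphere) *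
      ∫ r in Ioi (0 : ℝ), r ^ (d - 1) * (r ^ γ * B r) := by
  have : Nonempty (Fin d) := ⟨⟨0, hd⟩⟩
  have : Nontrivial (Ed d) := inferInstance
  have hdim : Module.finrank ℝ (Ed d) = d := by simp
  calc
    ∫ x, A x * B ‖x‖ = ∫ x : ({(0)}ᶜ : Set (Ed d)), A x.1 * B ‖x.1‖
        ∂((volume : Measure (Ed d)).comap (↑)) := by
      rw [integral_subtype_comap (measurableSet_singleton _).compl fun x => A x * B ‖x‖,
        restrict_compl_singleton]
    _ = ∫ z, A z.1.1 * (z.2.1 ^ γ * B z.2.1) ∂(volume : Measure (Ed d)).toSphere.prod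
        (.volumeIoiPow (d - 1)) := by
      have h1 := (volume : Measure (Ed d)).measurePreserving_homeomorphUnitSphereProd.integral_comp
        (Homeomorph.measurableEmbedding _)
        (fun z : sphere (0 : Ed d) 1 × Ioi (0 : ℝ) => A z.1.1 * (z.2.1 ^ γ * B z.2.1))
      rw [hdim] at h1
      rw [← h1]
      refine integral_congr_ae (Eventually.of_forall fun x => ?_)
      have hx0 : (x : Ed d) ≠ 0 := x.2
      have hn : 0 < ‖(x : Ed d)‖ := norm_pos_iff.2 hx0
      have e1 : ((homeomorphUnitSphereProd (Ed d) x).1 : Ed d) = ‖(x : Ed d)‖⁻¹ • (x : Ed d) := by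
        simp
      have e2 : ((homeomorphUnitSphereProd (Ed d) x).2 : ℝ) = ‖(x : Ed d)‖ := by
        simp
      have e3 : A (x : Ed d) = ‖(x : Ed d)‖ ^ γ * A (‖(x : Ed d)‖⁻¹ • (x : Ed d)) := by
        rw [← hA _ (by rw [norm_smul, norm_inv, norm_norm, inv_mul_cancel₀ hn.ne']) _ hn,
          smul_smul, mul_inv_cancel₀ hn.ne', one_smul]
      change A x.1 * B ‖x.1‖ = A ((homeomorphUnitSphereProd (Ed d) x).1 : Ed d) *
        (((homeomorphUnitSphereProd (Ed d) x).2 : ℝ) ^ γ *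
          B ((homeomorphUnitSphereProd (Ed d) x).2 : ℝ))
      rw [e1, e2, e3]
      ring
    _ = (∫ y : sphere (0 : Ed d) 1, A y ∂(volume : Measure (Ed d)).toSphere) *
        ∫ r : Ioi (0 : ℝ), (r.1 ^ γ * B r.1) ∂(.volumeIoiPow (d - 1)) :=
      integral_prod_mul (fun y : sphere (0 : Ed d) 1 => A y)
        (fun r : Ioi (0 : ℝ) => r.1 ^ γ * B r.1)
    _ = _ := by
      congr 1
      simp only [Measure.volumeIoiPow, ENNReal.ofReal]
      rw [integral_withDensity_eq_integral_smul,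
        integral_subtype_comap measurableSet_Ioi
          fun a => Real.toNNReal (a ^ (d - 1)) • (a ^ γ * B a),
        setIntegral_congr_fun measurableSet_Ioi fun x hx => ?_]
      · rw [NNReal.smul_def, Real.coe_toNNReal _ (pow_nonneg hx.out.le _), smul_eq_mul]
      · exact (measurable_subtype_coe.pow_const _).real_toNNReal

/-- `∫_0^∞ k(log r) dr / r = ∫ k` -/
theorem integral_log (k : ℝ → ℝ) : ∫ r in Ioi (0 : ℝ), r⁻¹ * k (Real.log r) = ∫ s, k s := by
  have h1 := integral_image_eq_integral_abs_deriv_smul (s := univ) (f := Real.exp)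
    (f' := Real.exp) MeasurableSet.univ (fun x _ => (Real.hasDerivAt_exp x).hasDerivWithinAt)
    (Real.exp_injective.injOn) (fun r => r⁻¹ * k (Real.log r))
  rw [image_univ, Real.range_exp] at h1
  rw [h1, Measure.restrict_univ]
  refine integral_congr_ae (Eventually.of_forall fun s => ?_)
  change |Real.exp s| • ((Real.exp s)⁻¹ * k (Real.log (Real.exp s))) = k s
  rw [abs_of_pos (Real.exp_pos s), Real.log_exp, smul_eq_mul, ← mul_assoc,
    mul_inv_cancel₀ (Real.exp_pos s).ne', one_mul]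

/-- the radial function `ψ(log |x|)` -/
noncomputable def radz {d : ℕ} (ψ : ℝ → ℝ) (x : Ed d) : ℝ :=
  open scoped Classical in if x = 0 then 0 else ψ (Real.log ‖x‖)

theorem radz_apply {d : ℕ} (ψ : ℝ → ℝ) {x : Ed d} (hx : x ≠ 0) :
    radz ψ x = ψ (Real.log ‖x‖) := by
  unfold radz
  rw [if_neg hx]

section radz

variable {d : ℕ} {ψ : ℝ → ℝ}

theorem radz_bound (hs : HasCompactSupport ψ) : ∃ M : ℝ, ∀ s, M < |s| → ψ s = 0 := by
  obtain ⟨M, hM⟩ := hs.isCompact.isBounded.subset_closedBall 0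
  refine ⟨M, fun s hsM => ?_⟩
  by_contra hne
  have h1 : s ∈ closedBall (0 : ℝ) M := hM (subset_tsupport _ hne)
  rw [mem_closedBall, dist_zero_right, Real.norm_eq_abs] at h1
  linarith

theorem radz_ev_zero (hs : HasCompactSupport ψ) :
    (radz ψ : Ed d → ℝ) =ᶠ[𝓝 0] fun _ => 0 := by
  obtain ⟨M, hM⟩ := radz_bound hs
  have h1 : ball (0 : Ed d) (Real.exp (-M)) ∈ 𝓝 (0 : Ed d) := ball_mem_nhds _ (Real.exp_pos _)
  filter_upwards [h1] with x hx
  by_cases hx0 : x = 0
  · unfold radz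
    rw [if_pos hx0]
  · rw [radz_apply ψ hx0]
    apply hM
    rw [mem_ball, dist_zero_right] at hx
    have h2 : Real.log ‖x‖ < -M := by
      rw [Real.log_lt_iff_lt_exp (norm_pos_iff.2 hx0)]
      exact hx
    exact lt_of_lt_of_le (by linarith) (neg_le_abs _)

theorem radz_zero_notMem (hs : HasCompactSupport ψ) :
    (0 : Ed d) ∉ tsupport (radz ψ : Ed d → ℝ) :=
  notMem_tsupport_iff_eventuallyEq.2 (radz_ev_zero hs)

theorem radz_ev {x : Ed d} (hx : x ≠ 0) : radz ψ =ᶠ[𝓝 x] fun y => ψ (Real.log ‖y‖) := by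
  filter_upwards [isOpen_ne.mem_nhds hx] with y hy
  exact radz_apply ψ hy

theorem log_norm_smoothAt {x : Ed d} (hx : x ≠ 0) :
    ContDiffAt ℝ ∞ (fun y : Ed d => Real.log ‖y‖) x :=
  (contDiffAt_norm ℝ hx).log (norm_ne_zero_iff.2 hx)

theorem radz_contDiff (hψ : ContDiff ℝ ∞ ψ) (hs : HasCompactSupport ψ) :
    ContDiff ℝ ∞ (radz ψ : Ed d → ℝ) := by
  rw [contDiff_iff_contDiffAt]
  intro x
  by_cases hx : x = 0
  · rw [hx]
    exact contDiffAt_const.congr_of_eventuallyEq (radz_ev_zero hs)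
  · have h1 : ContDiffAt ℝ ∞ (fun y : Ed d => ψ (Real.log ‖y‖)) x :=
      hψ.contDiffAt.comp x (log_norm_smoothAt hx)
    exact h1.congr_of_eventuallyEq (radz_ev hx)

theorem radz_compact (hs : HasCompactSupport ψ) : HasCompactSupport (radz ψ : Ed d → ℝ) := by
  obtain ⟨M, hM⟩ := radz_bound hs
  refine HasCompactSupport.of_support_subset_isCompact (isCompact_closedBall (0 : Ed d)
    (Real.exp M)) fun x hx => ?_
  by_contra hx'
  rw [mem_closedBall, dist_zero_right, not_le] at hx'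
  have hx0 : x ≠ 0 := norm_pos_iff.1 ((Real.exp_pos M).trans hx')
  apply hx
  rw [radz_apply ψ hx0]
  apply hM
  have h2 : M < Real.log ‖x‖ := by
    rw [Real.lt_log_iff_exp_lt (norm_pos_iff.2 hx0)]
    exact hx'
  exact lt_of_lt_of_le h2 (le_abs_self _)

theorem pd_log_norm {x : Ed d} (hx : x ≠ 0) (i : Fin d) :
    pd i (fun y : Ed d => Real.log ‖y‖) x = x i / ‖x‖ ^ 2 := by
  have e : (fun y : Ed d => Real.log ‖y‖) = fun y => (1 / 2) * Real.log (‖y‖ ^ 2) := by
    funext y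
    rw [Real.log_pow]
    push_cast
    ring
  have hn : ‖x‖ ^ 2 ≠ 0 := by
    have := norm_ne_zero_iff.2 hx
    positivity
  have h1 : HasFDerivAt (fun y : Ed d => ‖y‖ ^ 2) (2 • (innerSL ℝ x)) x :=
    (hasStrictFDerivAt_norm_sq x).hasFDerivAt
  have h2 : DifferentiableAt ℝ (fun y : Ed d => Real.log (‖y‖ ^ 2)) x :=
    h1.differentiableAt.log hn
  rw [e, pd_const_mul _ h2, pd_comp Real.log (Real.differentiableAt_log hn) h1.differentiableAt,
    Real.deriv_log]
  unfold pd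
  rw [h1.fderiv]
  have h3 : ((2 : ℕ) • (innerSL ℝ x)) (EuclideanSpace.single i (1 : ℝ)) = 2 * x i := by
    simp [EuclideanSpace.inner_single_right]
  rw [h3]
  field_simp

theorem pd_radz (hψ : ContDiff ℝ ∞ ψ) {x : Ed d} (hx : x ≠ 0) (i : Fin d) :
    pd i (radz ψ) x = deriv ψ (Real.log ‖x‖) * (x i / ‖x‖ ^ 2) := by
  rw [pd_congr (radz_ev hx), pd_comp ψ (hψ.differentiable (by simp) _)
    ((log_norm_smoothAt hx).differentiableAt (by simp)), pd_log_norm hx]

theorem sum_pd_radz (hψ : ContDiff ℝ ∞ ψ) {x : Ed d} (hx : x ≠ 0) :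
    ∑ i, pd i (radz ψ) x ^ 2 = deriv ψ (Real.log ‖x‖) ^ 2 / ‖x‖ ^ 2 := by
  have h1 : ∑ i, x i ^ 2 = ‖x‖ ^ 2 := by
    rw [EuclideanSpace.norm_sq_eq]
    simp
  have hn : ‖x‖ ≠ 0 := norm_ne_zero_iff.2 hx
  calc ∑ i, pd i (radz ψ) x ^ 2 = ∑ i, deriv ψ (Real.log ‖x‖) ^ 2 / ‖x‖ ^ 4 * x i ^ 2 := by
        refine Finset.sum_congr rfl fun i _ => ?_
        rw [pd_radz hψ hx]
        field_simp
    _ = deriv ψ (Real.log ‖x‖) ^ 2 / ‖x‖ ^ 2 := by
        rw [← Finset.mul_sum, h1]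
        field_simp

end radz

end Vale.Agent.P098
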