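import Vale.Agent.Lib.P098.Var.Kato
import Vale.Agent.Lib.P098.Var.Polar

/-!
# P098: maximum principle for zero-homogeneous subharmonic functions
-/

open MeasureTheory Set Filter Topology
open scoped ContDiff

namespace Vale.Agent.P098

section

variable {d : ℕ} {u w : Ed d → ℝ} {U : Set (Ed d)} {F : Ed d → ℝ}

namespace SmoothCone

theorem pd_ramp_F (h : SmoothCone u w U) (hF : ContDiffOn ℝ ∞ F U) {δ : ℝ} (hδ : 0 < δ) {x : Ed d} (hx : x ∈ U)
    (k : Fin d) : pd k (fun y => ramp δ (F y - 1)) x =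
      chi ((F x - 1) / δ) * pd k F x := by
  have hS : DifferentiableAt ℝ F x :=
    (hF.contDiffAt (h.isOpen.mem_nhds hx)).differentiableAt (by simp)
  have hS1 : DifferentiableAt ℝ (fun y => F y - 1) x := hS.sub_const 1
  rw [pd_comp (ramp δ) ((ramp_contDiff δ).differentiable (by simp) _) hS1, ramp_deriv hδ,
    pd_sub hS (differentiableAt_const _), pd_const, sub_zero]

theorem lap_ramp_F (h : SmoothCone u w U) (hF : ContDiffOn ℝ ∞ F U) {δ : ℝ} (hδ : 0 < δ)
    {x : Ed d} (hx : x ∈ Pos u) : chi ((F x - 1) / δ) * lap F x ≤ lap (fun y => ramp δ (F y - 1)) x := by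
  have hxU := h.pos_sub hx
  have hSs : ContDiffAt ℝ ∞ F x := hF.contDiffAt (h.isOpen.mem_nhds hxU)
  have hS : DifferentiableAt ℝ F x := hSs.differentiableAt (by simp)
  have hS1 : DifferentiableAt ℝ (fun y => (F y - 1) / δ) x := by
    have h1 : DifferentiableAt ℝ (fun y => (F y - 1) * δ⁻¹) x := (hS.sub_const 1).mul_const _
    simpa [div_eq_mul_inv] using h1
  have hpS : ∀ k, DifferentiableAt ℝ (pd k F) x := fun k =>
    (contDiffAt_pd (m := ∞) hSs (by simp)).differentiableAt (by simp)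
  have h1 : ∀ k, pd k (pd k (fun y => ramp δ (F y - 1))) x =
      deriv chi ((F x - 1) / δ) / δ * pd k F x ^ 2 +
        chi ((F x - 1) / δ) * pd k (pd k F) x := by
    intro k
    have h2 : pd k (fun y => ramp δ (F y - 1)) =ᶠ[𝓝 x]
        fun y => chi ((F y - 1) / δ) * pd k F y := by
      filter_upwards [h.isOpen.mem_nhds hxU] with y hy
      exact h.pd_ramp_F hF hδ hy k
    have h3 : DifferentiableAt ℝ (fun y => chi ((F y - 1) / δ)) x :=
      (chi_contDiff.differentiable (by simp) _).comp x hS1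
    rw [pd_congr h2, pd_mul h3 (hpS k), pd_comp chi (chi_contDiff.differentiable (by simp) _) hS1]
    have h5 : pd k (fun y => (F y - 1) / δ) x = pd k F x / δ := by
      have e : (fun y => (F y - 1) / δ) = fun y => δ⁻¹ * (F y - 1) := by
        funext y
        ring
      rw [e, pd_const_mul _ (hS.sub_const 1), pd_sub hS (differentiableAt_const _), pd_const]
      ring
    rw [h5]
    ring
  have h6 : lap (fun y => ramp δ (F y - 1)) x =
      deriv chi ((F x - 1) / δ) / δ * ∑ k, pd k F x ^ 2 +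
        chi ((F x - 1) / δ) * lap F x := by
    unfold lap
    rw [Finset.mul_sum, Finset.mul_sum, ← Finset.sum_add_distrib]
    exact Finset.sum_congr rfl fun k _ => h1 k
  rw [h6]
  have h7 := chi_deriv_nonneg ((F x - 1) / δ)
  have h8 : 0 ≤ ∑ k, pd k F x ^ 2 := Finset.sum_nonneg fun i _ => sq_nonneg _
  have h9 : 0 ≤ deriv chi ((F x - 1) / δ) / δ * ∑ k, pd k F x ^ 2 := by positivity
  linarith

/-- the Laplacian of the ramp vanishes on the cone -/
theorem lap_rampF_zero (h : SmoothCone u w U) (hF : ContDiffOn ℝ ∞ F U)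
    (heul : ∀ x ∈ Pos u, ∑ k, x k * pd k F x = 0) (hlap : ∀ x ∈ Pos u, 0 ≤ lap F x)
    (hbd : ∀ x ∈ frontier (Pos u), x ≠ 0 → F x ≤ 1) {δ : ℝ} (hδ : 0 < δ) {x0 : Ed d}
    (hx0 : x0 ∈ Pos u) : lap (fun y => ramp δ (F y - 1)) x0 = 0 := by
  obtain ⟨v, hv⟩ : ∃ v : Ed d → ℝ, v = fun y => ramp δ (F y - 1) := ⟨_, rfl⟩
  rw [← hv]
  have hvs : ContDiffOn ℝ ∞ v U := by
    rw [hv]
    exact (ramp_contDiff δ).comp_contDiffOn (hF.sub contDiffOn_const)
  have hlap0 : ∀ x ∈ Pos u, 0 ≤ lap v x := by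
    intro x hx
    have h1 := h.lap_ramp_F hF hδ hx
    rw [← hv] at h1
    have h2 := hlap x hx
    have h3 := chi_nonneg ((F x - 1) / δ)
    have h4 : 0 ≤ chi ((F x - 1) / δ) * lap F x := mul_nonneg h3 h2
    linarith
  -- radial bump
  obtain ⟨f⟩ : Nonempty (ContDiffBump (Real.log ‖x0‖)) := ⟨default⟩
  have hψ : ContDiff ℝ ∞ (f : ℝ → ℝ) := f.contDiff
  have hψs : HasCompactSupport (f : ℝ → ℝ) := f.hasCompactSupport
  obtain ⟨ζ0, hζ0⟩ : ∃ ζ0 : Ed d → ℝ, ζ0 = radz f := ⟨_, rfl⟩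
  have hz : ContDiff ℝ ∞ ζ0 := by
    rw [hζ0]
    exact radz_contDiff hψ hψs
  have hzs : HasCompactSupport ζ0 := by
    rw [hζ0]
    exact radz_compact hψs
  have h00 : (0 : Ed d) ∉ tsupport ζ0 := by
    rw [hζ0]
    exact radz_zero_notMem (d := d) hψs
  have hznn : ∀ x : Ed d, 0 ≤ ζ0 x := by
    intro x
    rw [hζ0]
    by_cases hx : x = 0
    · unfold radz
      rw [if_pos hx]
    · rw [radz_apply _ hx]
      exact f.nonneg
  have hKc : IsCompact (closure (Pos u) ∩ tsupport ζ0) :=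
    hzs.isCompact.inter_left isClosed_closure
  have hVo : IsOpen (U \ {(0 : Ed d)}) := h.isOpen.sdiff isClosed_singleton
  have hKV : closure (Pos u) ∩ tsupport ζ0 ⊆ U \ {0} := by
    rintro x ⟨hx1, hx2⟩
    have hx0 : x ≠ 0 := fun e => h00 (e ▸ hx2)
    exact ⟨h.sub ⟨hx1, hx0⟩, hx0⟩
  obtain ⟨ρ, hρ, hρ0, -, hρs, hρV, W, hW, hKW, hW1⟩ := exists_cutoff hKc hVo hKV
  obtain ⟨ζ, hζ⟩ : ∃ ζ : Ed d → ℝ, ζ = fun x => ρ x * ζ0 x := ⟨_, rfl⟩
  have hζc : ContDiff ℝ ∞ ζ := by
    rw [hζ]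
    exact hρ.mul hz
  have hζs : HasCompactSupport ζ := by
    rw [hζ]
    exact hρs.mul_right
  have hζU : tsupport ζ ⊆ U \ {0} := by
    rw [hζ]
    exact tsupport_mul_subset.trans hρV
  have hζnn : ∀ x, 0 ≤ ζ x := fun x => by
    rw [hζ]
    exact mul_nonneg (hρ0 x) (hznn x)
  have hev : ∀ x ∈ Pos u, ζ =ᶠ[𝓝 x] ζ0 := by
    intro x hx
    rw [hζ]
    by_cases hxt : x ∈ tsupport ζ0
    · filter_upwards [hW.mem_nhds (hKW ⟨subset_closure hx, hxt⟩)] with y hy
      rw [hW1 y hy, one_mul]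
    · filter_upwards [notMem_tsupport_iff_eventuallyEq.1 hxt] with y hy
      rw [hy]
      simp
  have hζU' : tsupport ζ ⊆ U := fun x hx => (hζU hx).1
  have hζ00 : (0 : Ed d) ∉ tsupport ζ := fun hx => (hζU hx).2 rfl
  have hpv : ∀ i, ContDiffOn ℝ ∞ (pd i v) U := fun i => contDiffOn_pd h.isOpen hvs (by simp)
  have hGc : ∀ i, ContDiff ℝ 1 (fun x => ζ x * pd i v x) := fun i =>
    (contDiff_cutoff_mul h.isOpen hζc hζU' (hpv i)).of_le (by simp)
  have hGs : ∀ i, HasCompactSupport (fun x => ζ x * pd i v x) := fun i => hζs.mul_right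
  have hdiv : ∫ x in Pos u, ∑ i, pd i (fun x => ζ x * pd i v x) x = 0 := by
    refine h.div_eq_zero (fun i x => ζ x * pd i v x) hGc hGs
      (fun i hx => hζ00 (tsupport_mul_subset hx)) fun x hx hx0 => ?_
    refine Finset.sum_eq_zero fun i _ => ?_
    have hxU := h.frontier_sub hx hx0
    have h1 : pd i v x = 0 := by
      rw [hv, h.pd_ramp_F hF hδ hxU]
      have h2 : F x ≤ 1 := hbd x hx hx0
      have h3 : (F x - 1) / δ ≤ 0 := div_nonpos_of_nonpos_of_nonneg (by linarith) hδ.le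
      rw [chi_zero (by linarith), zero_mul]
    rw [h1]
    ring
  have hpt : ∀ x ∈ Pos u, ∑ i, pd i (fun x => ζ x * pd i v x) x = ζ x * lap v x := by
    intro x hx
    have hxU := h.pos_sub hx
    have hn := h.isOpen.mem_nhds hxU
    have dζ : DifferentiableAt ℝ ζ x := hζc.differentiable (by simp) x
    have dpv : ∀ i, DifferentiableAt ℝ (pd i v) x := fun i =>
      ((hpv i).contDiffAt hn).differentiableAt (by simp)
    have e1 : ∀ i, pd i (fun x => ζ x * pd i v x) x =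
        deriv f (Real.log ‖x‖) / ‖x‖ ^ 2 * chi ((F x - 1) / δ) * (x i * pd i F x) +
          ζ x * pd i (pd i v) x := by
      intro i
      rw [pd_mul dζ (dpv i), pd_congr (hev x hx), hζ0, pd_radz hψ (h.ne_zero hx)]
      have e2 : pd i v x = chi ((F x - 1) / δ) * pd i F x := by
        rw [hv, h.pd_ramp_F hF hδ hxU]
      rw [e2]
      ring
    rw [Finset.sum_congr rfl fun i _ => e1 i, Finset.sum_add_distrib, ← Finset.mul_sum,
      heul x hx, mul_zero, zero_add, ← Finset.mul_sum]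
    rfl
  have hint : ∫ x in Pos u, ζ x * lap v x = 0 := by
    rw [← hdiv]
    exact setIntegral_congr_fun h.isOpen_pos.measurableSet fun x hx => (hpt x hx).symm
  have hcont : ContinuousOn (fun x => ζ x * lap v x) (Pos u) := by
    have e : lap v = fun x => ∑ i, pd i (pd i v) x := rfl
    rw [e]
    refine hζc.continuous.continuousOn.mul (continuousOn_finsetSum _ fun i _ => ?_)
    exact ((contDiffOn_pd (m := ∞) h.isOpen (hpv i) (by simp)).continuousOn).mono h.pos_sub
  have hintb : IntegrableOn (fun x => ζ x * lap v x) (Pos u) volume := by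
    refine (SmoothCone.integrable_div hGc hGs (Pos u)).congr_fun
      (fun x hx => hpt x hx) h.isOpen_pos.measurableSet
  have hae : (fun x => ζ x * lap v x) =ᵐ[volume.restrict (Pos u)] 0 := by
    refine (setIntegral_eq_zero_iff_of_nonneg_ae ?_ hintb).1 hint
    refine (ae_restrict_iff' h.isOpen_pos.measurableSet).2 (Eventually.of_forall fun x hx => ?_)
    exact mul_nonneg (hζnn x) (hlap0 x hx)
  have hall : EqOn (fun x => ζ x * lap v x) 0 (Pos u) :=
    Measure.eqOn_open_of_ae_eq hae h.isOpen_pos hcont continuousOn_const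
  have h1 := hall hx0
  have h2 : ζ x0 = 1 := by
    rw [(hev x0 hx0).self_of_nhds, hζ0, radz_apply _ (h.ne_zero hx0)]
    exact f.one_of_mem_closedBall (Metric.mem_closedBall_self f.rIn_pos.le)
  have h3 : ζ x0 * lap v x0 = 0 := h1
  rw [h2, one_mul] at h3
  exact h3

/-- where `F > 1` the Hessian vanishes -/
theorem N2_zero_of_largeF (h : SmoothCone u w U) (hF : ContDiffOn ℝ ∞ F U)
    (heul : ∀ x ∈ Pos u, ∑ k, x k * pd k F x = 0) {c : ℝ} (hc : 0 < c)
    (hlap : ∀ x ∈ Pos u, c * N2 w x ≤ lap F x)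
    (hbd : ∀ x ∈ frontier (Pos u), x ≠ 0 → F x ≤ 1) {x : Ed d} (hx : x ∈ Pos u)
    (hs : 1 < F x) : N2 w x = 0 := by
  have hδ : 0 < (F x - 1) / 2 := by linarith
  have h1 := h.lap_ramp_F hF hδ hx
  rw [h.lap_rampF_zero hF heul (fun y hy => le_trans (mul_nonneg hc.le (N2_nonneg w y))
    (hlap y hy)) hbd hδ hx] at h1
  have h2 : (F x - 1) / ((F x - 1) / 2) = 2 := by
    have : F x - 1 ≠ 0 := by linarith
    field_simp
  rw [h2, chi_one le_rfl, one_mul] at h1
  have h3 := N2_nonneg w x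
  have h4 := hlap x hx
  by_contra hne
  have h5 : 0 < N2 w x := lt_of_le_of_ne h3 (Ne.symm hne)
  have h6 : 0 < c * N2 w x := mul_pos hc h5
  linarith

end SmoothCone

end

end Vale.Agent.P098
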