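import Vale.Agent.Lib.P098.Var.KatoJet
import Vale.Agent.Lib.P098.Var.MaxP
import Vale.Agent.Lib.P098.Var.CertPair

/-!
# P098: the a priori bound `|∇w|² + κ w² |D²w|² ≤ 1`
-/

open MeasureTheory Set Filter Topology
open scoped ContDiff

namespace Vale.Agent.P098

section

variable {d : ℕ} {u w : Ed d → ℝ} {U : Set (Ed d)}

theorem lap_mul' {f g : Ed d → ℝ} {x : Ed d} (hU : IsOpen U) (hx : x ∈ U)
    (hf : ContDiffOn ℝ ∞ f U) (hg : ContDiffOn ℝ ∞ g U) : lap (fun y => f y * g y) x =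
      f x * lap g x + g x * lap f x + 2 * ∑ k, pd k f x * pd k g x := by
  have hfd : ∀ y ∈ U, DifferentiableAt ℝ f y := fun y hy =>
    (hf.contDiffAt (hU.mem_nhds hy)).differentiableAt (by simp)
  have hgd : ∀ y ∈ U, DifferentiableAt ℝ g y := fun y hy =>
    (hg.contDiffAt (hU.mem_nhds hy)).differentiableAt (by simp)
  have hpf : ∀ k, DifferentiableAt ℝ (pd k f) x := fun k =>
    ((contDiffOn_pd (m := ∞) hU hf (by simp)).contDiffAt
      (hU.mem_nhds hx)).differentiableAt (by simp)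
  have hpg : ∀ k, DifferentiableAt ℝ (pd k g) x := fun k =>
    ((contDiffOn_pd (m := ∞) hU hg (by simp)).contDiffAt
      (hU.mem_nhds hx)).differentiableAt (by simp)
  have h1 : ∀ k, pd k (pd k (fun y => f y * g y)) x =
      f x * pd k (pd k g) x + g x * pd k (pd k f) x + 2 * (pd k f x * pd k g x) := by
    intro k
    have h2 : pd k (fun y => f y * g y) =ᶠ[𝓝 x] fun y => pd k f y * g y + f y * pd k g y := by
      filter_upwards [hU.mem_nhds hx] with y hy
      exact pd_mul (hfd y hy) (hgd y hy)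
    have d1 : DifferentiableAt ℝ (fun y => pd k f y * g y) x := (hpf k).mul (hgd x hx)
    have d2 : DifferentiableAt ℝ (fun y => f y * pd k g y) x := (hfd x hx).mul (hpg k)
    rw [pd_congr h2, pd_add d1 d2, pd_mul (hpf k) (hgd x hx), pd_mul (hfd x hx) (hpg k)]
    ring
  unfold lap
  rw [Finset.sum_congr rfl fun k _ => h1 k, Finset.sum_add_distrib, Finset.sum_add_distrib,
    ← Finset.mul_sum, ← Finset.mul_sum, ← Finset.mul_sum]

/-- the test function -/
noncomputable def Fk (κ : ℝ) (w : Ed d → ℝ) (x : Ed d) : ℝ :=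
  Sw w x + κ * (w x * w x * N2 w x)

namespace SmoothCone

theorem smoothFk (h : SmoothCone u w U) (κ : ℝ) : ContDiffOn ℝ ∞ (Fk κ w) U :=
  h.smoothS.add (contDiffOn_const.mul ((h.smooth.mul h.smooth).mul h.smoothN2))

theorem homFk (h : SmoothCone u w U) (κ : ℝ) {x : Ed d} (hx : x ∈ Pos u) {r : ℝ} (hr : 0 < r) :
    Fk κ w (r • x) = Fk κ w x := by
  unfold Fk
  rw [h.homS hx hr, h.hom0 hx hr, h.homN2 hx hr]
  field_simp

theorem eulerFk (h : SmoothCone u w U) (κ : ℝ) {x : Ed d} (hx : x ∈ Pos u) :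
    ∑ k, x k * pd k (Fk κ w) x = 0 := by
  have hd : DifferentiableAt ℝ (Fk κ w) x := h.diff_of_smooth (h.pos_sub hx) (h.smoothFk κ)
  have := euler_hom (k := 0) hd fun r hr => by
    rw [h.homFk κ hx hr, Real.rpow_zero, one_mul]
  rw [this, zero_mul]

/-- formula for the Laplacian -/
theorem lapFk (h : SmoothCone u w U) (κ : ℝ) {x : Ed d} (hx : x ∈ Pos u) :
    lap (Fk κ w) x = 2 * N2 w x + κ * (2 * Sw w x * N2 w x +
      8 * w x * dot (jX (Aj w x) (Tj w x)) (pj w x) + 2 * w x ^ 2 * N3 w x) := by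
  have hxU := h.pos_sub hx
  have hww : ContDiffOn ℝ ∞ (fun y => w y * w y) U := h.smooth.mul h.smooth
  have hG : ContDiffOn ℝ ∞ (fun y => w y * w y * N2 w y) U := hww.mul h.smoothN2
  have h1 : lap (fun y => w y * w y) x = 2 * Sw w x := by
    rw [lap_mul' h.isOpen hxU h.smooth h.smooth, h.harm x hx]
    unfold Sw
    rw [mul_zero, zero_add, zero_add]
    congr 1
    exact Finset.sum_congr rfl fun k _ => by ring
  have hwd : DifferentiableAt ℝ w x := h.diff0 hxU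
  have h2 : lap (fun y => w y * w y * N2 w y) x = 2 * w x ^ 2 * N3 w x + 2 * Sw w x * N2 w x +
      8 * w x * dot (jX (Aj w x) (Tj w x)) (pj w x) := by
    rw [lap_mul' h.isOpen hxU hww h.smoothN2, h1, h.lapN2 hx]
    have e1 : ∀ k, pd k (fun y => w y * w y) x * pd k (N2 w) x =
        4 * w x * (jX (Aj w x) (Tj w x) k * pj w x k) := by
      intro k
      rw [pd_mul hwd hwd, h.pdN2 hxU k]
      change (pj w x k * w x + w x * pj w x k) * (2 * jX (Aj w x) (Tj w x) k) = _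
      ring
    rw [Finset.sum_congr rfl fun k _ => e1 k, ← Finset.mul_sum]
    unfold dot
    ring
  have hlin : lap (Fk κ w) x = lap (Sw w) x + κ * lap (fun y => w y * w y * N2 w y) x := by
    unfold lap
    rw [Finset.mul_sum, ← Finset.sum_add_distrib]
    refine Finset.sum_congr rfl fun k _ => ?_
    have e2 : pd k (Fk κ w) =ᶠ[𝓝 x] fun y => pd k (Sw w) y +
        κ * pd k (fun y => w y * w y * N2 w y) y := by
      filter_upwards [h.isOpen.mem_nhds hxU] with y hy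
      have h1 := h.diff_of_smooth hy hG
      have h2 := h.diff_of_smooth hy h.smoothS
      have e3 : Fk κ w = fun y => Sw w y + κ * (w y * w y * N2 w y) := rfl
      rw [e3, pd_add h2 (h1.const_mul κ), pd_const_mul _ h1]
    have hpG : DifferentiableAt ℝ (pd k (fun y => w y * w y * N2 w y)) x :=
      h.diff_of_smooth hxU (contDiffOn_pd (m := ∞) h.isOpen hG (by simp))
    have hpS : DifferentiableAt ℝ (pd k (Sw w)) x :=
      h.diff_of_smooth hxU (contDiffOn_pd (m := ∞) h.isOpen h.smoothS (by simp))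
    rw [pd_congr e2, pd_add hpS (hpG.const_mul κ), pd_const_mul _ hpG]
  rw [hlin, h.lapS hx, h2]
  ring

/-- the lower bound at unit points -/
theorem lapFk_unit (hd : 3 ≤ d) (h : SmoothCone u w U) {x : Ed d} (hx : x ∈ Pos u)
    (hx1 : rho x = 1) : -((6 * d - 10) * N2 w x) ≤ ((d : ℝ) + 1) * (2 * Sw w x * N2 w x +
      8 * w x * dot (jX (Aj w x) (Tj w x)) (pj w x) + 2 * w x ^ 2 * N3 w x) := by
  have hj := jet_unit h hx hx1
  have hu : dot (xj x) (pj w x) = w x := h.euler0_pos hx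
  have hs : dot (pj w x) (pj w x) = Sw w x := dot_pp _
  have h1 := kato_jet hd hj
  rw [hu, hs] at h1
  have hN : jN (Aj w x) = N2 w x := rfl
  have hT : jT (Tj w x) = N3 w x := rfl
  rw [hN, hT] at h1
  have h2 : Sw w x ≤ 1 := h.grad_le_one (by omega) hx
  have h3 : Sw w x - w x ^ 2 ≤ 1 := by nlinarith [sq_nonneg (w x)]
  have hd3 : (3 : ℝ) ≤ d := by exact_mod_cast hd
  have h4 : (6 * (d : ℝ) - 10) * (N2 w x * (Sw w x - w x ^ 2)) ≤ (6 * d - 10) * N2 w x := by
    have h5 : N2 w x * (Sw w x - w x ^ 2) ≤ N2 w x * 1 :=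
      mul_le_mul_of_nonneg_left h3 (N2_nonneg w x)
    rw [mul_one] at h5
    exact mul_le_mul_of_nonneg_left h5 (by linarith)
  linarith

theorem lapFk_lower (hd : 3 ≤ d) (h : SmoothCone u w U) {κ : ℝ} (hκ : 0 ≤ κ) {x : Ed d}
    (hx : x ∈ Pos u) : (2 - κ * ((6 * d - 10) / (d + 1))) * N2 w x ≤ lap (Fk κ w) x := by
  have hx0 := h.ne_zero hx
  have hr : 0 < ‖x‖ := norm_pos_iff.2 hx0
  have hy := un_pos h hx
  have h1 := lapFk_unit hd h hy (rho_un hx0)
  have hd0 : (0 : ℝ) < d + 1 := by positivity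
  have eS : Sw w (un x) = Sw w x := h.homS hx (inv_pos.2 hr)
  have eW : w (un x) = ‖x‖⁻¹ * w x := h.hom0 hx (inv_pos.2 hr)
  have eN : N2 w (un x) = ‖x‖ ^ 2 * N2 w x := N2_un h hx
  have eT : N3 w (un x) = ‖x‖ ^ 4 * N3 w x := N3_un h hx
  have eX : dot (jX (Aj w (un x)) (Tj w (un x))) (pj w (un x)) =
      ‖x‖ ^ 3 * dot (jX (Aj w x) (Tj w x)) (pj w x) := by
    unfold un
    rw [h.homp hx (inv_pos.2 hr), h.homA hx (inv_pos.2 hr), h.homT hx (inv_pos.2 hr)]
    unfold dot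
    rw [Finset.mul_sum]
    refine Finset.sum_congr rfl fun i _ => ?_
    rw [jX_s, inv_inv, inv_pow, inv_inv]
    ring
  rw [eS, eW, eN, eT, eX] at h1
  rw [h.lapFk κ hx]
  set N := N2 w x
  set s := Sw w x
  set X := dot (jX (Aj w x) (Tj w x)) (pj w x)
  set t := N3 w x
  set r := ‖x‖
  have h2 : -((6 * d - 10) * N) ≤ ((d : ℝ) + 1) * (2 * s * N + 8 * w x * X +
      2 * w x ^ 2 * t) := by
    have e1 : ((d : ℝ) + 1) * (2 * s * (r ^ 2 * N) + 8 * (r⁻¹ * w x) * (r ^ 3 * X) +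
        2 * (r⁻¹ * w x) ^ 2 * (r ^ 4 * t)) = r ^ 2 * (((d : ℝ) + 1) *
        (2 * s * N + 8 * w x * X + 2 * w x ^ 2 * t)) := by
      field_simp
    have e2 : -((6 * (d : ℝ) - 10) * (r ^ 2 * N)) = r ^ 2 * (-((6 * d - 10) * N)) := by ring
    rw [e1, e2] at h1
    exact le_of_mul_le_mul_left h1 (by positivity)
  have h3 : -((6 * d - 10) / (d + 1) * N) ≤ 2 * s * N + 8 * w x * X + 2 * w x ^ 2 * t := by
    have e3 : -((6 * (d : ℝ) - 10) / (d + 1) * N) = (-((6 * d - 10) * N)) / (d + 1) := by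
      field_simp
    rw [e3, div_le_iff₀ hd0]
    linarith
  have h4 := mul_le_mul_of_nonneg_left h3 hκ
  linarith

/-- **A priori bound.** -/
theorem z_bound_lt (hd : 3 ≤ d) (h : SmoothCone u w U) {κ : ℝ} (hκ : 0 ≤ κ)
    (hκ1 : κ * (3 * d - 5) < d + 1) {x : Ed d} (hx : x ∈ Pos u) :
    Sw w x + κ * (w x ^ 2 * N2 w x) ≤ 1 := by
  by_contra hcon
  have hF : 1 < Fk κ w x := by
    unfold Fk
    have e : w x * w x * N2 w x = w x ^ 2 * N2 w x := by ring
    rw [e]
    exact not_le.1 hcon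
  have hd0 : (0 : ℝ) < d + 1 := by positivity
  have hc : 0 < 2 - κ * ((6 * d - 10) / (d + 1)) := by
    rw [sub_pos, ← mul_div_assoc, div_lt_iff₀ hd0]
    linarith
  have h1 := h.N2_zero_of_largeF (h.smoothFk κ) (fun y hy => h.eulerFk κ hy) hc
    (fun y hy => h.lapFk_lower hd hκ hy) (fun y hy hy0 => by
      unfold Fk
      rw [h.w_zero hy hy0]
      have : Sw w y = 1 := h.grad y hy hy0
      rw [this]
      simp) hx hF
  have h2 : Sw w x ≤ 1 := h.grad_le_one (by omega) hx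
  unfold Fk at hF
  rw [h1] at hF
  linarith

theorem z_bound (hd : 3 ≤ d) (h : SmoothCone u w U) {κ : ℝ} (hκ : 0 ≤ κ)
    (hκ1 : κ * (3 * d - 5) ≤ d + 1) {x : Ed d} (hx : x ∈ Pos u) :
    Sw w x + κ * (w x ^ 2 * N2 w x) ≤ 1 := by
  have hd3 : (3 : ℝ) ≤ d := by exact_mod_cast hd
  have h1 : ∀ ε ∈ Ioo (0 : ℝ) 1, Sw w x + (1 - ε) * κ * (w x ^ 2 * N2 w x) ≤ 1 := by
    rintro ε ⟨hε0, hε1⟩
    refine h.z_bound_lt hd (mul_nonneg (by linarith) hκ) ?_ hx
    rcases hκ.lt_or_eq with hk | hk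
    · have h2 : 0 < κ * (3 * (d : ℝ) - 5) := mul_pos hk (by linarith)
      nlinarith
    · rw [← hk]
      simp
      positivity
  have h2 : Tendsto (fun ε : ℝ => Sw w x + (1 - ε) * κ * (w x ^ 2 * N2 w x)) (𝓝[>] 0)
      (𝓝 (Sw w x + (1 - 0) * κ * (w x ^ 2 * N2 w x))) := by
    have hc : Continuous (fun ε : ℝ => Sw w x + (1 - ε) * κ * (w x ^ 2 * N2 w x)) := by
      fun_prop
    exact (hc.tendsto 0).mono_left nhdsWithin_le_nhds
  have h3 : Sw w x + (1 - 0) * κ * (w x ^ 2 * N2 w x) ≤ 1 := by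
    refine le_of_tendsto h2 ?_
    filter_upwards [Ioo_mem_nhdsGT (zero_lt_one' ℝ)] with ε hε
    exact h1 ε hε
  simpa using h3

end SmoothCone

end

end Vale.Agent.P098
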