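import Vale.Agent.Lib.P098.Var.Flat
import Vale.Agent.Lib.P098.Var.Zbd
import Vale.Agent.Lib.P098.Sta.Main
import Vale.Agent.Lib.P098.Sta.Fv4

/-!
# P098: minimizing cones are flat if there is a certificate
-/

open MeasureTheory Set Filter Topology
open scoped ContDiff

namespace Vale.Agent.P098

section

variable {d : ℕ} {u w : Ed d → ℝ} {U : Set (Ed d)} {C : CS} {γ a κ : ℝ}

/-- stable version -/
theorem flat_of_stab (hd : 3 ≤ d) (h : SmoothCone u w U) (hst : Stab u w)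
    (hc : Certi d (((d : ℝ) - 2) / 2) γ a κ C) (hφ : C.φ.Good) (hC : ∀ m, (C.c m).Good)
    (hγ : 0 < γ) (hκ : 0 ≤ κ) (hκ1 : κ * (3 * d - 5) ≤ d + 1) :
    (∀ x, u x = 0) ∨ ∃ e : Ed d, ‖e‖ = 1 ∧ ∀ x, u x = max (inner ℝ e x) 0 :=
  flat_of_cert (by omega) h hst hc hφ hC (by simpa using hγ) fun _ hx => h.z_bound hd hκ hκ1 hx

/-- minimizing version -/
theorem flat_of_min (hd : 3 ≤ d) (h : Cone0 u w U) (hm : LipMin u)
    (hc : Certi d (((d : ℝ) - 2) / 2) γ a κ C) (hφ : C.φ.Good) (hC : ∀ m, (C.c m).Good)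
    (hγ : 0 < γ) (hκ : 0 ≤ κ) (hκ1 : κ * (3 * d - 5) ≤ d + 1) :
    (∀ x, u x = 0) ∨ ∃ e : Ed d, ‖e‖ = 1 ∧ ∀ x, u x = max (inner ℝ e x) 0 :=
  flat_of_stab hd (h.smoothCone hm) (stab_of_min (h.smoothCone hm) hm) hc hφ hC hγ hκ hκ1

end

end Vale.Agent.P098
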