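import Vale.Agent.Lib.P098.Var.Ramp

/-!
# P098: pointwise certificates and the integrated inequality

`Cert u w U E α c`: `E ≥ 0` is continuous up to the free boundary, smooth where it is positive,
homogeneous of degree `-α`, satisfies `|x|² ΔE ≥ c E` inside and `∇E·∇w ≥ D²w(∇w,∇w) E` on the
free boundary.  Stability then gives `∫ E² (|∇ζ|² - c ζ²/|x|²) ≥ 0`.
-/

open MeasureTheory Set Filter Topology
open scoped ContDiff

namespace Vale.Agent.P098

/-- `D²w(∇w,∇w)` -/
noncomputable def Qw {d : ℕ} (w : Ed d → ℝ) (x : Ed d) : ℝ :=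
  ∑ i, ∑ j, pd i w x * pd i (pd j w) x * pd j w x

/-- a pointwise certificate -/
structure Cert {d : ℕ} (u w : Ed d → ℝ) (U : Set (Ed d)) (E : Ed d → ℝ) (α c : ℝ) : Prop where
  cont : ContinuousOn E U
  smooth : ∀ x ∈ U, 0 < E x → ContDiffAt ℝ ∞ E x
  nonneg : ∀ x ∈ Pos u, 0 ≤ E x
  hom : ∀ x ∈ Pos u, ∀ r : ℝ, 0 < r → E (r • x) = r ^ (-α) * E x
  int : ∀ x ∈ Pos u, 0 < E x → c * E x ≤ ‖x‖ ^ 2 * lap E x
  bdry : ∀ x ∈ frontier (Pos u), x ≠ 0 → 0 < E x → Qw w x * E x ≤ ∑ i, pd i E x * pd i w x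

section

variable {d : ℕ} {u w E : Ed d → ℝ} {U : Set (Ed d)} {α c : ℝ}

theorem integrable_of_continuousOn_compact {K : Set (Ed d)} (hK : IsCompact K) {F : Ed d → ℝ}
    (hF : ContinuousOn F K) (h0 : ∀ x, x ∉ K → F x = 0) : Integrable F volume := by
  have h1 : IntegrableOn F K volume := hF.integrableOn_compact hK
  have h2 : F = K.indicator F := by
    funext x
    by_cases hx : x ∈ K
    · rw [indicator_of_mem hx]
    · rw [indicator_of_notMem hx, h0 x hx]
  rw [h2]
  exact (integrable_indicator_iff hK.measurableSet).2 h1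

namespace Cert

theorem ramp_ev_zero (h : SmoothCone u w U) (hE : Cert u w U E α c) {δ : ℝ} (hδ : 0 < δ)
    {x : Ed d} (hx : x ∈ U) (hx0 : E x ≤ 0) : (fun y => ramp δ (E y)) =ᶠ[𝓝 x] fun _ => 0 := by
  have h1 : ContinuousAt E x := hE.cont.continuousAt (h.isOpen.mem_nhds hx)
  filter_upwards [h1.eventually (gt_mem_nhds (lt_of_le_of_lt hx0 hδ))] with y hy
  exact ramp_zero hδ hy.le

theorem ramp_smoothAt (h : SmoothCone u w U) (hE : Cert u w U E α c) {δ : ℝ} (hδ : 0 < δ)
    {x : Ed d} (hx : x ∈ U) : ContDiffAt ℝ ∞ (fun y => ramp δ (E y)) x := by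
  by_cases hp : 0 < E x
  · exact (ramp_contDiff δ).contDiffAt.comp x (hE.smooth x hx hp)
  · exact contDiffAt_const.congr_of_eventuallyEq (ramp_ev_zero h hE hδ hx (not_lt.1 hp))

theorem ramp_smoothOn (h : SmoothCone u w U) (hE : Cert u w U E α c) {δ : ℝ} (hδ : 0 < δ) :
    ContDiffOn ℝ ∞ (fun y => ramp δ (E y)) U :=
  fun _ hx => (ramp_smoothAt h hE hδ hx).contDiffWithinAt

theorem pd_ramp (hE : Cert u w U E α c) {δ : ℝ} (hδ : 0 < δ) {x : Ed d} (hx : x ∈ U)
    (hp : 0 < E x) (i : Fin d) :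
    pd i (fun y => ramp δ (E y)) x = chi (E x / δ) * pd i E x := by
  rw [pd_comp (ramp δ) ((ramp_contDiff δ).differentiable (by simp) _)
    ((hE.smooth x hx hp).differentiableAt (by simp)), ramp_deriv hδ]

/-- interior inequality for the ramp -/
theorem ramp_int (h : SmoothCone u w U) (hE : Cert u w U E α c) (hc : 0 ≤ c) {δ : ℝ}
    (hδ : 0 < δ) {x : Ed d} (hx : x ∈ Pos u) :
    c * ramp δ (E x) ≤ ‖x‖ ^ 2 * lap (fun y => ramp δ (E y)) x := by
  have hxU : x ∈ U := h.pos_sub hx
  by_cases hp : 0 < E x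
  · have hEx : ContDiffAt ℝ ∞ E x := hE.smooth x hxU hp
    have hcE : ContinuousAt E x := hEx.continuousAt
    have h1 : ∀ i, pd i (fun y => ramp δ (E y)) =ᶠ[𝓝 x]
        fun y => chi (E y / δ) * pd i E y := by
      intro i
      filter_upwards [h.isOpen.mem_nhds hxU, hcE.eventually (lt_mem_nhds hp)] with y hy hyp
      exact pd_ramp hE hδ hy hyp i
    have hdE : DifferentiableAt ℝ E x := hEx.differentiableAt (by simp)
    have hdE' : DifferentiableAt ℝ (fun y => E y / δ) x := by
      simpa [div_eq_mul_inv] using hdE.mul_const δ⁻¹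
    have h2 : ∀ i, pd i (pd i (fun y => ramp δ (E y))) x =
        deriv chi (E x / δ) / δ * pd i E x ^ 2 + chi (E x / δ) * pd i (pd i E) x := by
      intro i
      have h3 : DifferentiableAt ℝ (fun y => chi (E y / δ)) x :=
        (chi_contDiff.differentiable (by simp) _).comp x hdE'
      have h4 : DifferentiableAt ℝ (pd i E) x :=
        (contDiffAt_pd (m := ∞) hEx (by simp)).differentiableAt (by simp)
      rw [pd_congr (h1 i), pd_mul h3 h4,
        pd_comp chi (chi_contDiff.differentiable (by simp) _) hdE']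
      have h5 : pd i (fun y => E y / δ) x = pd i E x / δ := by
        have e : (fun y => E y / δ) = fun y => δ⁻¹ * E y := by
          funext y
          ring
        rw [e, pd_const_mul _ hdE]
        ring
      rw [h5]
      ring
    have h6 : lap (fun y => ramp δ (E y)) x = deriv chi (E x / δ) / δ * ∑ i, pd i E x ^ 2 +
        chi (E x / δ) * lap E x := by
      unfold lap
      rw [Finset.mul_sum, Finset.mul_sum, ← Finset.sum_add_distrib]
      exact Finset.sum_congr rfl fun i _ => h2 i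
    have h7 : 0 ≤ ‖x‖ ^ 2 * (deriv chi (E x / δ) / δ * ∑ i, pd i E x ^ 2) := by
      have := chi_deriv_nonneg (E x / δ)
      have h8 : 0 ≤ ∑ i, pd i E x ^ 2 := Finset.sum_nonneg fun i _ => sq_nonneg _
      positivity
    have h9 : chi (E x / δ) * (c * E x) ≤ chi (E x / δ) * (‖x‖ ^ 2 * lap E x) :=
      mul_le_mul_of_nonneg_left (hE.int x hx hp) (chi_nonneg _)
    have h10 : c * ramp δ (E x) ≤ c * (E x * chi (E x / δ)) :=
      mul_le_mul_of_nonneg_left (ramp_le_mul hδ hp.le) hc
    rw [h6]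
    linarith
  · have h1 := ramp_ev_zero h hE hδ hxU (not_lt.1 hp)
    have h2 : lap (fun y => ramp δ (E y)) x = 0 := by
      unfold lap
      refine Finset.sum_eq_zero fun i _ => ?_
      have h3 : pd i (fun y => ramp δ (E y)) =ᶠ[𝓝 x] fun _ => 0 := by
        filter_upwards [pd_congr_nhds (i := i) h1] with y hy
        rw [hy, pd_const]
      rw [pd_congr h3, pd_const]
    have h0 : ramp δ (E x) = 0 := h1.self_of_nhds
    rw [h2, h0]
    simp

/-- boundary inequality for the ramp -/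
theorem ramp_bdry (h : SmoothCone u w U) (hE : Cert u w U E α c) {δ : ℝ}
    (hδ : 0 < δ) {x : Ed d} (hx : x ∈ frontier (Pos u)) (hx0 : x ≠ 0) :
    -(2 * δ * |Qw w x|) ≤
      ∑ i, pd i (fun y => ramp δ (E y)) x * pd i w x - ramp δ (E x) * Qw w x := by
  have hxU : x ∈ U := h.frontier_sub hx hx0
  by_cases hp : 0 < E x
  · have h1 : ∑ i, pd i (fun y => ramp δ (E y)) x * pd i w x =
        chi (E x / δ) * ∑ i, pd i E x * pd i w x := by
      rw [Finset.mul_sum]
      refine Finset.sum_congr rfl fun i _ => ?_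
      rw [pd_ramp hE hδ hxU hp]
      ring
    have h2 : chi (E x / δ) * (Qw w x * E x) ≤ chi (E x / δ) * ∑ i, pd i E x * pd i w x :=
      mul_le_mul_of_nonneg_left (hE.bdry x hx hx0 hp) (chi_nonneg _)
    have h3 := ramp_gap hδ hp.le
    have h4 := ramp_le_mul hδ hp.le
    have h5 : -(2 * δ * |Qw w x|) ≤ (E x * chi (E x / δ) - ramp δ (E x)) * Qw w x := by
      have h6 : |(E x * chi (E x / δ) - ramp δ (E x)) * Qw w x| ≤ 2 * δ * |Qw w x| := by
        rw [abs_mul, abs_of_nonneg (by linarith)]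
        exact mul_le_mul_of_nonneg_right h3 (abs_nonneg _)
      exact (abs_le.1 h6).1
    rw [h1]
    linarith
  · have h1 := ramp_ev_zero h hE hδ hxU (not_lt.1 hp)
    have h2 : ∑ i, pd i (fun y => ramp δ (E y)) x * pd i w x = 0 := by
      refine Finset.sum_eq_zero fun i _ => ?_
      rw [pd_congr h1, pd_const, zero_mul]
    have h0 : ramp δ (E x) = 0 := h1.self_of_nhds
    rw [h2, h0]
    have := abs_nonneg (Qw w x)
    have h3 : 0 ≤ 2 * δ * |Qw w x| := by positivity
    linarith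

end Cert

end

end Vale.Agent.P098
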