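import Mathlib

/-!
# P098: smooth one-homogeneous solutions of the one-phase problem, basic definitions

Everything is written with the directional derivatives `pd i f` along the standard basis of
`ℝ^d = EuclideanSpace ℝ (Fin d)`.
-/

open MeasureTheory Set Filter Topology
open scoped ContDiff

namespace Vale.Agent.P098

/-- the space `ℝ^d` -/
abbrev Ed (d : ℕ) : Type := EuclideanSpace ℝ (Fin d)

/-- derivative of `f` in the direction of the `i`-th basis vector -/
noncomputable def pd {d : ℕ} (i : Fin d) (f : Ed d → ℝ) (x : Ed d) : ℝ :=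
  fderiv ℝ f x (EuclideanSpace.single i 1)

/-- the Laplacian -/
noncomputable def lap {d : ℕ} (f : Ed d → ℝ) (x : Ed d) : ℝ := ∑ i, pd i (pd i f) x

/-- the positivity set -/
def Pos {d : ℕ} (u : Ed d → ℝ) : Set (Ed d) := {x | 0 < u x}

/-- A one-homogeneous classical solution `u` of the one-phase problem whose free boundary is
smooth away from the origin: `u ≥ 0` is continuous and one-homogeneous; on the positivity set
`u` coincides with `w`, a smooth function on an open set `U` which contains the closure of the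
positivity set minus the origin; `w` is harmonic in the positivity set and has gradient of
length one on the free boundary minus the origin. -/
structure SmoothCone {d : ℕ} (u w : Ed d → ℝ) (U : Set (Ed d)) : Prop where
  hom : ∀ r : ℝ, 0 < r → ∀ x, u (r • x) = r * u x
  cont : Continuous u
  nonneg : ∀ x, 0 ≤ u x
  isOpen : IsOpen U
  sub : closure (Pos u) \ {0} ⊆ U
  smooth : ContDiffOn ℝ ∞ w U
  eq : ∀ x ∈ Pos u, w x = u x
  harm : ∀ x ∈ Pos u, lap w x = 0
  grad : ∀ x ∈ frontier (Pos u), x ≠ 0 → ∑ i, pd i w x ^ 2 = 1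

/-- Stability (second variation of the energy) in volume form, for nonnegative smooth test
functions supported away from the origin.  By the divergence theorem the
right hand side minus the left hand side is `∫_{u>0} |∇φ|² - ∫_{∂{u>0}} H φ²`, with
`H = -D²u(∇u,∇u)` the mean curvature of the free boundary. -/
def Stab {d : ℕ} (u w : Ed d → ℝ) : Prop :=
  ∀ φ : Ed d → ℝ, ContDiff ℝ ∞ φ → (∀ x, 0 ≤ φ x) → HasCompactSupport φ →
    (0 : Ed d) ∉ tsupport φ →
    ∫ x in Pos u, (φ x ^ 2 * (∑ i, ∑ j, pd i (pd j w) x ^ 2) +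
        2 * φ x * ∑ i, ∑ j, pd i φ x * pd i (pd j w) x * pd j w x) ≤
      ∫ x in Pos u, ∑ i, pd i φ x ^ 2

section calculus

variable {d : ℕ} {f g : Ed d → ℝ} {x : Ed d} {i : Fin d}

theorem pd_congr (h : f =ᶠ[𝓝 x] g) : pd i f x = pd i g x := by
  unfold pd
  rw [h.fderiv_eq]

theorem pd_congr_nhds (h : f =ᶠ[𝓝 x] g) : pd i f =ᶠ[𝓝 x] pd i g := by
  have h1 := h.fderiv (𝕜 := ℝ)
  filter_upwards [h1] with y hy
  unfold pd
  rw [hy]

theorem pd_const (c : ℝ) : pd i (fun _ : Ed d => c) x = 0 := by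
  unfold pd
  simp

theorem pd_add (hf : DifferentiableAt ℝ f x) (hg : DifferentiableAt ℝ g x) :
    pd i (fun y => f y + g y) x = pd i f x + pd i g x := by
  unfold pd
  rw [fderiv_fun_add hf hg]
  rfl

theorem pd_sub (hf : DifferentiableAt ℝ f x) (hg : DifferentiableAt ℝ g x) :
    pd i (fun y => f y - g y) x = pd i f x - pd i g x := by
  unfold pd
  rw [fderiv_fun_sub hf hg]
  rfl

theorem pd_neg : pd i (fun y => - f y) x = - pd i f x := by
  unfold pd
  rw [fderiv_fun_neg]
  rfl

theorem pd_mul (hf : DifferentiableAt ℝ f x) (hg : DifferentiableAt ℝ g x) :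
    pd i (fun y => f y * g y) x = pd i f x * g x + f x * pd i g x := by
  unfold pd
  rw [fderiv_fun_mul hf hg]
  simp only [_root_.add_apply, _root_.smul_apply, smul_eq_mul]
  ring

theorem pd_const_mul (c : ℝ) (hf : DifferentiableAt ℝ f x) :
    pd i (fun y => c * f y) x = c * pd i f x := by
  rw [pd_mul (differentiableAt_const c) hf, pd_const]
  ring

theorem pd_sq (hf : DifferentiableAt ℝ f x) :
    pd i (fun y => f y ^ 2) x = 2 * f x * pd i f x := by
  have e : (fun y => f y ^ 2) = fun y => f y * f y := by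
    funext y
    ring
  rw [e, pd_mul hf hf]
  ring

theorem pd_sum {ι : Type} (s : Finset ι) (F : ι → Ed d → ℝ)
    (hF : ∀ k ∈ s, DifferentiableAt ℝ (F k) x) :
    pd i (fun y => ∑ k ∈ s, F k y) x = ∑ k ∈ s, pd i (F k) x := by
  unfold pd
  rw [fderiv_fun_sum hF]
  simp

/-- chain rule for a function of one variable -/
theorem pd_comp (h : ℝ → ℝ) (hh : DifferentiableAt ℝ h (f x)) (hf : DifferentiableAt ℝ f x) :
    pd i (fun y => h (f y)) x = deriv h (f x) * pd i f x := by
  unfold pd
  have e : (fun y => h (f y)) = h ∘ f := rfl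
  rw [e, fderiv_comp x hh hf]
  simp [mul_comm]

theorem contDiffOn_pd {n m : ℕ∞ω} {V : Set (Ed d)} (hV : IsOpen V) (hf : ContDiffOn ℝ n f V)
    (hm : m + 1 ≤ n) : ContDiffOn ℝ m (pd i f) V := by
  have h1 : ContDiffOn ℝ m (fderiv ℝ f) V := hf.fderiv_of_isOpen hV hm
  exact h1.clm_apply contDiffOn_const

theorem contDiffAt_pd {n m : ℕ∞ω} (hf : ContDiffAt ℝ n f x)
    (hm : m + 1 ≤ n) : ContDiffAt ℝ m (pd i f) x := by
  have h1 : ContDiffAt ℝ m (fderiv ℝ f) x := hf.fderiv_right hm
  exact h1.clm_apply contDiffAt_const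

theorem contDiff_pd {n m : ℕ∞ω} (hf : ContDiff ℝ n f)
    (hm : m + 1 ≤ n) : ContDiff ℝ m (pd i f) := by
  have h1 : ContDiff ℝ m (fderiv ℝ f) := hf.fderiv_right hm
  exact h1.clm_apply contDiff_const

theorem hasCompactSupport_pd (hf : HasCompactSupport f) : HasCompactSupport (pd i f) :=
  hf.fderiv_apply (𝕜 := ℝ) (EuclideanSpace.single i 1)

theorem pd_eq_zero_of_notMem_tsupport (hx : x ∉ tsupport f) : pd i f x = 0 := by
  have h : f =ᶠ[𝓝 x] fun _ => 0 := notMem_tsupport_iff_eventuallyEq.1 hx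
  rw [pd_congr h, pd_const]

/-- the integral of a derivative of a compactly supported function vanishes -/
theorem integral_pd (hf : ContDiff ℝ 1 f) (hs : HasCompactSupport f) :
    ∫ x, pd i f x = 0 := by
  have hc : Continuous (pd i f) := (contDiff_pd (m := 0) hf le_rfl).continuous
  have h1 : Integrable (pd i f) volume :=
    hc.integrable_of_hasCompactSupport (hasCompactSupport_pd hs)
  have h := integral_mul_fderiv_eq_neg_fderiv_mul_of_integrable (𝕜 := ℝ) (μ := volume)
    (f := fun _ : Ed d => (1 : ℝ)) (g := f) (v := EuclideanSpace.single i 1)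
    (by simp) (by simp only [one_mul]; exact h1)
    (by simpa using hf.continuous.integrable_of_hasCompactSupport hs)
    (fun _ _ => differentiableAt_const _) (fun y _ => hf.differentiable (by simp) y)
  simpa [pd] using h

end calculus

namespace SmoothCone

variable {d : ℕ} {u w : Ed d → ℝ} {U : Set (Ed d)}

theorem isOpen_pos (h : SmoothCone u w U) : IsOpen (Pos u) :=
  isOpen_lt continuous_const h.cont

theorem zero (h : SmoothCone u w U) : u 0 = 0 := by
  have h1 := h.hom 2 (by norm_num) 0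
  rw [smul_zero] at h1
  linarith

theorem ne_zero (h : SmoothCone u w U) {x : Ed d} (hx : x ∈ Pos u) : x ≠ 0 := by
  rintro rfl
  have h1 : 0 < u 0 := hx
  rw [h.zero] at h1
  exact lt_irrefl _ h1

theorem pos_sub (h : SmoothCone u w U) : Pos u ⊆ U :=
  fun _ hx => h.sub ⟨subset_closure hx, h.ne_zero hx⟩

theorem frontier_sub (h : SmoothCone u w U) {x : Ed d} (hx : x ∈ frontier (Pos u)) (hx0 : x ≠ 0) :
    x ∈ U := h.sub ⟨frontier_subset_closure hx, hx0⟩

theorem eq_zero_of_notMem (h : SmoothCone u w U) {x : Ed d} (hx : x ∉ Pos u) : u x = 0 :=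
  le_antisymm (not_lt.1 hx) (h.nonneg x)

theorem frontier_zero (h : SmoothCone u w U) {x : Ed d} (hx : x ∈ frontier (Pos u)) :
    u x = 0 := by
  apply h.eq_zero_of_notMem
  rw [h.isOpen_pos.frontier_eq] at hx
  exact hx.2

theorem mem_frontier_of_closure (h : SmoothCone u w U) {x : Ed d} (hx : x ∈ closure (Pos u))
    (hx' : x ∉ Pos u) : x ∈ frontier (Pos u) := by
  rw [h.isOpen_pos.frontier_eq]
  exact ⟨hx, hx'⟩

theorem smoothAt (h : SmoothCone u w U) {x : Ed d} (hx : x ∈ U) : ContDiffAt ℝ ∞ w x :=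
  h.smooth.contDiffAt (h.isOpen.mem_nhds hx)

theorem smoothAt_of_closure (h : SmoothCone u w U) {x : Ed d} (hx : x ∈ closure (Pos u))
    (hx0 : x ≠ 0) : ContDiffAt ℝ ∞ w x := h.smoothAt (h.sub ⟨hx, hx0⟩)

theorem eventually_eq (h : SmoothCone u w U) {x : Ed d} (hx : x ∈ Pos u) : w =ᶠ[𝓝 x] u := by
  filter_upwards [h.isOpen_pos.mem_nhds hx] with y hy
  exact h.eq y hy

theorem eq_closure (h : SmoothCone u w U) {x : Ed d} (hx : x ∈ closure (Pos u)) (hx0 : x ≠ 0) :
    w x = u x := by
  have h1 : ContinuousAt w x := (h.smoothAt_of_closure hx hx0).continuousAt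
  have : (𝓝[Pos u] x).NeBot := mem_closure_iff_nhdsWithin_neBot.1 hx
  have h2 : Tendsto w (𝓝[Pos u] x) (𝓝 (w x)) := h1.tendsto.mono_left nhdsWithin_le_nhds
  have h3 : Tendsto u (𝓝[Pos u] x) (𝓝 (u x)) :=
    h.cont.continuousAt.tendsto.mono_left nhdsWithin_le_nhds
  have h4 : w =ᶠ[𝓝[Pos u] x] u := by
    filter_upwards [self_mem_nhdsWithin] with y hy
    exact h.eq y hy
  exact tendsto_nhds_unique (h2.congr' h4) h3

theorem contDiffOn_pdw (h : SmoothCone u w U) (i : Fin d) : ContDiffOn ℝ ∞ (pd i w) U :=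
  contDiffOn_pd h.isOpen h.smooth (by simp)

theorem contDiffOn_pdpdw (h : SmoothCone u w U) (i j : Fin d) :
    ContDiffOn ℝ ∞ (pd i (pd j w)) U :=
  contDiffOn_pd h.isOpen (h.contDiffOn_pdw j) (by simp)

/-- invariance of the positivity set under dilations -/
theorem smul_mem (h : SmoothCone u w U) {x : Ed d} (hx : x ∈ Pos u) {r : ℝ} (hr : 0 < r) :
    r • x ∈ Pos u := by
  have h1 : 0 < u x := hx
  change 0 < u (r • x)
  rw [h.hom r hr]
  positivity

end SmoothCone

end Vale.Agent.P098
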