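import Vale.Agent.Lib.P098.Var.FldX
import Vale.Agent.Lib.P098.Var.HomE

/-!
# P098: boundary inequality of a certificate
-/

open MeasureTheory Set Filter Topology
open scoped ContDiff

namespace Vale.Agent.P098

section

variable {d : ℕ} {u w : Ed d → ℝ} {U : Set (Ed d)} {C : CS} {α γ a κ : ℝ}

/-- scaling of the products with `p` on the boundary -/
theorem jp_scale {A : Fin d → Fin d → ℝ} {Q r : ℝ} (m : Fin 9) :
    jp (fun i j => r * A i j) (r * Q) m = r ^ (-deg9 m) * jp A Q m := by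
  have z3 : r ^ (3 : ℤ) = r ^ 3 := by norm_cast
  have z2 : r ^ (2 : ℤ) = r ^ 2 := by norm_cast
  have z4 : r ^ (4 : ℤ) = r ^ 4 := by norm_cast
  have z5 : r ^ (5 : ℤ) = r ^ 5 := by norm_cast
  fin_cases m
  · change 2 * (r * Q) * jN (fun i j => r * A i j) - jC3 (fun i j => r * A i j) =
      r ^ (- -3 : ℤ) * (2 * Q * jN A - jC3 A)
    rw [jN_s, jC3_s, neg_neg, z3]
    ring
  · change (1 : ℝ) = r ^ (-0 : ℤ) * 1
    simp
  · change r * Q = r ^ (- -1 : ℤ) * Q
    simp
  · change (r * Q) ^ 2 = r ^ (- -2 : ℤ) * Q ^ 2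
    rw [neg_neg, z2]
    ring
  · change (r * Q) ^ 3 = r ^ (- -3 : ℤ) * Q ^ 3
    rw [neg_neg, z3]
    ring
  · change (r * Q) * jC3 (fun i j => r * A i j) - jc4 (fun i j => r * A i j) +
      jN (fun i j => r * A i j) * (r * Q) ^ 2 =
      r ^ (- -4 : ℤ) * (Q * jC3 A - jc4 A + jN A * Q ^ 2)
    rw [jN_s, jC3_s, jc4_s, neg_neg, z4]
    ring
  · change (r * Q) * jc4 (fun i j => r * A i j) - jc5 (fun i j => r * A i j) +
      jN (fun i j => r * A i j) * (r * Q) ^ 3 =
      r ^ (- -5 : ℤ) * (Q * jc4 A - jc5 A + jN A * Q ^ 3)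
    rw [jN_s, jc4_s, jc5_s, neg_neg, z5]
    ring
  · change jN (fun i j => r * A i j) = r ^ (- -2 : ℤ) * jN A
    rw [jN_s, neg_neg, z2]
  · change (r * Q) * jN (fun i j => r * A i j) = r ^ (- -3 : ℤ) * (Q * jN A)
    rw [jN_s, neg_neg, z3]
    ring

/-- **Boundary inequality.** -/
theorem bd_all (hd : 2 ≤ d) (h : SmoothCone u w U) (hc : Certi d α γ a κ C) {x : Ed d}
    (hx : x ∈ frontier (Pos u)) (hx0 : x ≠ 0) (hN : 0 < N2 w x) :
    Qw w x * C.E α w x ≤ ∑ i, C.Z α w i x * pd i w x := by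
  have hxU := h.frontier_sub hx hx0
  have hcl : x ∈ closure (Pos u) := frontier_subset_closure hx
  have hρ := rho_pos' hx0
  set r := Real.sqrt (rho x) with hr
  have hr0 : 0 < r := Real.sqrt_pos.2 hρ
  have hρr : rho x = r ^ 2 := (Real.sq_sqrt hρ.le).symm
  set Q := Qw w x with hQ
  have hA := h.symAj hxU
  have hAp : ∀ i, mv (Aj w x) (pj w x) i = Q * pj w x i := fun i => h.fb1 hx hx0 i
  have hp1 : ∑ i, pj w x i ^ 2 = 1 := h.grad x hx hx0
  have hxp : ∑ i, x i * pj w x i = 0 := by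
    have h1 := h.euler0 hcl hx0
    rw [h.w_zero hx hx0] at h1
    exact h1
  obtain ⟨o, ho, hT⟩ := h.fb2 hx hx0
  have hT2 := h.symTj2 hxU
  have hT1 := h.symTj1 hxU
  have hTp : ∀ j k, ∑ i, Tj w x i j k * pj w x i =
      -mm (Aj w x) j k + Q * Aj w x j k + o j * pj w x k + pj w x j * o k +
        jN (Aj w x) * (pj w x j * pj w x k) := by
    intro j k
    refine Eq.trans (Finset.sum_congr rfl fun i _ => ?_) (hT j k)
    change Tj w x i j k * pj w x i = Tj w x j k i * pj w x i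
    rw [hT1 i j k, hT2 j i k]
  have hdp := fun m => dotp (A := Aj w x) (T := Tj w x) (p := pj w x) hA hAp hp1 ho hTp m
  -- the rescaled jet
  have hAx : ∀ j, ∑ i, x i * Aj w x i j = 0 := by
    intro j
    have h1 := h.euler1 hcl hx0 j
    refine Eq.trans (Finset.sum_congr rfl fun i _ => ?_) h1
    change x i * pd i (pd j w) x = x i * pd j (pd i w) x
    rw [h.symm2 hxU i j]
  have hB : BJet (fun i => r⁻¹ * x i) (pj w x) (fun i j => r * Aj w x i j) (r * Q) := by
    refine ⟨?_, ?_, ?_, ?_, ?_, hp1, ?_, ?_⟩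
    · have e : ∀ i, (r⁻¹ * x i) ^ 2 = (r ^ 2)⁻¹ * x i ^ 2 := fun i => by
        rw [mul_pow, inv_pow]
      rw [Finset.sum_congr rfl fun i _ => e i, ← Finset.mul_sum, ← hρr]
      exact inv_mul_cancel₀ hρ.ne'
    · intro i j
      rw [hA i j]
    · rw [← Finset.mul_sum]
      have h1 : ∑ i, Aj w x i i = 0 := h.tr2 hcl hx0
      rw [h1, mul_zero]
    · intro j
      have e : ∀ i, r⁻¹ * x i * (r * Aj w x i j) = x i * Aj w x i j := fun i => by
        field_simp
      rw [Finset.sum_congr rfl fun i _ => e i, hAx j]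
    · have e : ∀ i, r⁻¹ * x i * pj w x i = r⁻¹ * (x i * pj w x i) := fun i => by ring
      rw [Finset.sum_congr rfl fun i _ => e i, ← Finset.mul_sum, hxp, mul_zero]
    · intro i
      rw [mv_s, hAp i]
      ring
    · have h1 := h.Q_nonpos hd hx hx0
      exact mul_nonpos_of_nonneg_of_nonpos hr0.le h1
  have hNr : 0 < jN (fun i j => r * Aj w x i j) := by
    rw [jN_s]
    have : 0 < jN (Aj w x) := hN
    positivity
  have hV : Vh w x = ![0, 1, jN (fun i j => r * Aj w x i j), jC3 (fun i j => r * Aj w x i j),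
      jc4 (fun i j => r * Aj w x i j), r * Q, (r * Q) ^ 2] := by
    rw [Vh_eq w hx0]
    have e0 : dot (fun i => r⁻¹ * xj x i) (pj w x) = 0 := by
      rw [dot_s1]
      have : dot (xj x) (pj w x) = 0 := hxp
      rw [this, mul_zero]
    have e1 : dot (pj w x) (pj w x) = 1 := by
      rw [dot_pp]
      exact hp1
    have e2 : mv (fun i j => r * Aj w x i j) (pj w x) = fun i => (r * Q) * pj w x i := by
      funext i
      rw [mv_s, hAp i]
      ring
    have e5 : dot (pj w x) (mv (fun i j => r * Aj w x i j) (pj w x)) = r * Q := by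
      rw [e2, dot_s2, e1, mul_one]
    have e6 : dot (mv (fun i j => r * Aj w x i j) (pj w x))
        (mv (fun i j => r * Aj w x i j) (pj w x)) = (r * Q) ^ 2 := by
      rw [e2, dot_s, e1]
      ring
    unfold jV
    rw [e0, e1, e5, e6]
  have key := hc.bdry _ _ _ _ hB hNr (Vh w x) hV
  -- the right hand side
  have e1 : ∑ i, C.Z α w i x * pd i w x =
      ∑ m, C.cm α m w x * jp (Aj w x) Q m := by
    have e2 : ∀ i, C.Z α w i x * pd i w x =
        ∑ m, C.cm α m w x * (F9 w m i x * pj w x i) + C.cX α w x * (x i * pj w x i) := by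
      intro i
      unfold CS.Z
      rw [add_mul, Finset.sum_mul]
      change ∑ m, C.cm α m w x * F9 w m i x * pj w x i + C.cX α w x * x i * pj w x i = _
      rw [mul_assoc (C.cX α w x)]
      congr 1
      exact Finset.sum_congr rfl fun m _ => by ring
    rw [Finset.sum_congr rfl fun i _ => e2 i, Finset.sum_add_distrib, ← Finset.mul_sum, hxp,
      mul_zero, add_zero, Finset.sum_comm]
    refine Finset.sum_congr rfl fun m _ => ?_
    rw [← Finset.mul_sum]
    congr 1
    exact hdp m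
  have hpow : ∀ y : ℝ, rho x ^ y = r ^ (2 * y) := by
    intro y
    rw [hρr, ← Real.rpow_natCast r 2, ← Real.rpow_mul hr0.le]
    norm_cast
  have e3 : ∀ m, C.cm α m w x * jp (Aj w x) Q m = r ^ (-1 - 2 * α) *
      ((C.c m).f (Vh w x) * jp (fun i j => r * Aj w x i j) (r * Q) m) := by
    intro m
    unfold CS.cm
    rw [jp_scale, hpow, ← Real.rpow_intCast r (-deg9 m)]
    have e4 : 2 * ((-1 - 2 * α - (deg9 m : ℝ)) / 2) = (-1 - 2 * α) + ((-deg9 m : ℤ) : ℝ) := by
      push_cast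
      ring
    rw [e4, Real.rpow_add hr0]
    ring
  have e5 : Q * C.E α w x = r ^ (-1 - 2 * α) * (r * Q * C.φ.f (Vh w x)) := by
    unfold CS.E
    rw [hpow]
    have e6 : 2 * -α = (-1 - 2 * α) + 1 := by ring
    rw [e6, Real.rpow_add hr0, Real.rpow_one]
    ring
  rw [e1, Finset.sum_congr rfl fun m _ => e3 m, ← Finset.mul_sum, e5]
  refine mul_le_mul_of_nonneg_left (key.trans (le_of_eq ?_)) (Real.rpow_nonneg hr0.le _)
  simp only [Fin.sum_univ_succ, Fin.sum_univ_zero]
  simp only [jp]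
  simp
  ring

end

end Vale.Agent.P098
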