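import Vale.Agent.Lib.P098.Var.Scale

/-!
# P098: bounds of `|∇E|²` and `|Z|²` on the unit sphere
-/

open MeasureTheory Set Filter Topology
open scoped ContDiff

namespace Vale.Agent.P098

section

variable {d : ℕ}

/-- twice the exponents -/
def nD : Fin 7 → ℕ := ![0, 1, 2, 3, 4, 1, 2]

/-- twice the exponents -/
def nF : Fin 9 → ℕ := ![2, 0, 1, 2, 3, 3, 4, 1, 2]

theorem nD_eq (b : Fin 7) : 2 * eD b = nD b := by
  fin_cases b <;> simp [eD, nD] <;> norm_num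

theorem nF_eq (m : Fin 9) : 2 * eF m = nF m := by
  fin_cases m <;> simp [eF, nF] <;> norm_num

theorem rp_sq {N a e : ℝ} {n : ℕ} (hN : 0 < N) (he : 2 * e = n) :
    (N ^ (a - e)) ^ 2 * N ^ n = (N ^ a) ^ 2 := by
  rw [← Real.rpow_natCast (N ^ (a - e)) 2, ← Real.rpow_natCast (N ^ a) 2, ← Real.rpow_mul hN.le,
    ← Real.rpow_mul hN.le, ← Real.rpow_natCast N n, ← Real.rpow_add hN]
  congr 1
  push_cast
  linarith

theorem sq_bd {y c N a e : ℝ} {n : ℕ} (hN : 0 < N) (he : 2 * e = n)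
    (h : |y| ≤ c * N ^ (a - e)) : y ^ 2 * N ^ n ≤ c ^ 2 * (N ^ a) ^ 2 := by
  have h1 : y ^ 2 ≤ (c * N ^ (a - e)) ^ 2 := by
    rw [← sq_abs y]
    exact pow_le_pow_left₀ (abs_nonneg y) h 2
  calc y ^ 2 * N ^ n ≤ (c * N ^ (a - e)) ^ 2 * N ^ n :=
        mul_le_mul_of_nonneg_right h1 (by positivity)
    _ = c ^ 2 * ((N ^ (a - e)) ^ 2 * N ^ n) := by ring
    _ = _ := by rw [rp_sq hN he]

variable {x p : Fin d → ℝ} {A : Fin d → Fin d → ℝ} {T : Fin d → Fin d → Fin d → ℝ} {R : ℝ}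

theorem jF_bd (hR : 1 ≤ R) (hs : ∑ i, p i ^ 2 ≤ R) (hN : 0 < jN A)
    (m : Fin 9) : ∑ i, jF p A T m i ^ 2 ≤ R ^ 2 * (jN A ^ nF m * (1 + jT T / jN A)) := by
  obtain ⟨h0, h1, h2, h3, h4, h5, h6, h7, h8⟩ := jF_sq_le p A T
  have hT := jT_nonneg (T := T)
  have hp := pp_nonneg p
  set N := jN A with hNdef
  set t := jT T with ht
  set s := ∑ i, p i ^ 2 with hsdef
  have hs2 : s ^ 2 ≤ R ^ 2 := pow_le_pow_left₀ hp hs 2
  have hRR : R ≤ R ^ 2 := by nlinarith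
  have hR0 : 0 ≤ R := by linarith
  have hsR2 : s ≤ R ^ 2 := hs.trans hRR
  have h1R2 : 1 ≤ R ^ 2 := by nlinarith
  have key : ∀ n : ℕ, N ^ (n + 1) * (1 + t / N) = N ^ (n + 1) + N ^ n * t := by
    intro n
    rw [pow_succ]
    field_simp
  have htN : 0 ≤ t / N := by positivity
  have A1 : ∀ n : ℕ, N ^ n * t ≤ R ^ 2 * (N ^ (n + 1) * (1 + t / N)) := by
    intro n
    rw [key]
    have e1 : N ^ n * t ≤ R ^ 2 * (N ^ n * t) := le_mul_of_one_le_left (by positivity) h1R2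
    have e3 : 0 ≤ R ^ 2 * N ^ (n + 1) := by positivity
    nlinarith
  have A2 : ∀ n : ℕ, N ^ n * s ≤ R ^ 2 * (N ^ n * (1 + t / N)) := by
    intro n
    have e1 : N ^ n * s ≤ N ^ n * R ^ 2 := mul_le_mul_of_nonneg_left hsR2 (by positivity)
    have e3 : 0 ≤ R ^ 2 * (N ^ n * (t / N)) := by positivity
    nlinarith
  fin_cases m
  · have := A1 1
    rw [pow_one] at this
    exact h0.trans this
  · have := A2 0
    rw [pow_zero, one_mul] at this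
    refine h1.trans (this.trans (le_of_eq ?_))
    simp [nF]
  · have := A2 1
    rw [pow_one] at this
    refine h2.trans (this.trans (le_of_eq ?_))
    simp [nF]
  · exact h3.trans (A2 2)
  · exact h4.trans (A2 3)
  · exact h5.trans (A1 2)
  · exact h6.trans (A1 3)
  · refine h7.trans ?_
    change s ^ 2 * t ≤ R ^ 2 * (N ^ 1 * (1 + t / N))
    rw [key 0, pow_zero, one_mul]
    have e1 : s ^ 2 * t ≤ R ^ 2 * t := mul_le_mul_of_nonneg_right hs2 hT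
    have e4 : 0 ≤ R ^ 2 * N ^ (0 + 1) := by positivity
    nlinarith
  · refine h8.trans ?_
    change N * s ^ 2 * t ≤ R ^ 2 * (N ^ 2 * (1 + t / N))
    rw [key 1, pow_one]
    have e1 : N * s ^ 2 * t ≤ N * R ^ 2 * t :=
      mul_le_mul_of_nonneg_right (mul_le_mul_of_nonneg_left hs2 hN.le) hT
    have e4 : 0 ≤ R ^ 2 * N ^ (1 + 1) := by positivity
    nlinarith

theorem jG_bd (hR : 1 ≤ R) (hs : ∑ i, p i ^ 2 ≤ R) (hN : 0 < jN A) (hNR : jN A ≤ R)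
    (b : Fin 7) : ∑ i, jG p A T b i ^ 2 ≤ 16 * R ^ 3 * (jN A ^ nD b * (1 + jT T / jN A)) := by
  have hF := jF_bd (T := T) hR hs hN
  have hT := jT_nonneg (T := T)
  set N := jN A with hNdef
  set t := jT T with ht
  have hR0 : 0 ≤ R := by linarith
  have htN : 0 ≤ t / N := by positivity
  obtain ⟨y, hy⟩ : ∃ y : ℝ, y = 1 + t / N := ⟨_, rfl⟩
  have hy0 : 0 ≤ y := by rw [hy]; positivity
  rw [← hy] at hF ⊢
  have h23 : R ^ 2 ≤ R ^ 3 := by
    rw [pow_succ R 2]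
    exact le_mul_of_one_le_right (by positivity) hR
  have hcs : ∀ (c : ℝ) (m : Fin 9), c ^ 2 ≤ 16 → ∑ i, (c * jF p A T m i) ^ 2 ≤
      16 * R ^ 3 * (N ^ nF m * y) := by
    intro c m hc
    have e : ∑ i, (c * jF p A T m i) ^ 2 = c ^ 2 * ∑ i, jF p A T m i ^ 2 := by
      rw [Finset.mul_sum]
      exact Finset.sum_congr rfl fun i _ => by ring
    rw [e]
    have h1 : R ^ 2 * (N ^ nF m * y) ≤ R ^ 3 * (N ^ nF m * y) :=
      mul_le_mul_of_nonneg_right h23 (by positivity)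
    calc c ^ 2 * ∑ i, jF p A T m i ^ 2 ≤ 16 * (R ^ 3 * (N ^ nF m * y)) :=
          mul_le_mul hc ((hF m).trans h1) (pp_nonneg _) (by norm_num)
      _ = _ := by ring
  have two : ∀ (f g : Fin d → ℝ) (c e : ℝ), ∑ i, (c * f i + e * g i) ^ 2 ≤
      2 * c ^ 2 * ∑ i, f i ^ 2 + 2 * e ^ 2 * ∑ i, g i ^ 2 := by
    intro f g c e
    rw [Finset.mul_sum, Finset.mul_sum, ← Finset.sum_add_distrib]
    refine Finset.sum_le_sum fun i _ => ?_
    nlinarith [sq_nonneg (c * f i - e * g i)]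
  fin_cases b
  · have := hcs 1 1 (by norm_num)
    simp only [one_mul] at this
    exact this
  · exact hcs 2 2 (by norm_num)
  · exact hcs 2 0 (by norm_num)
  · exact hcs 3 5 (by norm_num)
  · exact hcs 4 6 (by norm_num)
  · change ∑ i, (jF p A T 7 i + 2 * jF p A T 3 i) ^ 2 ≤ 16 * R ^ 3 * (N ^ 1 * y)
    have h1 := two (jF p A T 7) (jF p A T 3) 1 2
    simp only [one_mul] at h1
    have h7 : ∑ i, jF p A T 7 i ^ 2 ≤ R ^ 2 * (N ^ 1 * y) := hF 7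
    have h3 : ∑ i, jF p A T 3 i ^ 2 ≤ R ^ 2 * (N ^ 2 * y) := hF 3
    have e1 : R ^ 2 * (N ^ 2 * y) ≤ R ^ 3 * (N ^ 1 * y) := by
      have : R ^ 2 * (N ^ 2 * y) = (R ^ 2 * (N * y)) * N := by ring
      rw [this]
      have e3 : R ^ 3 * (N ^ 1 * y) = (R ^ 2 * (N * y)) * R := by ring
      rw [e3]
      exact mul_le_mul_of_nonneg_left hNR (by positivity)
    have e2 : R ^ 2 * (N ^ 1 * y) ≤ R ^ 3 * (N ^ 1 * y) :=
      mul_le_mul_of_nonneg_right h23 (by positivity)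
    have e4 : 0 ≤ R ^ 3 * (N ^ 1 * y) := by positivity
    linarith
  · change ∑ i, (2 * jF p A T 8 i + 2 * jF p A T 4 i) ^ 2 ≤ 16 * R ^ 3 * (N ^ 2 * y)
    have h1 := two (jF p A T 8) (jF p A T 4) 2 2
    have h7 : ∑ i, jF p A T 8 i ^ 2 ≤ R ^ 2 * (N ^ 2 * y) := hF 8
    have h3 : ∑ i, jF p A T 4 i ^ 2 ≤ R ^ 2 * (N ^ 3 * y) := hF 4
    have e1 : R ^ 2 * (N ^ 3 * y) ≤ R ^ 3 * (N ^ 2 * y) := by
      have : R ^ 2 * (N ^ 3 * y) = (R ^ 2 * (N ^ 2 * y)) * N := by ring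
      rw [this]
      have e3 : R ^ 3 * (N ^ 2 * y) = (R ^ 2 * (N ^ 2 * y)) * R := by ring
      rw [e3]
      exact mul_le_mul_of_nonneg_left hNR (by positivity)
    have e2 : R ^ 2 * (N ^ 2 * y) ≤ R ^ 3 * (N ^ 2 * y) :=
      mul_le_mul_of_nonneg_right h23 (by positivity)
    have e4 : 0 ≤ R ^ 3 * (N ^ 2 * y) := by positivity
    linarith

/-- bounds of the scalars -/
theorem V_bd (hR : 1 ≤ R) (hu : |dot x p| ≤ R) (hs : ∑ i, p i ^ 2 ≤ R) (b : Fin 7)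
    (hb : b ≠ 1) : jV x p A b ^ 2 ≤ R ^ 2 * jN A ^ nD b := by
  have hN := jN_nonneg (A := A)
  have hp := pp_nonneg p
  have hR0 : 0 ≤ R := by linarith
  have h1R2 : 1 ≤ R ^ 2 := by nlinarith
  have hs2 : (∑ i, p i ^ 2) ^ 2 ≤ R ^ 2 := pow_le_pow_left₀ hp hs 2
  fin_cases b
  · change dot x p ^ 2 ≤ R ^ 2 * jN A ^ 0
    rw [pow_zero, mul_one, ← sq_abs]
    exact pow_le_pow_left₀ (abs_nonneg _) hu 2
  · simp at hb
  · change jN A ^ 2 ≤ R ^ 2 * jN A ^ 2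
    exact le_mul_of_one_le_left (by positivity) h1R2
  · change jC3 A ^ 2 ≤ R ^ 2 * jN A ^ 3
    exact (jC3_sq_le A).trans (le_mul_of_one_le_left (by positivity) h1R2)
  · change jc4 A ^ 2 ≤ R ^ 2 * jN A ^ 4
    have h1 := jc4_le A
    have h2 : 0 ≤ jc4 A := Finset.sum_nonneg fun _ _ => Finset.sum_nonneg fun _ _ => sq_nonneg _
    have h3 : jc4 A ^ 2 ≤ jN A ^ 4 := by
      calc jc4 A ^ 2 ≤ (jN A ^ 2) ^ 2 := pow_le_pow_left₀ h2 h1 2
        _ = _ := by ring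
    exact h3.trans (le_mul_of_one_le_left (by positivity) h1R2)
  · change dot p (mv A p) ^ 2 ≤ R ^ 2 * jN A ^ 1
    have h2 := dot_sq_le p (mv A p)
    have h3 := mv_sq_le A p
    calc _ ≤ (∑ i, p i ^ 2) * ∑ i, mv A p i ^ 2 := h2
      _ ≤ (∑ i, p i ^ 2) * (jN A * ∑ i, p i ^ 2) := mul_le_mul_of_nonneg_left h3 hp
      _ = (∑ i, p i ^ 2) ^ 2 * jN A := by ring
      _ ≤ R ^ 2 * jN A := mul_le_mul_of_nonneg_right hs2 hN
      _ = _ := by ring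
  · change dot (mv A p) (mv A p) ^ 2 ≤ R ^ 2 * jN A ^ 2
    rw [dot_pp]
    have h3 := mv_sq_le A p
    calc _ ≤ (jN A * ∑ i, p i ^ 2) ^ 2 := pow_le_pow_left₀ (pp_nonneg _) h3 2
      _ = (∑ i, p i ^ 2) ^ 2 * jN A ^ 2 := by ring
      _ ≤ R ^ 2 * jN A ^ 2 := mul_le_mul_of_nonneg_right hs2 (by positivity)

theorem dV_bd (hR : 1 ≤ R) (hu : |dot x p| ≤ R) (hs : ∑ i, p i ^ 2 ≤ R) (b : Fin 7) :
    ((del7 b : ℝ) * jV x p A b) ^ 2 ≤ 16 * R ^ 2 * jN A ^ nD b := by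
  have hN := jN_nonneg (A := A)
  by_cases hb : b = 1
  · rw [hb]
    have : ((del7 1 : ℤ) : ℝ) = 0 := by simp [del7]
    rw [this, zero_mul, zero_pow two_ne_zero]
    positivity
  · have h1 := V_bd (A := A) hR hu hs b hb
    have h2 : ((del7 b : ℤ) : ℝ) ^ 2 ≤ 16 := by
      fin_cases b <;> simp [del7] <;> norm_num
    rw [mul_pow]
    calc _ ≤ 16 * (R ^ 2 * jN A ^ nD b) := mul_le_mul h2 h1 (sq_nonneg _) (by norm_num)
      _ = _ := by ring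

end

end Vale.Agent.P098
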