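import Vale.Agent.Lib.P098.Var.UnitE

/-!
# P098: interior inequality of a certificate at all points
-/

open MeasureTheory Set Filter Topology
open scoped ContDiff

namespace Vale.Agent.P098

section

variable {d : ℕ} {u w : Ed d → ℝ} {U : Set (Ed d)} {C : CS} {α γ a κ : ℝ}

theorem W7_zero_of_N2 {x : Ed d} (hN : N2 w x = 0) (b : Fin 7) (hb : 2 ≤ b.1) :
    Vh w x b = 0 := by
  have hA : ∀ i j, Aj w x i j = 0 := fun i j => SmoothCone.hess_zero_of_N2 hN i j
  have hmm : ∀ i j, mm (Aj w x) i j = 0 := by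
    intro i j
    unfold mm
    exact Finset.sum_eq_zero fun k _ => by rw [hA, zero_mul]
  have hmv : ∀ i, mv (Aj w x) (pj w x) i = 0 := by
    intro i
    unfold mv
    exact Finset.sum_eq_zero fun k _ => by rw [hA, zero_mul]
  have h : W7 w x b = 0 := by
    fin_cases b
    · simp at hb
    · simp at hb
    · exact hN
    · change ∑ i, ∑ j, mm (Aj w x) i j * Aj w x i j = 0
      exact Finset.sum_eq_zero fun i _ => Finset.sum_eq_zero fun j _ => by rw [hA, mul_zero]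
    · change ∑ i, ∑ j, mm (Aj w x) i j ^ 2 = 0
      exact Finset.sum_eq_zero fun i _ => Finset.sum_eq_zero fun j _ => by
        rw [hmm]
        norm_num
    · change ∑ i, pj w x i * mv (Aj w x) (pj w x) i = 0
      exact Finset.sum_eq_zero fun i _ => by rw [hmv, mul_zero]
    · change ∑ i, mv (Aj w x) (pj w x) i * mv (Aj w x) (pj w x) i = 0
      exact Finset.sum_eq_zero fun i _ => by rw [hmv, mul_zero]
  unfold Vh
  rw [h, mul_zero]

theorem E_zero_of_N2 (hc : Certi d α γ a κ C) {x : Ed d} (hN : N2 w x = 0) :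
    C.E α w x = 0 := by
  unfold CS.E
  rw [hc.zero _ (W7_zero_of_N2 hN 2 (by decide)) (W7_zero_of_N2 hN 3 (by decide))
    (W7_zero_of_N2 hN 4 (by decide)) (W7_zero_of_N2 hN 5 (by decide))
    (W7_zero_of_N2 hN 6 (by decide)), mul_zero]

theorem N2_pos_of_E (hc : Certi d α γ a κ C) {x : Ed d} (hE : 0 < C.E α w x) : 0 < N2 w x := by
  rcases (N2_nonneg w x).lt_or_eq with h | h
  · exact h
  · rw [E_zero_of_N2 hc h.symm] at hE
    exact absurd hE (lt_irrefl _)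

theorem E_diff (h : SmoothCone u w U) {x : Ed d} (hx : x ∈ U) (hx0 : x ≠ 0)
    (hN : 0 < N2 w x) (hφ : C.φ.Good) (α : ℝ) : ContDiffAt ℝ ∞ (C.E α w) x :=
  h.cf_smooth hx hx0 hN hφ _

/-- the unit vector of `x` -/
noncomputable def un (x : Ed d) : Ed d := ‖x‖⁻¹ • x

theorem un_smul {x : Ed d} (hx : x ≠ 0) : ‖x‖ • un x = x := by
  unfold un
  rw [smul_smul, mul_inv_cancel₀ (norm_ne_zero_iff.2 hx), one_smul]

theorem rho_un {x : Ed d} (hx : x ≠ 0) : rho (un x) = 1 := by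
  unfold un
  have h := norm_pos_iff.2 hx
  rw [rho_smul, rho_norm]
  field_simp

theorem un_pos (h : SmoothCone u w U) {x : Ed d} (hx : x ∈ Pos u) : un x ∈ Pos u :=
  h.smul_pos hx (inv_pos.2 (norm_pos_iff.2 (h.ne_zero hx)))

theorem N2_un (h : SmoothCone u w U) {x : Ed d} (hx : x ∈ Pos u) :
    N2 w (un x) = ‖x‖ ^ 2 * N2 w x := by
  unfold un
  rw [h.homN2 hx (inv_pos.2 (norm_pos_iff.2 (h.ne_zero hx))), inv_pow, inv_inv]

/-- scaling of the gradient of `E` -/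
theorem pdE_scale (h : SmoothCone u w U) (hφ : C.φ.Good) {x : Ed d} (hx : x ∈ Pos u)
    (hN : 0 < N2 w x) {r : ℝ} (hr : 0 < r) (i : Fin d) :
    pd i (C.E α w) (r • x) = r ^ (-1 - 2 * α) * pd i (C.E α w) x := by
  have hx' := h.smul_pos hx hr
  have hN' : 0 < N2 w (r • x) := by
    rw [h.homN2 hx hr]
    positivity
  have h1 := pd_scale (c := r ^ (-(2 * α))) hr
    ((E_diff h (h.pos_sub hx') (h.ne_zero hx') hN' hφ α).differentiableAt (by simp))
    (by filter_upwards [h.isOpen_pos.mem_nhds hx] with y hy using h.homE C α hy hr)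
    ((E_diff h (h.pos_sub hx) (h.ne_zero hx) hN hφ α).differentiableAt (by simp)) i
  rw [h1]
  congr 1
  have : -1 - 2 * α = -(2 * α) - 1 := by ring
  rw [this, Real.rpow_sub_one hr.ne']

theorem pdZ_scale (h : SmoothCone u w U) (hφ : C.φ.Good) (hC : ∀ m, (C.c m).Good) {x : Ed d}
    (hx : x ∈ Pos u) (hN : 0 < N2 w x) {r : ℝ} (hr : 0 < r) (i : Fin d) :
    pd i (C.Z α w i) (r • x) = r ^ (-2 - 2 * α) * pd i (C.Z α w i) x := by
  have hx' := h.smul_pos hx hr
  have hN' : 0 < N2 w (r • x) := by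
    rw [h.homN2 hx hr]
    positivity
  have h1 := pd_scale (c := r ^ (-1 - 2 * α)) hr
    ((Z_smooth h (h.pos_sub hx') (h.ne_zero hx') hN' hφ hC α i).differentiableAt (by simp))
    (by filter_upwards [h.isOpen_pos.mem_nhds hx] with y hy using h.homZ C α hy hr i)
    ((Z_smooth h (h.pos_sub hx) (h.ne_zero hx) hN hφ hC α i).differentiableAt (by simp)) i
  rw [h1]
  congr 1
  have : -2 - 2 * α = (-1 - 2 * α) - 1 := by ring
  rw [this, Real.rpow_sub_one hr.ne']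

theorem int_unit (h : SmoothCone u w U) (hc : Certi d α γ a κ C) (hφ : C.φ.Good)
    (hC : ∀ m, (C.c m).Good)
    (hz : ∀ x ∈ Pos u, Sw w x + κ * (w x ^ 2 * N2 w x) ≤ 1) {x : Ed d} (hx : x ∈ Pos u)
    (hx1 : rho x = 1) (hN : 0 < N2 w x) :
    γ * C.E α w x ≤ ∑ i, pd i (C.Z α w i) x - (∑ i, pd i (C.E α w) x ^ 2) / (4 * C.E α w x) := by
  have hj := jet_unit h hx hx1
  have hu : dot (xj x) (pj w x) = w x := h.euler0_pos hx
  have hs : dot (pj w x) (pj w x) = Sw w x := dot_pp _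
  have h1 := hc.int (xj x) (pj w x) (Aj w x) (Tj w x) hj
    (by
      rw [hu, h.eq x hx]
      exact hx)
    (by
      rw [hu, hs]
      exact hz x hx) hN
  have hV : Vh w x = W7 w x := by
    funext a
    unfold Vh
    rw [hx1, Real.one_rpow, one_mul]
  have hE : C.E α w x = C.φ.f (jV (xj x) (pj w x) (Aj w x)) := by
    unfold CS.E
    rw [hx1, Real.one_rpow, one_mul, hV]
    rfl
  have hG : ∑ i, pd i (C.E α w) x ^ 2 = C.gr α (xj x) (pj w x) (Aj w x) (Tj w x) := by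
    unfold CS.gr
    exact Finset.sum_congr rfl fun i _ => by rw [gr_unit h hx hx1 hN hφ α i]
  rw [div_unit h hx hx1 hN hφ hC α, hG, hE]
  exact h1

/-- **Interior inequality.** -/
theorem int_all (h : SmoothCone u w U) (hc : Certi d α γ a κ C) (hφ : C.φ.Good)
    (hC : ∀ m, (C.c m).Good)
    (hz : ∀ x ∈ Pos u, Sw w x + κ * (w x ^ 2 * N2 w x) ≤ 1) {x : Ed d} (hx : x ∈ Pos u)
    (hN : 0 < N2 w x) :
    γ * C.E α w x / ‖x‖ ^ 2 ≤
      ∑ i, pd i (C.Z α w i) x - (∑ i, pd i (C.E α w) x ^ 2) / (4 * C.E α w x) := by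
  have hx0 := h.ne_zero hx
  have hr : 0 < ‖x‖ := norm_pos_iff.2 hx0
  have hy := un_pos h hx
  have hNy : 0 < N2 w (un x) := by
    rw [N2_un h hx]
    positivity
  have h1 := int_unit h hc hφ hC hz hy (rho_un hx0) hNy
  have e0 : x = ‖x‖ • un x := (un_smul hx0).symm
  have eE : C.E α w x = ‖x‖ ^ (-(2 * α)) * C.E α w (un x) := by
    conv_lhs => rw [e0]
    exact h.homE C α hy hr
  have eZ : ∑ i, pd i (C.Z α w i) x = ‖x‖ ^ (-2 - 2 * α) * ∑ i, pd i (C.Z α w i) (un x) := by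
    rw [Finset.mul_sum]
    refine Finset.sum_congr rfl fun i _ => ?_
    conv_lhs => rw [e0]
    exact pdZ_scale h hφ hC hy hNy hr i
  have eG : ∑ i, pd i (C.E α w) x ^ 2 =
      (‖x‖ ^ (-1 - 2 * α)) ^ 2 * ∑ i, pd i (C.E α w) (un x) ^ 2 := by
    rw [Finset.mul_sum]
    refine Finset.sum_congr rfl fun i _ => ?_
    conv_lhs => rw [e0]
    rw [pdE_scale h hφ hy hNy hr i]
    ring
  rw [eE, eZ, eG]
  have hk : 0 < ‖x‖ ^ (-(2 * α)) := Real.rpow_pos_of_pos hr _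
  have k1 : ‖x‖ ^ (-2 - 2 * α) = ‖x‖ ^ (-(2 * α)) / ‖x‖ ^ 2 := by
    have : -2 - 2 * α = -(2 * α) - 2 := by ring
    rw [this, Real.rpow_sub hr]
    congr 1
    norm_cast
  have k2 : ‖x‖ ^ (-1 - 2 * α) = ‖x‖ ^ (-(2 * α)) / ‖x‖ := by
    have : -1 - 2 * α = -(2 * α) - 1 := by ring
    rw [this, Real.rpow_sub_one hr.ne']
  rw [k1, k2]
  set K := ‖x‖ ^ (-(2 * α)) with hK
  set e := C.E α w (un x)
  set z := ∑ i, pd i (C.Z α w i) (un x)
  set g := ∑ i, pd i (C.E α w) (un x) ^ 2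
  have e1 : (K / ‖x‖) ^ 2 * g / (4 * (K * e)) = K / ‖x‖ ^ 2 * (g / (4 * e)) := by
    by_cases he : e = 0
    · rw [he]
      simp
    · field_simp
  have e2 : γ * (K * e) / ‖x‖ ^ 2 = K / ‖x‖ ^ 2 * (γ * e) := by ring
  rw [e1, e2, ← mul_sub]
  exact mul_le_mul_of_nonneg_left h1 (by positivity)

end

end Vale.Agent.P098
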