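import Vale.Agent.Lib.P098.Var.Base

/-!
# P098: one-sided divergence lemma on the positivity set

If `G` is a `C^1` vector field with compact support away from the origin and `G · ∇w ≥ 0` on the
free boundary, then `∫_{u>0} div G ≤ 0`.  No surface measure is used: the cutoff `χ(u/ε)` is
inserted and `ε → 0`.
-/

open MeasureTheory Set Filter Topology
open scoped ContDiff Manifold

namespace Vale.Agent.P098

/-- smooth cutoff functions -/
theorem exists_cutoff {d : ℕ} {K V : Set (Ed d)} (hK : IsCompact K) (hV : IsOpen V)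
    (hKV : K ⊆ V) :
    ∃ ρ : Ed d → ℝ, ContDiff ℝ ∞ ρ ∧ (∀ x, 0 ≤ ρ x) ∧ (∀ x, ρ x ≤ 1) ∧ HasCompactSupport ρ ∧
      tsupport ρ ⊆ V ∧ ∃ W : Set (Ed d), IsOpen W ∧ K ⊆ W ∧ ∀ x ∈ W, ρ x = 1 := by
  obtain ⟨L, hL, hKL, hLV⟩ := exists_compact_between hK hV hKV
  obtain ⟨f, hf1, hf2, hf3⟩ := exists_contMDiffMap_one_nhds_of_subset_interior (n := (⊤ : ℕ∞))
    𝓘(ℝ, Ed d) hK.isClosed hKL
  have hsup : Function.support (f : Ed d → ℝ) ⊆ L := by
    intro x hx
    by_contra hxL
    exact hx (hf2 x hxL)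
  have hts : tsupport (f : Ed d → ℝ) ⊆ L := closure_minimal hsup hL.isClosed
  obtain ⟨W, hW, hKW, hW1⟩ := eventually_nhdsSet_iff_exists.1 hf1
  refine ⟨f, f.contMDiff.contDiff, fun x => (hf3 x).1, fun x => (hf3 x).2,
    HasCompactSupport.of_support_subset_isCompact hL hsup, hts.trans hLV, W, hW, hKW, hW1⟩

/-- a cutoff function times a function which is smooth on an open set containing the support of
the cutoff is smooth -/
theorem contDiff_cutoff_mul {d : ℕ} {n : ℕ∞ω} {V : Set (Ed d)} (hV : IsOpen V)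
    {ρ g : Ed d → ℝ} (hρ : ContDiff ℝ n ρ) (hs : tsupport ρ ⊆ V) (hg : ContDiffOn ℝ n g V) :
    ContDiff ℝ n (fun x => ρ x * g x) := by
  rw [contDiff_iff_contDiffAt]
  intro x
  by_cases hx : x ∈ V
  · exact hρ.contDiffAt.mul (hg.contDiffAt (hV.mem_nhds hx))
  · have hx' : x ∉ tsupport ρ := fun h => hx (hs h)
    have h0 : ρ =ᶠ[𝓝 x] fun _ => 0 := notMem_tsupport_iff_eventuallyEq.1 hx'
    have h1 : (fun x => ρ x * g x) =ᶠ[𝓝 x] fun _ => 0 := by
      filter_upwards [h0] with y hy
      rw [hy]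
      simp
    exact contDiffAt_const.congr_of_eventuallyEq h1

/-- `χ(s) = 0` for `s ≤ 1` and `χ(s) = 1` for `s ≥ 2` -/
noncomputable def chi (s : ℝ) : ℝ := Real.smoothTransition (s - 1)

theorem chi_contDiff : ContDiff ℝ ∞ chi :=
  Real.smoothTransition.contDiff.comp (contDiff_id.sub contDiff_const)

theorem chi_nonneg (s : ℝ) : 0 ≤ chi s := Real.smoothTransition.nonneg _

theorem chi_le_one (s : ℝ) : chi s ≤ 1 := Real.smoothTransition.le_one _

theorem chi_zero {s : ℝ} (hs : s ≤ 1) : chi s = 0 :=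
  Real.smoothTransition.zero_of_nonpos (by linarith)

theorem chi_one {s : ℝ} (hs : 2 ≤ s) : chi s = 1 :=
  Real.smoothTransition.one_of_one_le (by linarith)

theorem chi_mono : Monotone chi := by
  intro a b hab
  exact Real.smoothTransition.monotone (by linarith)

theorem chi_deriv_nonneg (s : ℝ) : 0 ≤ deriv chi s := chi_mono.deriv_nonneg

theorem chi_deriv_zero {s : ℝ} (hs : 2 ≤ s) : deriv chi s = 0 := by
  rcases hs.lt_or_eq with h | h
  · have h1 : chi =ᶠ[𝓝 s] fun _ => 1 := by
      filter_upwards [lt_mem_nhds h] with y hy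
      exact chi_one hy.le
    rw [h1.deriv_eq]
    simp
  · have hmax : IsLocalMax chi s := by
      filter_upwards with y
      rw [chi_one hs]
      exact chi_le_one y
    exact hmax.deriv_eq_zero

/-- the cutoff `χ(u/ε)` -/
noncomputable def kut {d : ℕ} (u : Ed d → ℝ) (ε : ℝ) (x : Ed d) : ℝ := chi (u x / ε)

namespace SmoothCone

variable {d : ℕ} {u w : Ed d → ℝ} {U : Set (Ed d)}

theorem kut_eventually_zero (h : SmoothCone u w U) {ε : ℝ} (hε : 0 < ε) {x : Ed d}
    (hx : x ∉ Pos u) : kut u ε =ᶠ[𝓝 x] fun _ => 0 := by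
  have h0 : u x < ε := by
    rw [h.eq_zero_of_notMem hx]
    exact hε
  filter_upwards [h.cont.continuousAt.eventually (gt_mem_nhds h0)] with y hy
  unfold kut
  exact chi_zero ((div_le_one hε).2 hy.le)

theorem kut_contDiff (h : SmoothCone u w U) {ε : ℝ} (hε : 0 < ε) :
    ContDiff ℝ ∞ (kut u ε) := by
  rw [contDiff_iff_contDiffAt]
  intro x
  by_cases hx : x ∈ Pos u
  · have h1 : kut u ε =ᶠ[𝓝 x] fun y => chi (w y / ε) := by
      filter_upwards [h.eventually_eq hx] with y hy
      unfold kut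
      rw [hy]
    have h2 : ContDiffAt ℝ ∞ (fun y => w y / ε) x :=
      (h.smoothAt (h.pos_sub hx)).div_const ε
    exact (chi_contDiff.contDiffAt.comp x h2).congr_of_eventuallyEq h1
  · exact contDiffAt_const.congr_of_eventuallyEq (h.kut_eventually_zero hε hx)

theorem pd_kut (h : SmoothCone u w U) {ε : ℝ} {x : Ed d} (hx : x ∈ Pos u)
    (i : Fin d) : pd i (kut u ε) x = deriv chi (u x / ε) / ε * pd i w x := by
  have h1 : kut u ε =ᶠ[𝓝 x] fun y => chi (w y / ε) := by
    filter_upwards [h.eventually_eq hx] with y hy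
    unfold kut
    rw [hy]
  have hw : DifferentiableAt ℝ w x := (h.smoothAt (h.pos_sub hx)).differentiableAt (by simp)
  have h2 : DifferentiableAt ℝ (fun y => w y / ε) x := by
    simpa [div_eq_mul_inv] using hw.mul_const ε⁻¹
  rw [pd_congr h1, pd_comp chi (chi_contDiff.differentiable (by simp) _) h2]
  have h3 : pd i (fun y => w y / ε) x = pd i w x / ε := by
    have e : (fun y => w y / ε) = fun y => ε⁻¹ * w y := by
      funext y
      ring
    rw [e, pd_const_mul _ hw]
    ring
  rw [h3, h.eq x hx]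
  ring

theorem kut_zero (h : SmoothCone u w U) {ε : ℝ} (hε : 0 < ε) {x : Ed d} (hx : x ∉ Pos u) :
    kut u ε x = 0 := (h.kut_eventually_zero hε hx).self_of_nhds

theorem pd_kut_zero (h : SmoothCone u w U) {ε : ℝ} (hε : 0 < ε) {x : Ed d} (hx : x ∉ Pos u)
    (i : Fin d) : pd i (kut u ε) x = 0 := by
  rw [pd_congr (h.kut_eventually_zero hε hx), pd_const]

/-- the divergence theorem with the cutoff -/
theorem div_cut (h : SmoothCone u w U) {ε : ℝ} (hε : 0 < ε) (G : Fin d → Ed d → ℝ)
    (hG : ∀ i, ContDiff ℝ 1 (G i)) (hs : ∀ i, HasCompactSupport (G i)) :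
    ∫ x, kut u ε x * ∑ i, pd i (G i) x = - ∫ x, ∑ i, pd i (kut u ε) x * G i x := by
  have hk : ContDiff ℝ ∞ (kut u ε) := h.kut_contDiff hε
  have hk1 : ContDiff ℝ 1 (kut u ε) := hk.of_le (by simp)
  have hkG : ∀ i, ContDiff ℝ 1 (fun x => kut u ε x * G i x) := fun i => hk1.mul (hG i)
  have hkGs : ∀ i, HasCompactSupport (fun x => kut u ε x * G i x) := fun i =>
    (hs i).mul_left
  have h1 : ∀ i, ∫ x, pd i (fun x => kut u ε x * G i x) x = 0 := fun i =>
    integral_pd (hkG i) (hkGs i)
  have hpG : ∀ i, Continuous (pd i (G i)) := fun i =>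
    (contDiff_pd (m := 0) (hG i) le_rfl).continuous
  have hpk : ∀ i, Continuous (pd i (kut u ε)) := fun i =>
    (contDiff_pd (m := 0) hk1 le_rfl).continuous
  have i1 : ∀ i, Integrable (fun x => kut u ε x * pd i (G i) x) volume := fun i =>
    (hk.continuous.mul (hpG i)).integrable_of_hasCompactSupport
      ((hasCompactSupport_pd (hs i)).mul_left)
  have i2 : ∀ i, Integrable (fun x => pd i (kut u ε) x * G i x) volume := fun i =>
    ((hpk i).mul (hG i).continuous).integrable_of_hasCompactSupport ((hs i).mul_left)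
  have h2 : ∀ i, ∫ x, kut u ε x * pd i (G i) x = - ∫ x, pd i (kut u ε) x * G i x := by
    intro i
    have h3 := h1 i
    have h4 : ∀ x, pd i (fun x => kut u ε x * G i x) x =
        pd i (kut u ε) x * G i x + kut u ε x * pd i (G i) x := fun x =>
      pd_mul (hk1.differentiable (by simp) x) ((hG i).differentiable (by simp) x)
    simp only [h4] at h3
    rw [integral_add (i2 i) (i1 i)] at h3
    linarith
  have h5 : (fun x => kut u ε x * ∑ i, pd i (G i) x) =
      fun x => ∑ i, kut u ε x * pd i (G i) x := by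
    funext x
    rw [Finset.mul_sum]
  rw [h5, integral_finsetSum _ (fun i _ => i1 i), integral_finsetSum _ (fun i _ => i2 i),
    ← Finset.sum_neg_distrib]
  exact Finset.sum_congr rfl fun i _ => h2 i

/-- removing the cutoff -/
theorem kut_tendsto (h : SmoothCone u w U) {f : Ed d → ℝ} (hf : Continuous f)
    (hs : HasCompactSupport f) :
    Tendsto (fun n : ℕ => ∫ x, kut u (1 / ((n : ℝ) + 1)) x * f x) atTop
      (𝓝 (∫ x in Pos u, f x)) := by
  rw [← integral_indicator h.isOpen_pos.measurableSet]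
  refine tendsto_integral_of_dominated_convergence (fun x => |f x|) ?_ ?_ ?_ ?_
  · intro n
    exact ((h.kut_contDiff (by positivity)).continuous.mul hf).aestronglyMeasurable
  · exact (hf.integrable_of_hasCompactSupport hs).abs
  · intro n
    filter_upwards with x
    unfold kut
    rw [norm_mul, Real.norm_eq_abs, Real.norm_eq_abs, abs_of_nonneg (chi_nonneg _)]
    exact mul_le_of_le_one_left (abs_nonneg _) (chi_le_one _)
  · filter_upwards with x
    by_cases hx : x ∈ Pos u
    · rw [indicator_of_mem hx]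
      have hu : 0 < u x := hx
      obtain ⟨N, hN⟩ := exists_nat_gt (2 / u x)
      refine tendsto_const_nhds.congr' ?_
      filter_upwards [eventually_ge_atTop N] with n hn
      have h1 : (2 : ℝ) ≤ u x / (1 / ((n : ℝ) + 1)) := by
        rw [div_div_eq_mul_div, div_one]
        have h2 : 2 / u x < (n : ℝ) + 1 := by
          have : (N : ℝ) ≤ n := by exact_mod_cast hn
          linarith
        rw [div_lt_iff₀ hu] at h2
        linarith
      unfold kut
      rw [chi_one h1, one_mul]
    · rw [indicator_of_notMem hx]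
      refine tendsto_const_nhds.congr' ?_
      filter_upwards with n
      rw [h.kut_zero (by positivity) hx, zero_mul]

/-- the strict version: the field points inwards near the free boundary -/
theorem div_le_zero_aux (h : SmoothCone u w U) (G : Fin d → Ed d → ℝ)
    (hG : ∀ i, ContDiff ℝ 1 (G i)) (hs : ∀ i, HasCompactSupport (G i)) {m : ℝ} (hm : 0 < m)
    (hb : ∀ x ∈ Pos u, u x < m → 0 ≤ ∑ i, G i x * pd i w x) :
    ∫ x in Pos u, ∑ i, pd i (G i) x ≤ 0 := by
  have hc : Continuous (fun x => ∑ i, pd i (G i) x) :=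
    continuous_finsetSum _ fun i _ => (contDiff_pd (m := 0) (hG i) le_rfl).continuous
  have hcs : HasCompactSupport (fun x => ∑ i, pd i (G i) x) := by
    refine HasCompactSupport.of_support_subset_isCompact
      (isCompact_iUnion fun i => (hs i).isCompact) fun x hx => ?_
    by_contra hx'
    rw [mem_iUnion, not_exists] at hx'
    exact hx (Finset.sum_eq_zero fun i _ => pd_eq_zero_of_notMem_tsupport (hx' i))
  refine le_of_tendsto (h.kut_tendsto hc hcs) ?_
  obtain ⟨N, hN⟩ := exists_nat_gt (2 / m)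
  filter_upwards [eventually_ge_atTop N] with n hn
  have hε : (0 : ℝ) < 1 / ((n : ℝ) + 1) := by positivity
  have hε2 : 2 * (1 / ((n : ℝ) + 1)) < m := by
    have h2 : 2 / m < (n : ℝ) + 1 := by
      have : (N : ℝ) ≤ n := by exact_mod_cast hn
      linarith
    rw [div_lt_iff₀ hm] at h2
    rw [mul_one_div, div_lt_iff₀ (by positivity)]
    linarith
  rw [h.div_cut hε G hG hs]
  rw [neg_nonpos]
  apply integral_nonneg
  intro x
  by_cases hx : x ∈ Pos u
  · have h1 : ∑ i, pd i (kut u (1 / ((n : ℝ) + 1))) x * G i x =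
        deriv chi (u x / (1 / ((n : ℝ) + 1))) / (1 / ((n : ℝ) + 1)) *
          ∑ i, G i x * pd i w x := by
      rw [Finset.mul_sum]
      refine Finset.sum_congr rfl fun i _ => ?_
      rw [h.pd_kut hx]
      ring
    change 0 ≤ ∑ i, pd i (kut u (1 / ((n : ℝ) + 1))) x * G i x
    rw [h1]
    by_cases hxm : u x < m
    · exact mul_nonneg (div_nonneg (chi_deriv_nonneg _) hε.le) (hb x hx hxm)
    · have h2 : (2 : ℝ) ≤ u x / (1 / ((n : ℝ) + 1)) := by
        rw [le_div_iff₀ hε]
        linarith
      rw [chi_deriv_zero h2]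
      simp
  · have h1 : ∑ i, pd i (kut u (1 / ((n : ℝ) + 1))) x * G i x = 0 := by
      refine Finset.sum_eq_zero fun i _ => ?_
      rw [h.pd_kut_zero hε hx, zero_mul]
    change 0 ≤ ∑ i, pd i (kut u (1 / ((n : ℝ) + 1))) x * G i x
    rw [h1]

theorem continuous_div {G : Fin d → Ed d → ℝ} (hG : ∀ i, ContDiff ℝ 1 (G i)) :
    Continuous (fun x => ∑ i, pd i (G i) x) :=
  continuous_finsetSum _ fun i _ => (contDiff_pd (m := 0) (hG i) le_rfl).continuous

theorem hasCompactSupport_div {G : Fin d → Ed d → ℝ} (hs : ∀ i, HasCompactSupport (G i)) :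
    HasCompactSupport (fun x => ∑ i, pd i (G i) x) := by
  refine HasCompactSupport.of_support_subset_isCompact
    (isCompact_iUnion fun i => (hs i).isCompact) fun x hx => ?_
  by_contra hx'
  rw [mem_iUnion, not_exists] at hx'
  exact hx (Finset.sum_eq_zero fun i _ => pd_eq_zero_of_notMem_tsupport (hx' i))

theorem integrable_div {G : Fin d → Ed d → ℝ} (hG : ∀ i, ContDiff ℝ 1 (G i))
    (hs : ∀ i, HasCompactSupport (G i)) (A : Set (Ed d)) :
    IntegrableOn (fun x => ∑ i, pd i (G i) x) A volume :=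
  ((continuous_div hG).integrable_of_hasCompactSupport (hasCompactSupport_div hs)).integrableOn

/-- **One-sided divergence lemma.**  If `G · ∇w ≥ 0` on the free boundary (that is, `G` points
into the positivity set), then the integral of `div G` over the positivity set is nonpositive. -/
theorem div_le_zero (h : SmoothCone u w U) (G : Fin d → Ed d → ℝ)
    (hG : ∀ i, ContDiff ℝ 1 (G i)) (hs : ∀ i, HasCompactSupport (G i))
    (h0 : ∀ i, (0 : Ed d) ∉ tsupport (G i))
    (hb : ∀ x ∈ frontier (Pos u), x ≠ 0 → 0 ≤ ∑ i, G i x * pd i w x) :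
    ∫ x in Pos u, ∑ i, pd i (G i) x ≤ 0 := by
  set KG : Set (Ed d) := ⋃ i, tsupport (G i) with hKG
  have hKGc : IsCompact KG := isCompact_iUnion fun i => (hs i).isCompact
  have hKG0 : (0 : Ed d) ∉ KG := by
    rw [hKG, mem_iUnion, not_exists]
    exact h0
  set K : Set (Ed d) := closure (Pos u) ∩ KG with hK
  have hKc : IsCompact K := hKGc.inter_left isClosed_closure
  have hKV : K ⊆ U \ {0} := by
    rintro x ⟨hx1, hx2⟩
    have hx0 : x ≠ 0 := fun e => hKG0 (e ▸ hx2)
    exact ⟨h.sub ⟨hx1, hx0⟩, hx0⟩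
  have hVo : IsOpen (U \ {(0 : Ed d)}) := h.isOpen.sdiff isClosed_singleton
  obtain ⟨ρ, hρ, hρ0, -, hρs, hρV, W, -, hKW, hW1⟩ := exists_cutoff hKc hVo hKV
  have hρ1 : ∀ x ∈ K, ρ x = 1 := fun x hx => hW1 x (hKW hx)
  have hVc : ∀ i, ContDiff ℝ 1 (fun x => ρ x * pd i w x) := by
    intro i
    have h1 : ContDiffOn ℝ ∞ (pd i w) (U \ {0}) := (h.contDiffOn_pdw i).mono Set.sdiff_subset
    exact (contDiff_cutoff_mul hVo hρ hρV h1).of_le (by simp)
  have hVs : ∀ i, HasCompactSupport (fun x => ρ x * pd i w x) := fun i => hρs.mul_right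
  have hcont : ∀ i, ContinuousOn (pd i w) U := fun i => (h.contDiffOn_pdw i).continuousOn
  have key : ∀ κ : ℝ, 0 < κ → ∫ x in Pos u, ∑ i, pd i (fun x => G i x + κ * (ρ x * pd i w x)) x
      ≤ 0 := by
    intro κ hκ
    have hg : ContinuousOn (fun x => ∑ i, (G i x + κ * (ρ x * pd i w x)) * pd i w x) K := by
      refine continuousOn_finsetSum _ fun i _ => ?_
      have h1 : ContinuousOn (pd i w) K := (hcont i).mono fun x hx => (hKV hx).1
      exact (((hG i).continuous.continuousOn).add
        (continuousOn_const.mul (hρ.continuous.continuousOn.mul h1))).mul h1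
    have hSc : IsClosed (K ∩ (fun x => ∑ i, (G i x + κ * (ρ x * pd i w x)) * pd i w x) ⁻¹'
        Iic 0) := hg.preimage_isClosed_of_isClosed hKc.isClosed isClosed_Iic
    have hScomp : IsCompact (K ∩ (fun x => ∑ i, (G i x + κ * (ρ x * pd i w x)) * pd i w x) ⁻¹'
        Iic 0) := hKc.of_isClosed_subset hSc inter_subset_left
    have hSpos : ∀ x ∈ K ∩ (fun x => ∑ i, (G i x + κ * (ρ x * pd i w x)) * pd i w x) ⁻¹'
        Iic 0, 0 < u x := by
      rintro x ⟨hxK, hx2⟩
      by_contra hx
      have hxf : x ∈ frontier (Pos u) := h.mem_frontier_of_closure hxK.1 hx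
      have hx0 : x ≠ 0 := (hKV hxK).2
      have e1 : ∑ i, (G i x + κ * (ρ x * pd i w x)) * pd i w x =
          ∑ i, G i x * pd i w x + κ * ∑ i, pd i w x ^ 2 := by
        rw [Finset.mul_sum, ← Finset.sum_add_distrib]
        refine Finset.sum_congr rfl fun i _ => ?_
        rw [hρ1 x hxK]
        ring
      have hx3 : ∑ i, (G i x + κ * (ρ x * pd i w x)) * pd i w x ≤ 0 := hx2
      rw [e1, h.grad x hxf hx0] at hx3
      have := hb x hxf hx0
      linarith
    have hm : ∃ m : ℝ, 0 < m ∧ ∀ x ∈ K ∩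
        (fun x => ∑ i, (G i x + κ * (ρ x * pd i w x)) * pd i w x) ⁻¹' Iic 0, m ≤ u x := by
      rcases (K ∩ (fun x => ∑ i, (G i x + κ * (ρ x * pd i w x)) * pd i w x) ⁻¹'
        Iic 0).eq_empty_or_nonempty with he | hne
      · exact ⟨1, one_pos, fun x hx => absurd hx (by rw [he]; exact notMem_empty x)⟩
      · obtain ⟨x0, hx0, hmin⟩ := hScomp.exists_isMinOn hne h.cont.continuousOn
        exact ⟨u x0, hSpos x0 hx0, fun x hx => hmin hx⟩
    obtain ⟨m, hm0, hmS⟩ := hm
    refine h.div_le_zero_aux (fun i x => G i x + κ * (ρ x * pd i w x)) (fun i => ?_)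
      (fun i => ?_) hm0 ?_
    · exact (hG i).add (contDiff_const.mul (hVc i))
    · exact (hs i).add ((hVs i).mul_left)
    · intro x hx hxm
      by_cases hxG : x ∈ KG
      · by_contra hneg
        have hxS : x ∈ K ∩ (fun x => ∑ i, (G i x + κ * (ρ x * pd i w x)) * pd i w x) ⁻¹'
            Iic 0 := ⟨⟨subset_closure hx, hxG⟩, (not_le.1 hneg).le⟩
        exact absurd (hmS x hxS) (not_le.2 hxm)
      · have hG0 : ∀ i, G i x = 0 := by
          intro i
          have : x ∉ tsupport (G i) := fun hh => hxG (mem_iUnion.2 ⟨i, hh⟩)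
          exact image_eq_zero_of_notMem_tsupport this
        refine Finset.sum_nonneg fun i _ => ?_
        rw [hG0 i]
        have h1 : (0 + κ * (ρ x * pd i w x)) * pd i w x = κ * ρ x * pd i w x ^ 2 := by ring
        rw [h1]
        exact mul_nonneg (mul_nonneg hκ.le (hρ0 x)) (sq_nonneg _)
  -- let `κ → 0`
  have hsplit : ∀ κ : ℝ, ∫ x in Pos u, ∑ i, pd i (fun x => G i x + κ * (ρ x * pd i w x)) x =
      (∫ x in Pos u, ∑ i, pd i (G i) x) +
        κ * ∫ x in Pos u, ∑ i, pd i (fun x => ρ x * pd i w x) x := by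
    intro κ
    rw [← integral_const_mul, ← integral_add (integrable_div hG hs _)
      ((integrable_div hVc hVs _).const_mul κ)]
    refine setIntegral_congr_fun h.isOpen_pos.measurableSet fun x _ => ?_
    rw [Finset.mul_sum, ← Finset.sum_add_distrib]
    refine Finset.sum_congr rfl fun i _ => ?_
    rw [pd_add ((hG i).differentiable (by simp) x)
      ((((hVc i).differentiable (by simp)) x).const_mul κ),
      pd_const_mul κ ((hVc i).differentiable (by simp) x)]
  set A := ∫ x in Pos u, ∑ i, pd i (G i) x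
  set C := ∫ x in Pos u, ∑ i, pd i (fun x => ρ x * pd i w x) x
  refine le_of_forall_pos_le_add fun ε hε => ?_
  have hC : 0 < |C| + 1 := by positivity
  have h1 := key (ε / (|C| + 1)) (by positivity)
  rw [hsplit] at h1
  have h2 : -(ε / (|C| + 1) * C) ≤ ε := by
    have h3 : -(ε / (|C| + 1) * C) ≤ ε / (|C| + 1) * |C| := by
      rw [← mul_neg]
      exact mul_le_mul_of_nonneg_left (neg_le_abs C) (by positivity)
    have h4 : ε / (|C| + 1) * |C| ≤ ε := by
      rw [div_mul_eq_mul_div, div_le_iff₀ hC]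
      nlinarith [abs_nonneg C]
    linarith
  linarith

/-- **Divergence lemma**: if `G · ∇w = 0` on the free boundary, the integral of `div G` over the
positivity set vanishes. -/
theorem div_eq_zero (h : SmoothCone u w U) (G : Fin d → Ed d → ℝ)
    (hG : ∀ i, ContDiff ℝ 1 (G i)) (hs : ∀ i, HasCompactSupport (G i))
    (h0 : ∀ i, (0 : Ed d) ∉ tsupport (G i))
    (hb : ∀ x ∈ frontier (Pos u), x ≠ 0 → ∑ i, G i x * pd i w x = 0) :
    ∫ x in Pos u, ∑ i, pd i (G i) x = 0 := by
  apply le_antisymm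
  · exact h.div_le_zero G hG hs h0 fun x hx hx0 => (hb x hx hx0).ge
  · have h1 := h.div_le_zero (fun i x => - G i x) (fun i => (hG i).neg) (fun i => (hs i).neg)
      (fun i => by
        have e : tsupport (fun x => - G i x) = tsupport (G i) := by
          unfold tsupport
          congr 1
          ext x
          simp [Function.mem_support]
        rw [e]
        exact h0 i)
      (fun x hx hx0 => by
        have h2 := hb x hx hx0
        simp only [neg_mul, Finset.sum_neg_distrib, h2, neg_zero, le_refl])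
    have h3 : ∀ x, ∑ i, pd i (fun x => - G i x) x = - ∑ i, pd i (G i) x := by
      intro x
      rw [← Finset.sum_neg_distrib]
      exact Finset.sum_congr rfl fun i _ => pd_neg
    simp only [h3] at h1
    rw [integral_neg] at h1
    linarith

end SmoothCone

end Vale.Agent.P098
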