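import Vale.Agent.Lib.P098.Var.Grad

/-!
# P098: divergence of the fields `c(V) F` in terms of jets

Scalars `V = (u, s, N, ρ)`, `s = |∇w|²`, `N = |D²w|²`, `ρ = |x|²`; fields
`F = (X, p, Ap, A²p, A³p, x)` with `X = A : T = ∇N/2`.
-/

open MeasureTheory Set Filter Topology
open scoped ContDiff

namespace Vale.Agent.P098

section

variable {d : ℕ} {u w : Ed d → ℝ} {U : Set (Ed d)}

/-- the scalars `(u, s, N, ρ)` -/
noncomputable def V4 (w : Ed d → ℝ) (x : Ed d) : Fin 4 → ℝ :=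
  ![w x, Sw w x, N2 w x, ∑ i, x i ^ 2]

/-- the fields `(X, p, Ap, A²p, A³p, x)` -/
noncomputable def F6 (w : Ed d → ℝ) (m : Fin 6) (i : Fin d) (x : Ed d) : ℝ :=
  match m with
  | 0 => ∑ j, ∑ k, pd j (pd k w) x * pd i (pd j (pd k w)) x
  | 1 => pd i w x
  | 2 => ∑ j, pd i (pd j w) x * pd j w x
  | 3 => ∑ j, pd i (pd j w) x * ∑ k, pd j (pd k w) x * pd k w x
  | 4 => ∑ j, pd i (pd j w) x * ∑ k, pd j (pd k w) x * ∑ l, pd k (pd l w) x * pd l w x
  | 5 => x i

/-- factors in `∇V = κ F` -/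
noncomputable def kap4 : Fin 4 → ℝ := ![1, 2, 2, 2]

/-- indices in `∇V = κ F` -/
def sig4 : Fin 4 → Fin 6 := ![1, 2, 0, 5]

/-- `tr A⁴` -/
noncomputable def C4 (w : Ed d → ℝ) (x : Ed d) : ℝ :=
  ∑ i, ∑ j, pd i (pd j w) x * ∑ k, pd j (pd k w) x * ∑ l, pd k (pd l w) x * pd i (pd l w) x

/-- `⟨T : A², p⟩` -/
noncomputable def Yp (w : Ed d → ℝ) (x : Ed d) : ℝ :=
  ∑ i, ∑ j, pd i (pd j w) x * ∑ k, pd j (pd k w) x * ∑ l, pd i (pd k (pd l w)) x * pd l w x

/-- the divergences of the fields -/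
noncomputable def D6 (w : Ed d → ℝ) (m : Fin 6) (x : Ed d) : ℝ :=
  match m with
  | 0 => N3 w x
  | 1 => 0
  | 2 => N2 w x
  | 3 => (∑ i, F6 w 0 i x * F6 w 1 i x) + C3 w x
  | 4 => (∑ i, F6 w 0 i x * F6 w 2 i x) + Yp w x + C4 w x
  | 5 => d

namespace SmoothCone

theorem smoothF (h : SmoothCone u w U) (m : Fin 6) (i : Fin d) :
    ContDiffOn ℝ ∞ (F6 w m i) U := by
  have hA := fun i j => h.contDiffOn_pdpdw i j
  have hp := fun i => h.contDiffOn_pdw i
  have h2 : ∀ i, ContDiffOn ℝ ∞ (fun x => ∑ j, pd i (pd j w) x * pd j w x) U := fun i =>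
    ContDiffOn.sum fun j _ => (hA i j).mul (hp j)
  have h3 : ∀ i, ContDiffOn ℝ ∞ (fun x => ∑ j, pd i (pd j w) x *
      ∑ k, pd j (pd k w) x * pd k w x) U := fun i =>
    ContDiffOn.sum fun j _ => (hA i j).mul (h2 j)
  fin_cases m
  · exact ContDiffOn.sum fun j _ => ContDiffOn.sum fun k _ => (hA j k).mul (h.smooth3 i j k)
  · exact hp i
  · exact h2 i
  · exact h3 i
  · exact ContDiffOn.sum fun j _ => (hA i j).mul (h3 j)
  · exact (EuclideanSpace.proj i : Ed d →L[ℝ] ℝ).contDiff.contDiffOn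

theorem diffF (h : SmoothCone u w U) {x : Ed d} (hx : x ∈ U) (m : Fin 6) (i : Fin d) :
    DifferentiableAt ℝ (F6 w m i) x :=
  ((h.smoothF m i).contDiffAt (h.isOpen.mem_nhds hx)).differentiableAt (by simp)

theorem divF3 (h : SmoothCone u w U) {x : Ed d} (hx : x ∈ Pos u) {q : Fin d → Ed d → ℝ}
    (hq : ∀ j, DifferentiableAt ℝ (q j) x) :
    ∑ i, pd i (fun x => ∑ j, pd i (pd j w) x * q j x) x =
      ∑ i, ∑ j, pd i (pd j w) x * pd i (q j) x := by
  have hxU := h.pos_sub hx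
  have h1 : ∀ i, pd i (fun x => ∑ j, pd i (pd j w) x * q j x) x =
      ∑ j, pd i (pd i (pd j w)) x * q j x + ∑ j, pd i (pd j w) x * pd i (q j) x := by
    intro i
    have hd : ∀ j, DifferentiableAt ℝ (fun x => pd i (pd j w) x * q j x) x := fun j =>
      (h.diff2 hxU i j).mul (hq j)
    rw [pd_sum _ _ fun j _ => hd j, ← Finset.sum_add_distrib]
    exact Finset.sum_congr rfl fun j _ => pd_mul (h.diff2 hxU i j) (hq j)
  rw [Finset.sum_congr rfl fun i _ => h1 i, Finset.sum_add_distrib]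
  have h2 : ∑ i, ∑ j, pd i (pd i (pd j w)) x * q j x = 0 := by
    rw [Finset.sum_comm]
    refine Finset.sum_eq_zero fun j _ => ?_
    rw [← Finset.sum_mul, h.tr3 (subset_closure hx) (h.ne_zero hx) j, zero_mul]
  rw [h2, zero_add]

/-- derivative of `(A q)_j` -/
theorem pdAq (h : SmoothCone u w U) {x : Ed d} (hx : x ∈ U) {q : Fin d → Ed d → ℝ}
    (hq : ∀ j, DifferentiableAt ℝ (q j) x) (i j : Fin d) :
    pd i (fun x => ∑ k, pd j (pd k w) x * q k x) x =
      ∑ k, pd i (pd j (pd k w)) x * q k x + ∑ k, pd j (pd k w) x * pd i (q k) x := by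
  have hd : ∀ k, DifferentiableAt ℝ (fun x => pd j (pd k w) x * q k x) x := fun k =>
    (h.diff2 hx j k).mul (hq k)
  rw [pd_sum _ _ fun k _ => hd k, ← Finset.sum_add_distrib]
  exact Finset.sum_congr rfl fun k _ => pd_mul (h.diff2 hx j k) (hq k)

theorem divF (h : SmoothCone u w U) {x : Ed d} (hx : x ∈ Pos u) (m : Fin 6) :
    ∑ i, pd i (F6 w m i) x = D6 w m x := by
  have hxU := h.pos_sub hx
  have hx0 := h.ne_zero hx
  have hcl := subset_closure hx
  have dq2 : ∀ j, DifferentiableAt ℝ (fun x => ∑ k, pd j (pd k w) x * pd k w x) x := fun j =>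
    h.diffF hxU 2 j
  have dq3 : ∀ j, DifferentiableAt ℝ (fun x => ∑ k, pd j (pd k w) x *
      ∑ l, pd k (pd l w) x * pd l w x) x := fun j => h.diffF hxU 3 j
  have e0 : ∀ i, F6 w 0 i x = ∑ j, ∑ k, pd j (pd k w) x * pd i (pd j (pd k w)) x :=
    fun i => rfl
  fin_cases m
  · -- `div X = |T|²`
    change ∑ i, pd i (F6 w 0 i) x = N3 w x
    have h1 : ∀ i, pd i (F6 w 0 i) x = (1 / 2) * pd i (pd i (N2 w)) x := by
      intro i
      have h2 : F6 w 0 i =ᶠ[𝓝 x] fun y => (1 / 2) * pd i (N2 w) y := by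
        filter_upwards [h.isOpen.mem_nhds hxU] with y hy
        rw [h.pdN2 hy i]
        change ∑ j, ∑ k, pd j (pd k w) y * pd i (pd j (pd k w)) y = _
        ring
      have hd : DifferentiableAt ℝ (pd i (N2 w)) x :=
        ((contDiffOn_pd (m := ∞) h.isOpen h.smoothN2 (by simp)).contDiffAt
          (h.isOpen.mem_nhds hxU)).differentiableAt (by simp)
      rw [pd_congr h2, pd_const_mul _ hd]
    rw [Finset.sum_congr rfl fun i _ => h1 i, ← Finset.mul_sum]
    have h3 : ∑ i, pd i (pd i (N2 w)) x = 2 * N3 w x := h.lapN2 hx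
    rw [h3]
    ring
  · exact h.harm x hx
  · change ∑ i, pd i (fun x => ∑ j, pd i (pd j w) x * pd j w x) x = N2 w x
    rw [h.divF3 hx fun j => h.diff1 hxU j]
    unfold N2
    exact Finset.sum_congr rfl fun i _ => Finset.sum_congr rfl fun j _ => by ring
  · change ∑ i, pd i (fun x => ∑ j, pd i (pd j w) x * ∑ k, pd j (pd k w) x * pd k w x) x =
      (∑ i, F6 w 0 i x * F6 w 1 i x) + C3 w x
    rw [h.divF3 hx dq2]
    have h1 : ∀ i j, pd i (fun x => ∑ k, pd j (pd k w) x * pd k w x) x =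
        ∑ k, pd i (pd j (pd k w)) x * pd k w x + ∑ k, pd j (pd k w) x * pd i (pd k w) x :=
      fun i j => h.pdAq hxU (fun k => h.diff1 hxU k) i j
    simp only [h1, mul_add, Finset.sum_add_distrib]
    congr 1
    · -- `Σ A_ij T_ijk p_k`
      have e1 : ∑ i, F6 w 0 i x * F6 w 1 i x =
          ∑ k, ∑ i, ∑ j, pd i (pd j w) x * (pd i (pd j (pd k w)) x * pd k w x) := by
        refine Finset.sum_congr rfl fun k _ => ?_
        rw [e0 k, Finset.sum_mul]
        refine Finset.sum_congr rfl fun i _ => ?_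
        rw [Finset.sum_mul]
        refine Finset.sum_congr rfl fun j _ => ?_
        have e2 : pd k (pd i (pd j w)) x = pd i (pd j (pd k w)) x := by
          rw [h.symm3b hxU k i j, h.symm3a hxU i k j]
        rw [e2]
        change pd i (pd j w) x * pd i (pd j (pd k w)) x * pd k w x = _
        ring
      rw [e1]
      symm
      rw [Finset.sum_comm]
      refine Finset.sum_congr rfl fun i _ => ?_
      rw [Finset.sum_comm]
      refine Finset.sum_congr rfl fun j _ => ?_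
      rw [Finset.mul_sum]
    · unfold C3
      refine Finset.sum_congr rfl fun i _ => Finset.sum_congr rfl fun j _ => ?_
      rw [mul_comm]
      congr 1
      refine Finset.sum_congr rfl fun k _ => ?_
      rw [h.symm2 hxU k j]
      ring
  · change ∑ i, pd i (fun x => ∑ j, pd i (pd j w) x * ∑ k, pd j (pd k w) x *
      ∑ l, pd k (pd l w) x * pd l w x) x =
      (∑ i, F6 w 0 i x * F6 w 2 i x) + Yp w x + C4 w x
    rw [h.divF3 hx dq3]
    have h1 : ∀ i j, pd i (fun x => ∑ k, pd j (pd k w) x * ∑ l, pd k (pd l w) x * pd l w x) x =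
        ∑ k, pd i (pd j (pd k w)) x * (∑ l, pd k (pd l w) x * pd l w x) +
        ∑ k, pd j (pd k w) x * (∑ l, pd i (pd k (pd l w)) x * pd l w x +
          ∑ l, pd k (pd l w) x * pd i (pd l w) x) := by
      intro i j
      rw [h.pdAq hxU dq2 i j]
      congr 1
      refine Finset.sum_congr rfl fun k _ => ?_
      rw [h.pdAq hxU (fun l => h.diff1 hxU l) i k]
    simp only [h1, mul_add, Finset.sum_add_distrib]
    rw [← add_assoc]
    congr 1
    congr 1
    have e1 : ∑ i, F6 w 0 i x * F6 w 2 i x = ∑ k, ∑ i, ∑ j, pd i (pd j w) x *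
        (pd i (pd j (pd k w)) x * ∑ l, pd k (pd l w) x * pd l w x) := by
      refine Finset.sum_congr rfl fun k _ => ?_
      rw [e0 k, Finset.sum_mul]
      refine Finset.sum_congr rfl fun i _ => ?_
      rw [Finset.sum_mul]
      refine Finset.sum_congr rfl fun j _ => ?_
      have e2 : pd k (pd i (pd j w)) x = pd i (pd j (pd k w)) x := by
        rw [h.symm3b hxU k i j, h.symm3a hxU i k j]
      rw [e2]
      change pd i (pd j w) x * pd i (pd j (pd k w)) x *
        (∑ l, pd k (pd l w) x * pd l w x) = _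
      ring
    rw [e1]
    symm
    rw [Finset.sum_comm]
    refine Finset.sum_congr rfl fun i _ => ?_
    rw [Finset.sum_comm]
    refine Finset.sum_congr rfl fun j _ => ?_
    rw [Finset.mul_sum]
  · change ∑ i, pd i (fun x : Ed d => x i) x = (d : ℝ)
    simp [pd_coord]

/-- gradients of the scalars -/
theorem pdV (h : SmoothCone u w U) {x : Ed d} (hx : x ∈ U) (a : Fin 4) (i : Fin d) :
    pd i (fun x => V4 w x a) x = kap4 a * F6 w (sig4 a) i x := by
  fin_cases a
  · change pd i (fun x => w x) x = 1 * pd i w x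
    rw [one_mul]
  · change pd i (Sw w) x = 2 * ∑ j, pd i (pd j w) x * pd j w x
    exact h.pdS hx i
  · change pd i (N2 w) x = 2 * ∑ j, ∑ k, pd j (pd k w) x * pd i (pd j (pd k w)) x
    exact h.pdN2 hx i
  · change pd i (fun x : Ed d => ∑ j, x j ^ 2) x = 2 * x i
    have hd : ∀ j, DifferentiableAt ℝ (fun y : Ed d => y j ^ 2) x := fun j =>
      (coord_diff j x).pow 2
    rw [pd_sum _ _ fun j _ => hd j]
    have h1 : ∀ j, pd i (fun y : Ed d => y j ^ 2) x = if i = j then 2 * x j else 0 := by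
      intro j
      rw [pd_sq (coord_diff j x), pd_coord]
      split_ifs <;> ring
    rw [Finset.sum_congr rfl fun j _ => h1 j, Finset.sum_ite_eq]
    simp

theorem smoothV (h : SmoothCone u w U) : ContDiffOn ℝ ∞ (V4 w) U := by
  rw [contDiffOn_pi]
  intro a
  fin_cases a
  · exact h.smooth
  · exact h.smoothS
  · exact h.smoothN2
  · change ContDiffOn ℝ ∞ (fun x : Ed d => ∑ j, x j ^ 2) U
    exact ContDiffOn.sum fun j _ =>
      ((EuclideanSpace.proj j : Ed d →L[ℝ] ℝ).contDiff.contDiffOn.pow 2)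

end SmoothCone

/-- derivative of `Φ` in the direction of the `a`-th coordinate -/
noncomputable def dc (a : Fin 4) (Φ : (Fin 4 → ℝ) → ℝ) (v : Fin 4 → ℝ) : ℝ :=
  fderiv ℝ Φ v (Pi.single a 1)

namespace SmoothCone

/-- chain rule -/
theorem pd_comp_V (h : SmoothCone u w U) {x : Ed d} (hx : x ∈ U) {Φ : (Fin 4 → ℝ) → ℝ}
    (hΦ : DifferentiableAt ℝ Φ (V4 w x)) (i : Fin d) :
    pd i (fun x => Φ (V4 w x)) x = ∑ a, dc a Φ (V4 w x) * (kap4 a * F6 w (sig4 a) i x) := by
  have hV : DifferentiableAt ℝ (V4 w) x :=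
    (h.smoothV.contDiffAt (h.isOpen.mem_nhds hx)).differentiableAt (by simp)
  have h1 : pd i (fun x => Φ (V4 w x)) x =
      fderiv ℝ Φ (V4 w x) (fderiv ℝ (V4 w) x (EuclideanSpace.single i 1)) := by
    unfold pd
    have e : (fun x => Φ (V4 w x)) = Φ ∘ V4 w := rfl
    rw [e, fderiv_comp x hΦ hV]
    rfl
  have h2 : fderiv ℝ (V4 w) x (EuclideanSpace.single i 1) =
      ∑ a, (kap4 a * F6 w (sig4 a) i x) • (Pi.single a (1 : ℝ) : Fin 4 → ℝ) := by
    funext a
    have h3 : fderiv ℝ (V4 w) x (EuclideanSpace.single i 1) a =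
        pd i (fun x => V4 w x a) x := by
      have h4 := (hasFDerivAt_pi'.1 hV.hasFDerivAt) a
      unfold pd
      rw [h4.fderiv]
      rfl
    rw [h3, h.pdV hx a i]
    simp [Finset.sum_apply, Pi.single_apply]
  rw [h1, h2, map_sum]
  refine Finset.sum_congr rfl fun a _ => ?_
  rw [map_smul, smul_eq_mul, mul_comm]
  rfl

/-- **Divergence of `Σ c_m(V) F_m`.** -/
theorem divZ (h : SmoothCone u w U) {x : Ed d} (hx : x ∈ Pos u)
    {c : Fin 6 → (Fin 4 → ℝ) → ℝ} (hc : ∀ m, DifferentiableAt ℝ (c m) (V4 w x)) :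
    ∑ i, pd i (fun x => ∑ m, c m (V4 w x) * F6 w m i x) x =
      ∑ m, ((∑ a, dc a (c m) (V4 w x) * kap4 a * ∑ i, F6 w (sig4 a) i x * F6 w m i x) +
        c m (V4 w x) * D6 w m x) := by
  have hxU := h.pos_sub hx
  have hV : DifferentiableAt ℝ (V4 w) x :=
    (h.smoothV.contDiffAt (h.isOpen.mem_nhds hxU)).differentiableAt (by simp)
  have hcV : ∀ m, DifferentiableAt ℝ (fun x => c m (V4 w x)) x := fun m => (hc m).comp x hV
  have h1 : ∀ i, pd i (fun x => ∑ m, c m (V4 w x) * F6 w m i x) x =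
      ∑ m, ((∑ a, dc a (c m) (V4 w x) * (kap4 a * F6 w (sig4 a) i x)) * F6 w m i x +
        c m (V4 w x) * pd i (F6 w m i) x) := by
    intro i
    have hd : ∀ m, DifferentiableAt ℝ (fun x => c m (V4 w x) * F6 w m i x) x := fun m =>
      (hcV m).mul (h.diffF hxU m i)
    rw [pd_sum _ _ fun m _ => hd m]
    refine Finset.sum_congr rfl fun m _ => ?_
    rw [pd_mul (hcV m) (h.diffF hxU m i), h.pd_comp_V hxU (hc m) i]
  rw [Finset.sum_congr rfl fun i _ => h1 i, Finset.sum_comm]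
  refine Finset.sum_congr rfl fun m _ => ?_
  rw [Finset.sum_add_distrib, ← Finset.mul_sum, h.divF hx m]
  congr 1
  simp only [Finset.sum_mul]
  rw [Finset.sum_comm]
  refine Finset.sum_congr rfl fun a _ => ?_
  rw [Finset.mul_sum]
  exact Finset.sum_congr rfl fun i _ => by ring

/-- **Square of the gradient of `Φ(V)`.** -/
theorem gradE_sq (h : SmoothCone u w U) {x : Ed d} (hx : x ∈ U) {Φ : (Fin 4 → ℝ) → ℝ}
    (hΦ : DifferentiableAt ℝ Φ (V4 w x)) :
    ∑ i, pd i (fun x => Φ (V4 w x)) x ^ 2 =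
      ∑ a, ∑ b, dc a Φ (V4 w x) * kap4 a * (dc b Φ (V4 w x) * kap4 b) *
        ∑ i, F6 w (sig4 a) i x * F6 w (sig4 b) i x := by
  have h1 : ∀ i, pd i (fun x => Φ (V4 w x)) x ^ 2 =
      ∑ a, ∑ b, dc a Φ (V4 w x) * kap4 a * (dc b Φ (V4 w x) * kap4 b) *
        (F6 w (sig4 a) i x * F6 w (sig4 b) i x) := by
    intro i
    rw [h.pd_comp_V hx hΦ i, sq, Finset.sum_mul_sum]
    exact Finset.sum_congr rfl fun a _ => Finset.sum_congr rfl fun b _ => by ring
  rw [Finset.sum_congr rfl fun i _ => h1 i, Finset.sum_comm]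
  refine Finset.sum_congr rfl fun a _ => ?_
  rw [Finset.sum_comm]
  refine Finset.sum_congr rfl fun b _ => ?_
  rw [Finset.mul_sum]

end SmoothCone

end

end Vale.Agent.P098
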