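import Vale.Agent.Lib.P098.Var.Cert

/-!
# P098: the test function `f_δ(E) ζ` in the stability inequality
-/

open MeasureTheory Set Filter Topology
open scoped ContDiff

namespace Vale.Agent.P098

section

variable {d : ℕ} {u w E : Ed d → ℝ} {U : Set (Ed d)} {α c : ℝ}

/-- the vector `D²w ∇w` -/
noncomputable def bw {d : ℕ} (w : Ed d → ℝ) (i : Fin d) (x : Ed d) : ℝ :=
  ∑ j, pd i (pd j w) x * pd j w x

theorem SmoothCone.bw_smooth (h : SmoothCone u w U) (i : Fin d) : ContDiffOn ℝ ∞ (bw w i) U := by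
  have : bw w i = fun x => ∑ j, pd i (pd j w) x * pd j w x := rfl
  rw [this]
  exact ContDiffOn.sum fun j _ => (h.contDiffOn_pdpdw i j).mul (h.contDiffOn_pdw j)

/-- divergence of `D²w ∇w` is `|D²w|²` -/
theorem SmoothCone.div_bw (h : SmoothCone u w U) {x : Ed d} (hx : x ∈ Pos u) :
    ∑ i, pd i (bw w i) x = ∑ i, ∑ j, pd i (pd j w) x ^ 2 := by
  have hxU : x ∈ U := h.pos_sub hx
  have hw : ContDiffAt ℝ ∞ w x := h.smoothAt hxU
  have h1 : ∀ i, pd i (bw w i) x = ∑ j, (pd i (pd i (pd j w)) x * pd j w x +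
      pd i (pd j w) x ^ 2) := by
    intro i
    have e : bw w i = fun x => ∑ j, pd i (pd j w) x * pd j w x := rfl
    have hj : ∀ j, ContDiffAt ℝ ∞ (pd j w) x := fun j => contDiffAt_pd hw (by simp)
    have hij : ∀ j, ContDiffAt ℝ ∞ (pd i (pd j w)) x := fun j => contDiffAt_pd (hj j) (by simp)
    rw [e, pd_sum]
    · refine Finset.sum_congr rfl fun j _ => ?_
      rw [pd_mul ((hij j).differentiableAt (by simp)) ((hj j).differentiableAt (by simp))]
      ring
    · intro j _
      exact ((hij j).differentiableAt (by simp)).mul ((hj j).differentiableAt (by simp))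
  rw [Finset.sum_congr rfl fun i _ => h1 i]
  have h2 : ∑ i, ∑ j, (pd i (pd i (pd j w)) x * pd j w x + pd i (pd j w) x ^ 2) =
      (∑ j, (∑ i, pd i (pd i (pd j w)) x) * pd j w x) + ∑ i, ∑ j, pd i (pd j w) x ^ 2 := by
    simp only [Finset.sum_add_distrib, Finset.sum_mul]
    rw [Finset.sum_comm]
  rw [h2]
  have h3 : ∀ j, ∑ i, pd i (pd i (pd j w)) x = 0 := fun j =>
    sum_pd_pd_pd h.isOpen_pos (h.smooth.mono h.pos_sub) h.harm hx j
  simp [h3]

/-- pointwise identity for the divergence of the field -/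
theorem field_identity (h : SmoothCone u w U) {ζ g : Ed d → ℝ} (hζ : ContDiff ℝ ∞ ζ)
    (hg : ContDiffOn ℝ ∞ g U) {x : Ed d} (hx : x ∈ Pos u) :
    ∑ i, pd i (fun x => ζ x ^ 2 * (g x * (pd i g x - g x * bw w i x))) x =
      ∑ i, pd i (fun x => ζ x * g x) x ^ 2 -
        ((ζ x * g x) ^ 2 * (∑ i, ∑ j, pd i (pd j w) x ^ 2) +
          2 * (ζ x * g x) * ∑ i, ∑ j, pd i (fun x => ζ x * g x) x * pd i (pd j w) x * pd j w x) -
        (g x ^ 2 * ∑ i, pd i ζ x ^ 2 - ζ x ^ 2 * g x * lap g x) := by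
  have hxU : x ∈ U := h.pos_sub hx
  have hUn : U ∈ 𝓝 x := h.isOpen.mem_nhds hxU
  have hgx : ContDiffAt ℝ ∞ g x := hg.contDiffAt hUn
  have dg : DifferentiableAt ℝ g x := hgx.differentiableAt (by simp)
  have dζ : DifferentiableAt ℝ ζ x := hζ.differentiable (by simp) x
  have dpg : ∀ i, DifferentiableAt ℝ (pd i g) x := fun i =>
    (contDiffAt_pd (m := ∞) hgx (by simp)).differentiableAt (by simp)
  have db : ∀ i, DifferentiableAt ℝ (bw w i) x := fun i =>
    ((h.bw_smooth i).contDiffAt hUn).differentiableAt (by simp)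
  have h1 : ∀ i, pd i (fun x => ζ x ^ 2 * (g x * (pd i g x - g x * bw w i x))) x =
      2 * ζ x * pd i ζ x * (g x * (pd i g x - g x * bw w i x)) +
      ζ x ^ 2 * (pd i g x * (pd i g x - g x * bw w i x) + g x * (pd i (pd i g) x -
        (pd i g x * bw w i x + g x * pd i (bw w i) x))) := by
    intro i
    have d1 : DifferentiableAt ℝ (fun x => g x * bw w i x) x := dg.mul (db i)
    have d2 : DifferentiableAt ℝ (fun x => pd i g x - g x * bw w i x) x := (dpg i).sub d1
    have d3 : DifferentiableAt ℝ (fun x => g x * (pd i g x - g x * bw w i x)) x := dg.mul d2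
    have d4 : DifferentiableAt ℝ (fun x => ζ x ^ 2) x := dζ.pow 2
    rw [pd_mul d4 d3, pd_sq dζ, pd_mul dg d2, pd_sub (dpg i) d1, pd_mul dg (db i)]
  have h2 : ∀ i, pd i (fun x => ζ x * g x) x = pd i ζ x * g x + ζ x * pd i g x := fun i =>
    pd_mul dζ dg
  have h3 : ∑ i, ∑ j, pd i (fun x => ζ x * g x) x * pd i (pd j w) x * pd j w x =
      ∑ i, (pd i ζ x * g x + ζ x * pd i g x) * bw w i x := by
    refine Finset.sum_congr rfl fun i _ => ?_
    unfold bw
    rw [Finset.mul_sum]
    refine Finset.sum_congr rfl fun j _ => ?_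
    rw [h2 i]
    ring
  rw [h3, ← h.div_bw hx]
  unfold lap
  simp only [h1, h2, Finset.mul_sum]
  rw [← Finset.sum_add_distrib, ← Finset.sum_sub_distrib, ← Finset.sum_sub_distrib,
    ← Finset.sum_sub_distrib]
  refine Finset.sum_congr rfl fun i _ => ?_
  ring

theorem tsupport_mul_subset {f g : Ed d → ℝ} : tsupport (fun x => f x * g x) ⊆ tsupport f :=
  closure_mono fun x hx hf => hx (by
    change f x * g x = 0
    rw [hf, zero_mul])

theorem tsupport_pd_subset {f : Ed d → ℝ} (i : Fin d) : tsupport (pd i f) ⊆ tsupport f := by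
  refine closure_minimal ?_ (isClosed_tsupport f)
  intro x hx
  by_contra hx'
  exact hx (pd_eq_zero_of_notMem_tsupport hx')

/-- the stability inequality tested with `f_δ(E) ζ`, up to an error `O(δ)` -/
theorem stab_delta (h : SmoothCone u w U) (hst : Stab u w) (hE : Cert u w U E α c) (hc : 0 ≤ c)
    {ζ : Ed d → ℝ} (hζ : ContDiff ℝ ∞ ζ) (hζ0 : ∀ x, 0 ≤ ζ x) (hζs : HasCompactSupport ζ)
    (hζU : tsupport ζ ⊆ U \ {0}) :
    ∃ M : ℝ, ∀ δ : ℝ, 0 < δ →
      δ * M ≤ ∫ x in Pos u, ramp δ (E x) ^ 2 * (∑ i, pd i ζ x ^ 2 - c * (ζ x ^ 2 / ‖x‖ ^ 2)) := by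
  have hVo : IsOpen (U \ {(0 : Ed d)}) := h.isOpen.sdiff isClosed_singleton
  have hζU' : tsupport ζ ⊆ U := fun x hx => (hζU hx).1
  have hζ00 : (0 : Ed d) ∉ tsupport ζ := fun hx => (hζU hx).2 rfl
  obtain ⟨ρ, hρ, hρ0, -, hρs, hρV, W, -, hKW, hW1⟩ := exists_cutoff hζs.isCompact hVo hζU
  have hρ1 : ∀ x ∈ tsupport ζ, ρ x = 1 := fun x hx => hW1 x (hKW hx)
  -- the bound `B`
  have hQc : ContinuousOn (Qw w) U := by
    have e : Qw w = fun x => ∑ i, ∑ j, pd i w x * pd i (pd j w) x * pd j w x := rfl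
    rw [e]
    refine continuousOn_finsetSum _ fun i _ => continuousOn_finsetSum _ fun j _ => ?_
    exact (((h.contDiffOn_pdw i).continuousOn.mul (h.contDiffOn_pdpdw i j).continuousOn).mul
      (h.contDiffOn_pdw j).continuousOn)
  have hBc : ContinuousOn (fun x => ζ x ^ 2 * |E x| * |Qw w x|) (tsupport ζ) :=
    (((hζ.continuous.continuousOn).pow 2).mul ((hE.cont.mono hζU').abs)).mul
      ((hQc.mono hζU').abs)
  obtain ⟨B, hB⟩ := hζs.isCompact.exists_bound_of_continuousOn hBc
  have hB0 : ∀ x ∈ tsupport ζ, ζ x ^ 2 * |E x| * |Qw w x| ≤ |B| := by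
    intro x hx
    exact (le_abs_self _).trans ((Real.norm_eq_abs _ ▸ hB x hx).trans (le_abs_self B))
  have hVc : ∀ i, ContDiff ℝ 1 (fun x => ρ x * pd i w x) := by
    intro i
    have h1 : ContDiffOn ℝ ∞ (pd i w) (U \ {0}) := (h.contDiffOn_pdw i).mono Set.sdiff_subset
    exact (contDiff_cutoff_mul hVo hρ hρV h1).of_le (by simp)
  have hVs : ∀ i, HasCompactSupport (fun x => ρ x * pd i w x) := fun i => hρs.mul_right
  refine ⟨2 * |B| * ∫ x in Pos u, ∑ i, pd i (fun x => ρ x * pd i w x) x, fun δ hδ => ?_⟩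
  have hgs : ContDiffOn ℝ ∞ (fun y => ramp δ (E y)) U := Cert.ramp_smoothOn h hE hδ
  obtain ⟨g, hg⟩ : ∃ g, g = fun y => ramp δ (E y) := ⟨_, rfl⟩
  rw [← hg] at hgs
  have hgx : ∀ x, ramp δ (E x) = g x := fun x => by rw [hg]
  have hφ : ContDiff ℝ ∞ (fun x => ζ x * g x) := contDiff_cutoff_mul h.isOpen hζ hζU' hgs
  have hφs : HasCompactSupport (fun x => ζ x * g x) := hζs.mul_right
  have hφ0 : ∀ x, 0 ≤ ζ x * g x := fun x => mul_nonneg (hζ0 x) (by
    rw [← hgx]
    exact ramp_nonneg hδ _)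
  have hφ00 : (0 : Ed d) ∉ tsupport (fun x => ζ x * g x) := fun hx =>
    hζ00 (tsupport_mul_subset hx)
  have hS := hst (fun x => ζ x * g x) hφ hφ0 hφs hφ00
  -- the field
  have hfs : ∀ i, ContDiffOn ℝ ∞ (fun x => g x * (pd i g x - g x * bw w i x)) U := fun i =>
    hgs.mul ((contDiffOn_pd h.isOpen hgs (by simp)).sub (hgs.mul (h.bw_smooth i)))
  have hζ2s : tsupport (fun x => ζ x ^ 2) ⊆ tsupport ζ := by
    have e : (fun x => ζ x ^ 2) = fun x => ζ x * ζ x := by
      funext x
      ring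
    rw [e]
    exact tsupport_mul_subset
  have hGc : ∀ i, ContDiff ℝ 1 (fun x => ζ x ^ 2 * (g x * (pd i g x - g x * bw w i x))) := by
    intro i
    exact (contDiff_cutoff_mul h.isOpen (hζ.pow 2) (hζ2s.trans hζU') (hfs i)).of_le (by simp)
  have hζ2c : HasCompactSupport (fun x => ζ x ^ 2) :=
    hζs.isCompact.of_isClosed_subset (isClosed_tsupport _) hζ2s
  have hGs : ∀ i, HasCompactSupport
      (fun x => ζ x ^ 2 * (g x * (pd i g x - g x * bw w i x))) := fun i => hζ2c.mul_right
  -- boundary sign of the field plus a multiple of the reference field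
  have hdiv : ∫ x in Pos u, ∑ i, pd i (fun x => ζ x ^ 2 * (g x * (pd i g x - g x * bw w i x)) +
      (2 * δ * |B|) * (ρ x * pd i w x)) x ≤ 0 := by
    refine h.div_le_zero (fun i x => ζ x ^ 2 * (g x * (pd i g x - g x * bw w i x)) +
      (2 * δ * |B|) * (ρ x * pd i w x)) (fun i => ?_) (fun i => ?_) (fun i => ?_) ?_
    · exact (hGc i).add (contDiff_const.mul (hVc i))
    · exact (hGs i).add ((hVs i).mul_left)
    · intro hx
      have h1 : tsupport (fun x => ζ x ^ 2 * (g x * (pd i g x - g x * bw w i x)) +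
          (2 * δ * |B|) * (ρ x * pd i w x)) ⊆ tsupport ζ ∪ tsupport ρ := by
        refine closure_minimal ?_ ((isClosed_tsupport _).union (isClosed_tsupport _))
        intro x hx
        by_contra hx'
        rw [mem_union, not_or] at hx'
        apply hx
        change ζ x ^ 2 * (g x * (pd i g x - g x * bw w i x)) +
          (2 * δ * |B|) * (ρ x * pd i w x) = 0
        rw [image_eq_zero_of_notMem_tsupport hx'.1, image_eq_zero_of_notMem_tsupport hx'.2]
        ring
      rcases h1 hx with h2 | h2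
      · exact hζ00 h2
      · exact (hρV h2).2 rfl
    · intro x hx hx0
      have h1 : ∑ i, (ζ x ^ 2 * (g x * (pd i g x - g x * bw w i x)) +
          (2 * δ * |B|) * (ρ x * pd i w x)) * pd i w x =
          ζ x ^ 2 * (g x * (∑ i, pd i g x * pd i w x - g x * Qw w x)) +
          (2 * δ * |B|) * ρ x * ∑ i, pd i w x ^ 2 := by
        have e : Qw w x = ∑ i, bw w i x * pd i w x := by
          unfold Qw bw
          refine Finset.sum_congr rfl fun i _ => ?_
          rw [Finset.sum_mul]
          exact Finset.sum_congr rfl fun j _ => by ring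
        rw [e, Finset.mul_sum, ← Finset.sum_sub_distrib, Finset.mul_sum, Finset.mul_sum,
          Finset.mul_sum, ← Finset.sum_add_distrib]
        exact Finset.sum_congr rfl fun i _ => by ring
      rw [h1, h.grad x hx hx0, mul_one]
      by_cases hxt : x ∈ tsupport ζ
      · have h2 := Cert.ramp_bdry h hE hδ hx hx0
        rw [← hg, hgx] at h2
        have hg0 : 0 ≤ g x := by
          rw [← hgx]
          exact ramp_nonneg hδ _
        have hgE : g x ≤ |E x| := by
          rw [← hgx]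
          rcases le_total 0 (E x) with hE0 | hE0
          · exact (ramp_le hδ hE0).trans (le_abs_self _)
          · rw [ramp_zero hδ (hE0.trans hδ.le)]
            exact abs_nonneg _
        have h3 : ζ x ^ 2 * (g x * -(2 * δ * |Qw w x|)) ≤
            ζ x ^ 2 * (g x * (∑ i, pd i g x * pd i w x - g x * Qw w x)) :=
          mul_le_mul_of_nonneg_left (mul_le_mul_of_nonneg_left h2 hg0) (sq_nonneg _)
        have h4 : ζ x ^ 2 * (g x * |Qw w x|) ≤ |B| := by
          refine le_trans ?_ (hB0 x hxt)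
          rw [mul_assoc]
          exact mul_le_mul_of_nonneg_left (mul_le_mul_of_nonneg_right hgE (abs_nonneg _))
            (sq_nonneg _)
        have h5 : 2 * δ * (ζ x ^ 2 * (g x * |Qw w x|)) ≤ 2 * δ * |B| :=
          mul_le_mul_of_nonneg_left h4 (by positivity)
        rw [hρ1 x hxt]
        linarith
      · rw [image_eq_zero_of_notMem_tsupport hxt]
        have := hρ0 x
        have h2 : 0 ≤ 2 * δ * |B| * ρ x := by positivity
        linarith
  have hsplit : ∫ x in Pos u, ∑ i, pd i (fun x => ζ x ^ 2 *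
      (g x * (pd i g x - g x * bw w i x)) + (2 * δ * |B|) * (ρ x * pd i w x)) x =
      (∫ x in Pos u, ∑ i, pd i (fun x => ζ x ^ 2 * (g x * (pd i g x - g x * bw w i x))) x) +
        (2 * δ * |B|) * ∫ x in Pos u, ∑ i, pd i (fun x => ρ x * pd i w x) x := by
    rw [← integral_const_mul, ← integral_add (SmoothCone.integrable_div hGc hGs _)
      ((SmoothCone.integrable_div hVc hVs _).const_mul _)]
    refine setIntegral_congr_fun h.isOpen_pos.measurableSet fun x _ => ?_
    rw [Finset.mul_sum, ← Finset.sum_add_distrib]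
    refine Finset.sum_congr rfl fun i _ => ?_
    rw [pd_add ((hGc i).differentiable (by simp) x)
      ((((hVc i).differentiable (by simp)) x).const_mul _),
      pd_const_mul _ ((hVc i).differentiable (by simp) x)]
  rw [hsplit] at hdiv
  -- integrability
  have hpg : ∀ i, ContDiffOn ℝ ∞ (pd i g) U := fun i => contDiffOn_pd h.isOpen hgs (by simp)
  have hppg : ∀ i, ContDiffOn ℝ ∞ (pd i (pd i g)) U := fun i =>
    contDiffOn_pd h.isOpen (hpg i) (by simp)
  have hpζ : ∀ i, Continuous (pd i ζ) := fun i =>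
    (contDiff_pd (m := 0) hζ (by simp)).continuous
  have hpζ0 : ∀ x, x ∉ tsupport ζ → ∀ i, pd i ζ x = 0 := fun x hx i =>
    pd_eq_zero_of_notMem_tsupport hx
  have hφx0 : ∀ x, x ∉ tsupport ζ → ζ x = 0 := fun x hx => image_eq_zero_of_notMem_tsupport hx
  have hpφ0 : ∀ x, x ∉ tsupport ζ → ∀ i, pd i (fun x => ζ x * g x) x = 0 := fun x hx i =>
    pd_eq_zero_of_notMem_tsupport fun hx' => hx (tsupport_mul_subset hx')
  have hpφ : ∀ i, Continuous (pd i (fun x => ζ x * g x)) := fun i =>
    (contDiff_pd (m := 0) hφ (by simp)).continuous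
  have iA : Integrable (fun x => ∑ i, pd i (fun x => ζ x * g x) x ^ 2) volume := by
    refine integrable_of_continuousOn_compact hζs.isCompact ?_ ?_
    · exact (continuous_finsetSum _ fun i _ => (hpφ i).pow 2).continuousOn
    · intro x hx
      refine Finset.sum_eq_zero fun i _ => ?_
      rw [hpφ0 x hx i]
      ring
  have iS : Integrable (fun x => (ζ x * g x) ^ 2 * (∑ i, ∑ j, pd i (pd j w) x ^ 2) +
          2 * (ζ x * g x) * ∑ i, ∑ j, pd i (fun x => ζ x * g x) x * pd i (pd j w) x *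
            pd j w x) volume := by
    refine integrable_of_continuousOn_compact hζs.isCompact ?_ ?_
    · have c1 : ContinuousOn (fun x => ζ x * g x) (tsupport ζ) := hφ.continuous.continuousOn
      have c2 : ∀ i j, ContinuousOn (pd i (pd j w)) (tsupport ζ) := fun i j =>
        (h.contDiffOn_pdpdw i j).continuousOn.mono hζU'
      have c3 : ∀ j, ContinuousOn (pd j w) (tsupport ζ) := fun j =>
        (h.contDiffOn_pdw j).continuousOn.mono hζU'
      refine ((c1.pow 2).mul (continuousOn_finsetSum _ fun i _ =>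
        continuousOn_finsetSum _ fun j _ => (c2 i j).pow 2)).add
        ((continuousOn_const.mul c1).mul (continuousOn_finsetSum _ fun i _ =>
        continuousOn_finsetSum _ fun j _ => ?_))
      exact ((hpφ i).continuousOn.mul (c2 i j)).mul (c3 j)
    · intro x hx
      rw [hφx0 x hx]
      ring
  have iF : Integrable (fun x => g x ^ 2 * ∑ i, pd i ζ x ^ 2 - ζ x ^ 2 * g x * lap g x)
      volume := by
    refine integrable_of_continuousOn_compact hζs.isCompact ?_ ?_
    · have c1 : ContinuousOn g (tsupport ζ) := hgs.continuousOn.mono hζU'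
      have c2 : ContinuousOn (lap g) (tsupport ζ) := by
        have e : lap g = fun x => ∑ i, pd i (pd i g) x := rfl
        rw [e]
        exact continuousOn_finsetSum _ fun i _ => (hppg i).continuousOn.mono hζU'
      exact ((c1.pow 2).mul (continuousOn_finsetSum _ fun i _ =>
        ((hpζ i).continuousOn).pow 2)).sub ((((hζ.continuous.continuousOn).pow 2).mul c1).mul c2)
    · intro x hx
      rw [hφx0 x hx]
      simp [hpζ0 x hx]
  have iR : Integrable (fun x => g x ^ 2 * (∑ i, pd i ζ x ^ 2 - c * (ζ x ^ 2 / ‖x‖ ^ 2)))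
      volume := by
    refine integrable_of_continuousOn_compact hζs.isCompact ?_ ?_
    · have c1 : ContinuousOn g (tsupport ζ) := hgs.continuousOn.mono hζU'
      refine (c1.pow 2).mul ((continuousOn_finsetSum _ fun i _ =>
        ((hpζ i).continuousOn).pow 2).sub (continuousOn_const.mul
        (((hζ.continuous.continuousOn).pow 2).div (continuous_norm.continuousOn.pow 2) ?_)))
      intro x hx
      have hx0 : x ≠ 0 := fun e => hζ00 (e ▸ hx)
      have : ‖x‖ ≠ 0 := norm_ne_zero_iff.2 hx0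
      positivity
    · intro x hx
      rw [hφx0 x hx]
      simp [hpζ0 x hx]
  -- the identity integrated
  have hid : ∫ x in Pos u, ∑ i, pd i (fun x => ζ x ^ 2 * (g x * (pd i g x - g x * bw w i x))) x =
      (∫ x in Pos u, ∑ i, pd i (fun x => ζ x * g x) x ^ 2) -
      (∫ x in Pos u, ((ζ x * g x) ^ 2 * (∑ i, ∑ j, pd i (pd j w) x ^ 2) +
          2 * (ζ x * g x) * ∑ i, ∑ j, pd i (fun x => ζ x * g x) x * pd i (pd j w) x *
            pd j w x)) -
      ∫ x in Pos u, (g x ^ 2 * ∑ i, pd i ζ x ^ 2 - ζ x ^ 2 * g x * lap g x) := by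
    have iAS : Integrable (fun x => (∑ i, pd i (fun x => ζ x * g x) x ^ 2) -
        ((ζ x * g x) ^ 2 * (∑ i, ∑ j, pd i (pd j w) x ^ 2) +
          2 * (ζ x * g x) * ∑ i, ∑ j, pd i (fun x => ζ x * g x) x * pd i (pd j w) x *
            pd j w x)) volume := iA.sub iS
    rw [← integral_sub iA.integrableOn iS.integrableOn,
      ← integral_sub iAS.integrableOn iF.integrableOn]
    refine setIntegral_congr_fun h.isOpen_pos.measurableSet fun x hx => ?_
    exact field_identity h hζ hgs hx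
  have hmono : ∫ x in Pos u, (g x ^ 2 * ∑ i, pd i ζ x ^ 2 - ζ x ^ 2 * g x * lap g x) ≤
      ∫ x in Pos u, g x ^ 2 * (∑ i, pd i ζ x ^ 2 - c * (ζ x ^ 2 / ‖x‖ ^ 2)) := by
    refine setIntegral_mono_on iF.integrableOn iR.integrableOn h.isOpen_pos.measurableSet
      fun x hx => ?_
    have h1 := Cert.ramp_int h hE hc hδ hx
    rw [← hg, hgx] at h1
    have hx0 : 0 < ‖x‖ := norm_pos_iff.2 (h.ne_zero hx)
    have hg0 : 0 ≤ g x := by
      rw [← hgx]
      exact ramp_nonneg hδ _
    have h2 : c * g x / ‖x‖ ^ 2 ≤ lap g x := by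
      rw [div_le_iff₀ (by positivity)]
      linarith
    have h3 : ζ x ^ 2 * g x * (c * g x / ‖x‖ ^ 2) ≤ ζ x ^ 2 * g x * lap g x :=
      mul_le_mul_of_nonneg_left h2 (by positivity)
    have h4 : ζ x ^ 2 * g x * (c * g x / ‖x‖ ^ 2) = g x ^ 2 * (c * (ζ x ^ 2 / ‖x‖ ^ 2)) := by
      ring
    linarith
  simp only [hgx]
  linarith

end

end Vale.Agent.P098
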