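import Vale.Agent.Lib.P098.Var.PairInt
import Vale.Agent.Lib.P098.Var.Test

/-!
# P098: pair certificates vanish on stable cones
-/

open MeasureTheory Set Filter Topology
open scoped ContDiff

namespace Vale.Agent.P098

section

variable {d : ℕ} {u w E : Ed d → ℝ} {U : Set (Ed d)} {Z : Fin d → Ed d → ℝ} {α γ : ℝ}

/-- level `δ`: `∫ div(ζ² μ Z) ≤ ∫ |∇(ζ κ)|²` -/
theorem pair_delta (h : SmoothCone u w U) (hst : Stab u w) (hE : PairCert u w U E Z α γ)
    {ζ : Ed d → ℝ} (hζ : ContDiff ℝ ∞ ζ) (hζ0 : ∀ x, 0 ≤ ζ x) (hζs : HasCompactSupport ζ)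
    (hζU : tsupport ζ ⊆ U \ {0}) {δ : ℝ} (hδ : 0 < δ) :
    ∫ x in Pos u, ∑ i, pd i (fun x => ζ x ^ 2 * (mud δ (E x) * Z i x)) x ≤
      ∫ x in Pos u, ∑ i, pd i (fun x => ζ x * kap δ (E x)) x ^ 2 := by
  have hζU' : tsupport ζ ⊆ U := fun x hx => (hζU hx).1
  have hζ00 : (0 : Ed d) ∉ tsupport ζ := fun hx => (hζU hx).2 rfl
  have hgs : ContDiffOn ℝ ∞ (fun x => kap δ (E x)) U := PairCert.kap_smooth h hE hδ
  obtain ⟨g, hg⟩ : ∃ g, g = fun x => kap δ (E x) := ⟨_, rfl⟩
  have hgx : ∀ x, kap δ (E x) = g x := fun x => by rw [hg]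
  rw [← hg] at hgs
  simp only [hgx]
  have hZs : ∀ i, ContDiffOn ℝ ∞ (fun x => mud δ (E x) * Z i x) U := fun i =>
    PairCert.mud_smooth h hE hδ i
  have hφ : ContDiff ℝ ∞ (fun x => ζ x * g x) := contDiff_cutoff_mul h.isOpen hζ hζU' hgs
  have hφs : HasCompactSupport (fun x => ζ x * g x) := hζs.mul_right
  have hφ0 : ∀ x, 0 ≤ ζ x * g x := fun x => mul_nonneg (hζ0 x) (by
    rw [← hgx]
    exact kap_nonneg _ _)
  have hφ00 : (0 : Ed d) ∉ tsupport (fun x => ζ x * g x) := fun hx =>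
    hζ00 (tsupport_mul_subset hx)
  have hS := hst (fun x => ζ x * g x) hφ hφ0 hφs hφ00
  have hζ2s : tsupport (fun x => ζ x ^ 2) ⊆ tsupport ζ := by
    have e : (fun x => ζ x ^ 2) = fun x => ζ x * ζ x := by
      funext x
      ring
    rw [e]
    exact tsupport_mul_subset
  have hζ2c : HasCompactSupport (fun x => ζ x ^ 2) :=
    hζs.isCompact.of_isClosed_subset (isClosed_tsupport _) hζ2s
  have hG1c : ∀ i, ContDiff ℝ 1 (fun x => ζ x ^ 2 * (mud δ (E x) * Z i x)) := fun i =>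
    (contDiff_cutoff_mul h.isOpen (hζ.pow 2) (hζ2s.trans hζU') (hZs i)).of_le (by simp)
  have hG2c : ∀ i, ContDiff ℝ 1 (fun x => ζ x ^ 2 * (g x ^ 2 * bw w i x)) := fun i =>
    (contDiff_cutoff_mul h.isOpen (hζ.pow 2) (hζ2s.trans hζU')
      ((hgs.pow 2).mul (h.bw_smooth i))).of_le (by simp)
  have hG1s : ∀ i, HasCompactSupport (fun x => ζ x ^ 2 * (mud δ (E x) * Z i x)) := fun i =>
    hζ2c.mul_right
  have hG2s : ∀ i, HasCompactSupport (fun x => ζ x ^ 2 * (g x ^ 2 * bw w i x)) := fun i =>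
    hζ2c.mul_right
  have hdiv : ∫ x in Pos u, ∑ i, pd i (fun x => ζ x ^ 2 * (mud δ (E x) * Z i x) -
      ζ x ^ 2 * (g x ^ 2 * bw w i x)) x ≤ 0 := by
    refine h.div_le_zero (fun i x => ζ x ^ 2 * (mud δ (E x) * Z i x) -
      ζ x ^ 2 * (g x ^ 2 * bw w i x)) (fun i => (hG1c i).sub (hG2c i))
      (fun i => (hG1s i).sub (hG2s i)) (fun i => ?_) ?_
    · intro hx
      have h1 : tsupport (fun x => ζ x ^ 2 * (mud δ (E x) * Z i x) -
          ζ x ^ 2 * (g x ^ 2 * bw w i x)) ⊆ tsupport ζ := by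
        refine closure_minimal ?_ (isClosed_tsupport _)
        intro y hy
        by_contra hy'
        apply hy
        change ζ y ^ 2 * (mud δ (E y) * Z i y) - ζ y ^ 2 * (g y ^ 2 * bw w i y) = 0
        rw [image_eq_zero_of_notMem_tsupport hy']
        ring
      exact hζ00 (h1 hx)
    · intro x hx hx0
      have h1 : ∑ i, (ζ x ^ 2 * (mud δ (E x) * Z i x) - ζ x ^ 2 * (g x ^ 2 * bw w i x)) *
          pd i w x = ζ x ^ 2 * (mud δ (E x) * (∑ i, Z i x * pd i w x) - g x ^ 2 * Qw w x) := by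
        have e : Qw w x = ∑ i, bw w i x * pd i w x := by
          unfold Qw bw
          refine Finset.sum_congr rfl fun i _ => ?_
          rw [Finset.sum_mul]
          exact Finset.sum_congr rfl fun j _ => by ring
        rw [e, Finset.mul_sum, Finset.mul_sum, ← Finset.sum_sub_distrib, Finset.mul_sum]
        exact Finset.sum_congr rfl fun i _ => by ring
      rw [h1]
      apply mul_nonneg (sq_nonneg _)
      by_cases hp : 0 < E x
      · rw [← hgx, kap_sq hp.le]
        have h2 := mul_le_mul_of_nonneg_left (hE.bdry x hx hx0 hp)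
          (sq_nonneg (chi (Real.sqrt (E x) / δ)))
        have h3 : mud δ (E x) = chi (Real.sqrt (E x) / δ) ^ 2 := rfl
        rw [h3]
        linarith
      · have hlt : E x < δ ^ 2 := lt_of_le_of_lt (not_lt.1 hp) (by positivity)
        rw [← hgx, kap_zero hδ hlt, mud_zero hδ hlt]
        simp
  -- integrability
  have iA : Integrable (fun x => ∑ i, pd i (fun x => ζ x * g x) x ^ 2) volume := by
    refine integrable_of_continuousOn_compact hζs.isCompact ?_ ?_
    · exact (continuous_finsetSum _ fun i _ =>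
        ((contDiff_pd (m := 0) hφ (by simp)).continuous).pow 2).continuousOn
    · intro x hx
      refine Finset.sum_eq_zero fun i _ => ?_
      have h1 : pd i (fun x => ζ x * g x) x = 0 :=
        pd_eq_zero_of_notMem_tsupport fun hx' => hx (tsupport_mul_subset hx')
      rw [h1]
      ring
  have i1 := SmoothCone.integrable_div hG1c hG1s (Pos u)
  have i2 := SmoothCone.integrable_div hG2c hG2s (Pos u)
  have hsplit : ∫ x in Pos u, ∑ i, pd i (fun x => ζ x ^ 2 * (mud δ (E x) * Z i x) -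
      ζ x ^ 2 * (g x ^ 2 * bw w i x)) x =
      (∫ x in Pos u, ∑ i, pd i (fun x => ζ x ^ 2 * (mud δ (E x) * Z i x)) x) -
      ∫ x in Pos u, ∑ i, pd i (fun x => ζ x ^ 2 * (g x ^ 2 * bw w i x)) x := by
    rw [← integral_sub i1 i2]
    refine setIntegral_congr_fun h.isOpen_pos.measurableSet fun x _ => ?_
    change _ = (∑ i, pd i (fun x => ζ x ^ 2 * (mud δ (E x) * Z i x)) x) -
      ∑ i, pd i (fun x => ζ x ^ 2 * (g x ^ 2 * bw w i x)) x
    rw [← Finset.sum_sub_distrib]
    refine Finset.sum_congr rfl fun i _ => ?_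
    exact pd_sub ((hG1c i).differentiable (by simp) x) ((hG2c i).differentiable (by simp) x)
  -- the second field
  have hsec : ∫ x in Pos u, ∑ i, pd i (fun x => ζ x ^ 2 * (g x ^ 2 * bw w i x)) x =
      ∫ x in Pos u, ((ζ x * g x) ^ 2 * (∑ i, ∑ j, pd i (pd j w) x ^ 2) +
          2 * (ζ x * g x) * ∑ i, ∑ j, pd i (fun x => ζ x * g x) x * pd i (pd j w) x *
            pd j w x) := by
    refine setIntegral_congr_fun h.isOpen_pos.measurableSet fun x hx => ?_
    have hxU : x ∈ U := h.pos_sub hx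
    have hUn : U ∈ 𝓝 x := h.isOpen.mem_nhds hxU
    have dφ : DifferentiableAt ℝ (fun x => ζ x * g x) x := hφ.differentiable (by simp) x
    have db : ∀ i, DifferentiableAt ℝ (bw w i) x := fun i =>
      ((h.bw_smooth i).contDiffAt hUn).differentiableAt (by simp)
    have e1 : ∀ i, (fun x => ζ x ^ 2 * (g x ^ 2 * bw w i x)) =
        fun x => (ζ x * g x) ^ 2 * bw w i x := by
      intro i
      funext y
      ring
    have e2 : ∀ i, pd i (fun x => ζ x ^ 2 * (g x ^ 2 * bw w i x)) x =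
        2 * (ζ x * g x) * pd i (fun x => ζ x * g x) x * bw w i x +
          (ζ x * g x) ^ 2 * pd i (bw w i) x := by
      intro i
      have d1 : DifferentiableAt ℝ (fun x => (ζ x * g x) ^ 2) x := dφ.pow 2
      rw [e1 i, pd_mul d1 (db i), pd_sq dφ]
    change ∑ i, pd i (fun x => ζ x ^ 2 * (g x ^ 2 * bw w i x)) x = _
    rw [Finset.sum_congr rfl fun i _ => e2 i, Finset.sum_add_distrib, ← Finset.mul_sum,
      h.div_bw hx, add_comm]
    congr 1
    rw [Finset.mul_sum]
    refine Finset.sum_congr rfl fun i _ => ?_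
    unfold bw
    rw [Finset.mul_sum, Finset.mul_sum]
    exact Finset.sum_congr rfl fun j _ => by ring
  rw [hsplit, hsec] at hdiv
  linarith

end

end Vale.Agent.P098
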