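import Vale.Agent.Lib.P098.Var.Hardy
import Vale.Agent.Lib.P098.Var.PairMain

/-!
# P098: pair certificates vanish on stable cones, conclusion
-/

open MeasureTheory Set Filter Topology
open scoped ContDiff

namespace Vale.Agent.P098

section

variable {d : ℕ} {u w E : Ed d → ℝ} {U : Set (Ed d)} {Z : Fin d → Ed d → ℝ} {α γ : ℝ}

/-- the limit inequality for radial-type cutoffs supported in `U` -/
theorem pair_limit (h : SmoothCone u w U) (hst : Stab u w) (hE : PairCert u w U E Z α γ)
    {ζ : Ed d → ℝ} (hζ : ContDiff ℝ ∞ ζ) (hζ0 : ∀ x, 0 ≤ ζ x) (hζs : HasCompactSupport ζ)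
    (hζU : tsupport ζ ⊆ U \ {0}) {q : Ed d → ℝ} (hqc : ContinuousOn q (tsupport ζ))
    (hq : ∀ x ∈ Pos u, ∀ i, pd i ζ x = q x * x i) :
    ∫ x in Pos u, E x * (γ * (ζ x ^ 2 / ‖x‖ ^ 2) - ∑ i, pd i ζ x ^ 2) ≤ 0 := by
  have hζU' : tsupport ζ ⊆ U := fun x hx => (hζU hx).1
  have hζ00 : (0 : Ed d) ∉ tsupport ζ := fun hx => (hζU hx).2 rfl
  obtain ⟨M, hM0, hM⟩ := chiom_bound
  obtain ⟨J, hJi, hJ⟩ := hE.integ (tsupport ζ) hζs.isCompact hζ00
  have hKm : MeasurableSet (tsupport ζ) := hζs.isCompact.measurableSet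
  have hPm : MeasurableSet (Pos u) := h.isOpen_pos.measurableSet
  have hφx0 : ∀ x, x ∉ tsupport ζ → ζ x = 0 := fun x hx => image_eq_zero_of_notMem_tsupport hx
  have hpζ : ∀ i, Continuous (pd i ζ) := fun i =>
    (contDiff_pd (m := 0) hζ (by simp)).continuous
  have hpζ0 : ∀ x, x ∉ tsupport ζ → ∀ i, pd i ζ x = 0 := fun x hx i =>
    pd_eq_zero_of_notMem_tsupport hx
  -- the majorant
  obtain ⟨J1, hJ1⟩ : ∃ J1 : Ed d → ℝ, J1 = (Pos u ∩ tsupport ζ).indicator J := ⟨_, rfl⟩
  have hJ1i : Integrable J1 volume := by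
    rw [hJ1]
    exact (integrable_indicator_iff (hPm.inter hKm)).2 hJi
  obtain ⟨J2, hJ2⟩ : ∃ J2 : Ed d → ℝ, J2 = fun x => 2 * |α| * M * ζ x * |q x| * |E x| +
      ζ x ^ 2 * (M + M ^ 2) * J1 x := ⟨_, rfl⟩
  have hJ2i : Integrable J2 volume := by
    rw [hJ2]
    refine Integrable.add ?_ ?_
    · refine integrable_of_continuousOn_compact hζs.isCompact ?_ ?_
      · exact ((continuousOn_const.mul hζ.continuous.continuousOn).mul hqc.abs).mul
          ((hE.cont.mono hζU').abs)
      · intro x hx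
        rw [hφx0 x hx]
        ring
    · obtain ⟨B, hB⟩ := hζs.exists_bound_of_continuous hζ.continuous
      refine hJ1i.bdd_mul (c := B ^ 2 * (M + M ^ 2))
        ((hζ.continuous.pow 2).mul continuous_const).aestronglyMeasurable
        (Eventually.of_forall fun x => ?_)
      have hMM : 0 ≤ M + M ^ 2 := by positivity
      rw [norm_mul, norm_pow, Real.norm_of_nonneg hMM]
      exact mul_le_mul_of_nonneg_right (pow_le_pow_left₀ (norm_nonneg _) (hB x) 2) hMM
  -- the main term
  obtain ⟨G, hG⟩ : ∃ G : Ed d → ℝ, G = fun x => E x * (γ * (ζ x ^ 2 / ‖x‖ ^ 2) -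
      ∑ i, pd i ζ x ^ 2) := ⟨_, rfl⟩
  have hGc : ContinuousOn G (tsupport ζ) := by
    rw [hG]
    refine (hE.cont.mono hζU').mul ((continuousOn_const.mul
      (((hζ.continuous.continuousOn).pow 2).div (continuous_norm.continuousOn.pow 2) ?_)).sub
      (continuousOn_finsetSum _ fun i _ => ((hpζ i).continuousOn).pow 2))
    intro x hx
    have hx0 : x ≠ 0 := fun e => hζ00 (e ▸ hx)
    exact pow_ne_zero 2 (norm_ne_zero_iff.2 hx0)
  have hG0 : ∀ x, x ∉ tsupport ζ → G x = 0 := by
    intro x hx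
    rw [hG]
    simp [hpζ0 x hx, hφx0 x hx]
  have hGx : ∀ x, E x * (γ * (ζ x ^ 2 / ‖x‖ ^ 2) - ∑ i, pd i ζ x ^ 2) = G x := fun x => by
    rw [hG]
  have hGi : Integrable G volume := integrable_of_continuousOn_compact hζs.isCompact hGc hG0
  simp only [hGx]
  have hS : ∀ δ : ℝ, MeasurableSet
      (Pos u ∩ {y | δ < Real.sqrt (E y) ∧ Real.sqrt (E y) < 2 * δ}) := by
    intro δ
    have hc : ContinuousOn (fun y => Real.sqrt (E y)) (Pos u) :=
      Real.continuous_sqrt.comp_continuousOn (hE.cont.mono h.pos_sub)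
    have h1 := hc.isOpen_inter_preimage h.isOpen_pos (isOpen_Ioo (a := δ) (b := 2 * δ))
    exact h1.measurableSet
  -- inequality at level `δ`
  have hlev : ∀ δ : ℝ, 0 < δ → ∫ x in Pos u, mud δ (E x) * G x ≤
      ∫ x in Pos u, (Pos u ∩ {y | δ < Real.sqrt (E y) ∧
        Real.sqrt (E y) < 2 * δ}).indicator J2 x := by
    intro δ hδ
    have hmain := pair_delta h hst hE hζ hζ0 hζs hζU hδ
    have hZs : ∀ i, ContDiffOn ℝ ∞ (fun x => mud δ (E x) * Z i x) U := fun i =>
      PairCert.mud_smooth h hE hδ i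
    have hgs : ContDiffOn ℝ ∞ (fun x => kap δ (E x)) U := PairCert.kap_smooth h hE hδ
    have hφ : ContDiff ℝ ∞ (fun x => ζ x * kap δ (E x)) :=
      contDiff_cutoff_mul h.isOpen hζ hζU' hgs
    have hζ2s : tsupport (fun x => ζ x ^ 2) ⊆ tsupport ζ := by
      have e : (fun x => ζ x ^ 2) = fun x => ζ x * ζ x := by
        funext x
        ring
      rw [e]
      exact tsupport_mul_subset
    have hζ2c : HasCompactSupport (fun x => ζ x ^ 2) :=
      hζs.isCompact.of_isClosed_subset (isClosed_tsupport _) hζ2s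
    have hG1c : ∀ i, ContDiff ℝ 1 (fun x => ζ x ^ 2 * (mud δ (E x) * Z i x)) := fun i =>
      (contDiff_cutoff_mul h.isOpen (hζ.pow 2) (hζ2s.trans hζU') (hZs i)).of_le (by simp)
    have hG1s : ∀ i, HasCompactSupport (fun x => ζ x ^ 2 * (mud δ (E x) * Z i x)) := fun i =>
      hζ2c.mul_right
    have i1 := SmoothCone.integrable_div hG1c hG1s (Pos u)
    have iA : Integrable (fun x => ∑ i, pd i (fun x => ζ x * kap δ (E x)) x ^ 2) volume := by
      refine integrable_of_continuousOn_compact hζs.isCompact ?_ ?_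
      · exact (continuous_finsetSum _ fun i _ =>
          ((contDiff_pd (m := 0) hφ (by simp)).continuous).pow 2).continuousOn
      · intro x hx
        refine Finset.sum_eq_zero fun i _ => ?_
        have h1 : pd i (fun x => ζ x * kap δ (E x)) x = 0 :=
          pd_eq_zero_of_notMem_tsupport fun hx' => hx (tsupport_mul_subset hx')
        rw [h1]
        ring
    have hmudc : ContinuousOn (fun x => mud δ (E x)) U :=
      (mud_contDiff hδ).continuous.comp_continuousOn hE.cont
    have iF : Integrable (fun x => mud δ (E x) * G x) volume := by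
      refine integrable_of_continuousOn_compact hζs.isCompact
        ((hmudc.mono hζU').mul hGc) fun x hx => ?_
      rw [hG0 x hx, mul_zero]
    have iJ : Integrable ((Pos u ∩ {y | δ < Real.sqrt (E y) ∧
        Real.sqrt (E y) < 2 * δ}).indicator J2) volume := hJ2i.indicator (hS δ)
    have hmono : ∫ x in Pos u, (mud δ (E x) * G x - (Pos u ∩ {y | δ < Real.sqrt (E y) ∧
        Real.sqrt (E y) < 2 * δ}).indicator J2 x) ≤
        ∫ x in Pos u, ((∑ i, pd i (fun x => ζ x ^ 2 * (mud δ (E x) * Z i x)) x) -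
          ∑ i, pd i (fun x => ζ x * kap δ (E x)) x ^ 2) := by
      refine setIntegral_mono_on (iF.integrableOn.sub iJ.integrableOn)
        (i1.sub iA.integrableOn) hPm fun x hx => ?_
      have hpt := PairCert.pointwise h hE hδ hM0 hM hζ hζ0 hx (q := q x)
        (J := open scoped Classical in if x ∈ tsupport ζ then J x else
          (∑ i, pd i E x ^ 2) / E x + |∑ i, pd i E x * Z i x| / E x) (hq x hx)
        (fun hp => by
          by_cases hxK : x ∈ tsupport ζ
          · rw [if_pos hxK]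
            exact hJ x ⟨hx, hxK⟩ hp
          · rw [if_neg hxK])
      refine le_trans (le_of_eq ?_) hpt
      rw [hGx]
      congr 1
      by_cases hm : x ∈ {y | δ < Real.sqrt (E y) ∧ Real.sqrt (E y) < 2 * δ}
      · have hm2 : x ∈ Pos u ∩ {y | δ < Real.sqrt (E y) ∧ Real.sqrt (E y) < 2 * δ} := ⟨hx, hm⟩
        rw [Set.indicator_of_mem hm2, Set.indicator_of_mem hm, hJ2, hJ1]
        by_cases hxK : x ∈ tsupport ζ
        · have hm3 : x ∈ Pos u ∩ tsupport ζ := ⟨hx, hxK⟩
          simp only [Set.indicator_of_mem hm3, if_pos hxK]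
        · simp only [hφx0 x hxK]
          ring
      · have hm2 : x ∉ Pos u ∩ {y | δ < Real.sqrt (E y) ∧ Real.sqrt (E y) < 2 * δ} :=
          fun hm' => hm hm'.2
        rw [Set.indicator_of_notMem hm, Set.indicator_of_notMem hm2]
    rw [integral_sub iF.integrableOn iJ.integrableOn, integral_sub i1 iA.integrableOn] at hmono
    linarith
  -- limits
  have hlim1 : Tendsto (fun n : ℕ => ∫ x in Pos u, mud (1 / ((n : ℝ) + 1)) (E x) * G x) atTop
      (𝓝 (∫ x in Pos u, G x)) := by
    refine tendsto_integral_of_dominated_convergence (fun x => |G x|) ?_ ?_ ?_ ?_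
    · intro n
      have hδ : (0 : ℝ) < 1 / ((n : ℝ) + 1) := by positivity
      have hmudc : ContinuousOn (fun x => mud (1 / ((n : ℝ) + 1)) (E x)) U :=
        (mud_contDiff hδ).continuous.comp_continuousOn hE.cont
      have iF : Integrable (fun x => mud (1 / ((n : ℝ) + 1)) (E x) * G x) volume := by
        refine integrable_of_continuousOn_compact hζs.isCompact
          ((hmudc.mono hζU').mul hGc) fun x hx => ?_
        rw [hG0 x hx, mul_zero]
      exact iF.integrableOn.aestronglyMeasurable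
    · exact hGi.abs.integrableOn
    · intro n
      refine Eventually.of_forall fun x => ?_
      rw [norm_mul, Real.norm_eq_abs, Real.norm_eq_abs]
      unfold mud
      rw [abs_of_nonneg (sq_nonneg _)]
      refine mul_le_of_le_one_left (abs_nonneg _) ?_
      exact pow_le_one₀ (chi_nonneg _) (chi_le_one _)
    · refine (ae_restrict_iff' hPm).2 (Eventually.of_forall fun x hx => ?_)
      by_cases hp : 0 < E x
      · have hsq : 0 < Real.sqrt (E x) := Real.sqrt_pos.2 hp
        obtain ⟨N, hN⟩ := exists_nat_gt (2 / Real.sqrt (E x))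
        refine tendsto_const_nhds.congr' ?_
        filter_upwards [eventually_ge_atTop N] with n hn
        have h1 : (2 : ℝ) ≤ Real.sqrt (E x) / (1 / ((n : ℝ) + 1)) := by
          rw [div_div_eq_mul_div, div_one]
          have h2 : 2 / Real.sqrt (E x) < (n : ℝ) + 1 := by
            have : (N : ℝ) ≤ n := by exact_mod_cast hn
            linarith
          rw [div_lt_iff₀ hsq] at h2
          linarith
        unfold mud
        rw [chi_one h1]
        norm_num
      · have hE0 : E x = 0 := le_antisymm (not_lt.1 hp) (hE.nonneg x hx)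
        have hGx0 : G x = 0 := by
          rw [hG]
          change E x * _ = 0
          rw [hE0, zero_mul]
        simp only [hGx0, mul_zero]
        exact tendsto_const_nhds
  have hlim2 : Tendsto (fun n : ℕ => ∫ x in Pos u, (Pos u ∩ {y | 1 / ((n : ℝ) + 1) <
      Real.sqrt (E y) ∧ Real.sqrt (E y) < 2 * (1 / ((n : ℝ) + 1))}).indicator J2 x) atTop
      (𝓝 (∫ x in Pos u, (0 : ℝ))) := by
    refine tendsto_integral_of_dominated_convergence (fun x => |J2 x|) ?_ ?_ ?_ ?_
    · intro n
      exact (hJ2i.indicator (hS _)).integrableOn.aestronglyMeasurable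
    · exact hJ2i.abs.integrableOn
    · intro n
      refine Eventually.of_forall fun x => ?_
      exact norm_indicator_le_norm_self _ _
    · refine (ae_restrict_iff' hPm).2 (Eventually.of_forall fun x hx => ?_)
      by_cases hp : 0 < E x
      · have hsq : 0 < Real.sqrt (E x) := Real.sqrt_pos.2 hp
        obtain ⟨N, hN⟩ := exists_nat_gt (2 / Real.sqrt (E x))
        refine tendsto_const_nhds.congr' ?_
        filter_upwards [eventually_ge_atTop N] with n hn
        refine (Set.indicator_of_notMem ?_ _).symm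
        rintro ⟨-, -, h1⟩
        have h2 : 2 / Real.sqrt (E x) < (n : ℝ) + 1 := by
          have : (N : ℝ) ≤ n := by exact_mod_cast hn
          linarith
        rw [div_lt_iff₀ hsq] at h2
        rw [mul_one_div, lt_div_iff₀ (by positivity)] at h1
        linarith
      · refine tendsto_const_nhds.congr' (Eventually.of_forall fun n => ?_)
        refine (Set.indicator_of_notMem ?_ _).symm
        rintro ⟨-, h1, -⟩
        rw [Real.sqrt_eq_zero_of_nonpos (not_lt.1 hp)] at h1
        have h2 : (0 : ℝ) < 1 / ((n : ℝ) + 1) := by positivity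
        linarith
  rw [integral_zero] at hlim2
  exact le_of_tendsto_of_tendsto' hlim1 hlim2 fun n => hlev _ (by positivity)

/-- **Vanishing theorem for pair certificates.** -/
theorem pair_vanish (h : SmoothCone u w U) (hst : Stab u w) (hE : PairCert u w U E Z α γ)
    (hγ : (((d : ℝ) - 2) / 2 - α) ^ 2 < γ) : ∀ x ∈ Pos u, E x = 0 := by
  refine hardy_vanish h hE.cont hE.nonneg hE.hom (fun ψ hψ hψs hψ0 => ?_) hγ
  have hz : ContDiff ℝ ∞ (radz ψ : Ed d → ℝ) := radz_contDiff hψ hψs
  have hzs : HasCompactSupport (radz ψ : Ed d → ℝ) := radz_compact hψs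
  have hz0 : ∀ x : Ed d, 0 ≤ radz ψ x := by
    intro x
    by_cases hx : x = 0
    · unfold radz
      rw [if_pos hx]
    · rw [radz_apply ψ hx]
      exact hψ0 _
  have h00 := radz_zero_notMem (d := d) hψs
  have hKc : IsCompact (closure (Pos u) ∩ tsupport (radz ψ : Ed d → ℝ)) :=
    hzs.isCompact.inter_left isClosed_closure
  have hVo : IsOpen (U \ {(0 : Ed d)}) := h.isOpen.sdiff isClosed_singleton
  have hKV : closure (Pos u) ∩ tsupport (radz ψ : Ed d → ℝ) ⊆ U \ {0} := by
    rintro x ⟨hx1, hx2⟩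
    have hx0 : x ≠ 0 := fun e => h00 (e ▸ hx2)
    exact ⟨h.sub ⟨hx1, hx0⟩, hx0⟩
  obtain ⟨ρ, hρ, hρ0, -, hρs, hρV, W, hW, hKW, hW1⟩ := exists_cutoff hKc hVo hKV
  have hηU : tsupport (fun x => ρ x * radz ψ x) ⊆ U \ {0} := tsupport_mul_subset.trans hρV
  have hev : ∀ x ∈ Pos u, (fun x => ρ x * radz ψ x) =ᶠ[𝓝 x] radz ψ := by
    intro x hx
    by_cases hxt : x ∈ tsupport (radz ψ : Ed d → ℝ)
    · filter_upwards [hW.mem_nhds (hKW ⟨subset_closure hx, hxt⟩)] with y hy
      rw [hW1 y hy, one_mul]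
    · filter_upwards [notMem_tsupport_iff_eventuallyEq.1 hxt] with y hy
      rw [hy]
      simp
  have key := pair_limit h hst hE (hρ.mul hz) (fun x => mul_nonneg (hρ0 x) (hz0 x))
    (hρs.mul_right) hηU (q := fun x => deriv ψ (Real.log ‖x‖) / ‖x‖ ^ 2)
    (by
      have hdψ : Continuous (deriv ψ) := hψ.continuous_deriv (by simp)
      have hne : ∀ x ∈ tsupport (fun x => ρ x * radz ψ x), ‖x‖ ≠ 0 := fun x hx =>
        norm_ne_zero_iff.2 (hηU hx).2
      refine ContinuousOn.div (hdψ.comp_continuousOn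
        (continuous_norm.continuousOn.log hne)) (continuous_norm.continuousOn.pow 2) ?_
      intro x hx
      exact pow_ne_zero 2 (hne x hx))
    (fun x hx i => by
      rw [pd_congr (hev x hx), pd_radz hψ (h.ne_zero hx)]
      ring)
  have e : ∫ x in Pos u, E x * (γ * ((ρ x * radz ψ x) ^ 2 / ‖x‖ ^ 2) -
      ∑ i, pd i (fun x => ρ x * radz ψ x) x ^ 2) =
      - ∫ x in Pos u, E x * (∑ i, pd i (radz ψ) x ^ 2 - γ * (radz ψ x ^ 2 / ‖x‖ ^ 2)) := by
    rw [← integral_neg]
    refine setIntegral_congr_fun h.isOpen_pos.measurableSet fun x hx => ?_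
    have h1 : ρ x * radz ψ x = radz ψ x := (hev x hx).self_of_nhds
    change E x * (γ * ((ρ x * radz ψ x) ^ 2 / ‖x‖ ^ 2) -
      ∑ i, pd i (fun x => ρ x * radz ψ x) x ^ 2) = _
    have h2 : ∑ i, pd i (fun x => ρ x * radz ψ x) x ^ 2 = ∑ i, pd i (radz ψ) x ^ 2 :=
      Finset.sum_congr rfl fun i _ => by rw [pd_congr (hev x hx)]
    rw [h1, h2]
    ring
  rw [e] at key
  linarith

end

end Vale.Agent.P098
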