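import Vale.Agent.Lib.P098.Var.CertBd
import Vale.Agent.Lib.P098.Var.CertPair
import Vale.Agent.Lib.P098.Var.PairVanish

/-!
# P098: stable cones with a certificate are flat
-/

open MeasureTheory Set Filter Topology
open scoped ContDiff

namespace Vale.Agent.P098

section

variable {d : ℕ} {u w : Ed d → ℝ} {U : Set (Ed d)} {C : CS} {α γ a κ : ℝ}

theorem Vh_dom {x : Ed d} (hx0 : x ≠ 0) {R : ℝ} (h0 : |Vh w x 0| ≤ R) (h1 : Vh w x 1 ≤ R)
    (hN : 0 < N2 w x) (h2 : Vh w x 2 ≤ R) : Dom R (Vh w x) := by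
  have hr0 : 0 < Real.sqrt (rho x) := Real.sqrt_pos.2 (rho_pos' hx0)
  rw [Vh_eq w hx0] at h0 h1 h2 ⊢
  refine dom_of_jet h0 h1 ?_ h2
  rw [jN_s]
  have : 0 < jN (Aj w x) := hN
  positivity

theorem E_abs_le (hc : Certi d α γ a κ C) (R : ℝ) : ∃ c : ℝ, 0 ≤ c ∧ ∀ x : Ed d, x ≠ 0 →
    |Vh w x 0| ≤ R → Vh w x 1 ≤ R → Vh w x 2 ≤ R →
    |C.E α w x| ≤ rho x ^ (-α) * (c * (rho x * N2 w x) ^ a) := by
  obtain ⟨c, hcu⟩ := hc.upper R
  refine ⟨|c|, abs_nonneg c, fun x hx0 h0 h1 h2 => ?_⟩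
  have hρ := rho_pos' hx0
  have ha0 : 0 < a := by linarith [hc.a_lo]
  rcases (N2_nonneg w x).lt_or_eq with hN | hN
  · have hd := Vh_dom hx0 h0 h1 hN h2
    obtain ⟨h3, -⟩ := hcu _ hd
    unfold CS.E
    rw [abs_mul, abs_of_nonneg (Real.rpow_nonneg hρ.le _)]
    refine mul_le_mul_of_nonneg_left (h3.trans ?_) (Real.rpow_nonneg hρ.le _)
    rw [Vh_two]
    exact mul_le_mul_of_nonneg_right (le_abs_self c) (Real.rpow_nonneg (by positivity) _)
  · rw [E_zero_of_N2 hc hN.symm, abs_zero]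
    have := N2_nonneg w x
    positivity

theorem E_cont (h : SmoothCone u w U) (h0 : (0 : Ed d) ∉ U) (hc : Certi d α γ a κ C)
    (hφ : C.φ.Good) : ContinuousOn (C.E α w) U := by
  intro x hx
  have hx0 : x ≠ 0 := fun e => h0 (e ▸ hx)
  have hUn := h.isOpen.mem_nhds hx
  have ha0 : 0 < a := by linarith [hc.a_lo]
  refine ContinuousAt.continuousWithinAt ?_
  rcases (N2_nonneg w x).lt_or_eq with hN | hN
  · exact (E_diff h hx hx0 hN hφ α).continuousAt
  · have hVc : ContinuousAt (Vh w) x := (h.Vh_smooth hx hx0).continuousAt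
    have hVa : ∀ b, ContinuousAt (fun y => Vh w y b) x := fun b =>
      (continuous_apply b).continuousAt.comp hVc
    obtain ⟨R, hR⟩ : ∃ R : ℝ, R = |Vh w x 0| + |Vh w x 1| + |Vh w x 2| + 1 := ⟨_, rfl⟩
    obtain ⟨c, hc0, hE⟩ := E_abs_le (w := w) hc R
    have hz : C.E α w x = 0 := E_zero_of_N2 hc hN.symm
    have hρa : ContinuousAt (fun y : Ed d => rho y ^ (-α)) x :=
      (rho_rpow_smooth hx0 _).continuousAt
    have hNc : ContinuousAt (N2 w) x := (h.smoothN2.continuousOn).continuousAt hUn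
    have hGc : ContinuousAt (fun y => rho y ^ (-α) * (c * (rho y * N2 w y) ^ a)) x :=
      hρa.mul (continuousAt_const.mul ((rho_smooth.continuous.continuousAt.mul hNc).rpow_const
        (Or.inr ha0.le)))
    have hGx : rho x ^ (-α) * (c * (rho x * N2 w x) ^ a) = 0 := by
      rw [← hN, mul_zero, Real.zero_rpow ha0.ne', mul_zero, mul_zero]
    have e0 : ∀ᶠ y in 𝓝 x, |Vh w y 0| ≤ R := by
      have := ((hVa 0).abs).eventually (gt_mem_nhds (show |Vh w x 0| < R by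
        rw [hR]
        linarith [abs_nonneg (Vh w x 1), abs_nonneg (Vh w x 2)]))
      filter_upwards [this] with y hy using hy.le
    have e1 : ∀ᶠ y in 𝓝 x, Vh w y 1 ≤ R := by
      have := (hVa 1).eventually (gt_mem_nhds (show Vh w x 1 < R by
        rw [hR]
        linarith [abs_nonneg (Vh w x 0), abs_nonneg (Vh w x 2), le_abs_self (Vh w x 1)]))
      filter_upwards [this] with y hy using hy.le
    have e2 : ∀ᶠ y in 𝓝 x, Vh w y 2 ≤ R := by
      have := (hVa 2).eventually (gt_mem_nhds (show Vh w x 2 < R by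
        rw [hR]
        linarith [abs_nonneg (Vh w x 0), abs_nonneg (Vh w x 1), le_abs_self (Vh w x 2)]))
      filter_upwards [this] with y hy using hy.le
    have e3 : ∀ᶠ y in 𝓝 x, y ≠ 0 := isOpen_ne.mem_nhds hx0
    change Tendsto (C.E α w) (𝓝 x) (𝓝 (C.E α w x))
    rw [hz]
    refine squeeze_zero_norm' (a := fun y => rho y ^ (-α) * (c * (rho y * N2 w y) ^ a)) ?_ ?_
    · filter_upwards [e0, e1, e2, e3] with y h0 h1 h2 h3
      rw [Real.norm_eq_abs]
      exact hE y h3 h0 h1 h2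
    · rw [← hGx]
      exact hGc

/-- **A certificate gives a `PairCert`.** -/
theorem pairCert (hd : 2 ≤ d) (h : SmoothCone u w U) (h0 : (0 : Ed d) ∉ U)
    (hc : Certi d α γ a κ C) (hφ : C.φ.Good) (hC : ∀ m, (C.c m).Good)
    (hz : ∀ x ∈ Pos u, Sw w x + κ * (w x ^ 2 * N2 w x) ≤ 1) :
    PairCert u w U (C.E α w) (C.Z α w) α γ where
  cont := E_cont h h0 hc hφ
  smooth x hx hE := E_diff h hx (fun e => h0 (e ▸ hx)) (N2_pos_of_E hc hE) hφ α
  smoothZ x hx hE i := Z_smooth h hx (fun e => h0 (e ▸ hx)) (N2_pos_of_E hc hE) hφ hC α i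
  nonneg x hx := by
    rcases (N2_nonneg w x).lt_or_eq with hN | hN
    · exact (E_pos h hc hz hx hN).le
    · rw [E_zero_of_N2 hc hN.symm]
  hom x hx r hr := h.homE C α hx hr
  rad x hx _ := rad_all h C α hx
  int x hx hE := int_all h hc hφ hC hz hx (N2_pos_of_E hc hE)
  bdry x hx hx0 hE := bd_all hd h hc hx hx0 (N2_pos_of_E hc hE)
  integ K hK hK0 := integ_all hd h hc hφ hz hK hK0

/-- **Stable cones are flat if there is a certificate.** -/
theorem flat_of_cert (hd : 2 ≤ d) (h : SmoothCone u w U) (hst : Stab u w)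
    (hc : Certi d α γ a κ C) (hφ : C.φ.Good) (hC : ∀ m, (C.c m).Good)
    (hγ : (((d : ℝ) - 2) / 2 - α) ^ 2 < γ)
    (hz : ∀ x ∈ Pos u, Sw w x + κ * (w x ^ 2 * N2 w x) ≤ 1) :
    (∀ x, u x = 0) ∨ ∃ e : Ed d, ‖e‖ = 1 ∧ ∀ x, u x = max (inner ℝ e x) 0 := by
  have hU : IsOpen (U \ {(0 : Ed d)}) := h.isOpen.sdiff isClosed_singleton
  have h' : SmoothCone u w (U \ {(0 : Ed d)}) :=
    { hom := h.hom
      cont := h.cont
      nonneg := h.nonneg
      isOpen := hU
      sub := fun x hx => ⟨h.sub hx, hx.2⟩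
      smooth := h.smooth.mono sdiff_subset
      eq := h.eq
      harm := h.harm
      grad := h.grad }
  have h0 : (0 : Ed d) ∉ U \ {(0 : Ed d)} := fun hx => hx.2 rfl
  have hE := pair_vanish h' hst (pairCert hd h' h0 hc hφ hC hz) hγ
  refine rigid hd h' fun x hx i j => ?_
  refine SmoothCone.hess_zero_of_N2 ?_ i j
  rcases (N2_nonneg w x).lt_or_eq with hN | hN
  · have h1 := E_pos h' hc hz hx hN
    rw [hE x hx] at h1
    exact absurd h1 (lt_irrefl _)
  · exact hN.symm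

end

end Vale.Agent.P098
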