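import Vale.Agent.Lib.P098.Var.Ramp

/-!
# P098: a cone with vanishing Hessian is flat
-/

open MeasureTheory Set Filter Topology
open scoped ContDiff

namespace Vale.Agent.P098

section

variable {d : ℕ} {u w : Ed d → ℝ} {U : Set (Ed d)}

theorem Rigid_sum (f : Ed d → ℝ) (x v : Ed d) : fderiv ℝ f x v = ∑ i, v i * pd i f x := by
  have h1 : v = ∑ i, v i • EuclideanSpace.single i (1 : ℝ) := by
    ext j
    simp [Finset.sum_apply, Pi.single_apply]
  conv_lhs => rw [h1]
  rw [map_sum]
  refine Finset.sum_congr rfl fun i _ => ?_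
  rw [map_smul]
  rfl

theorem Rigid_ext {L M : Ed d →L[ℝ] ℝ}
    (h : ∀ i, L (EuclideanSpace.single i 1) = M (EuclideanSpace.single i 1)) : L = M := by
  ext v
  have h1 : v = ∑ i, v i • EuclideanSpace.single i (1 : ℝ) := by
    ext j
    simp [Finset.sum_apply, Pi.single_apply]
  rw [h1, map_sum, map_sum]
  refine Finset.sum_congr rfl fun i _ => ?_
  rw [map_smul, map_smul, h]

theorem Rigid_fderiv_zero (h : SmoothCone u w U) {x : Ed d} (hx : x ∈ Pos u)
    (hz : ∀ i j, pd i (pd j w) x = 0) : fderiv ℝ (fderiv ℝ w) x = 0 := by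
  have hw : ContDiffAt ℝ ∞ w x := h.smoothAt (h.pos_sub hx)
  have hw2 : ContDiffAt ℝ 2 w x := hw.of_le ENat.LEInfty.out
  have h1 : ∀ v j, fderiv ℝ (fderiv ℝ w) x v (EuclideanSpace.single j 1) = 0 := by
    intro v j
    have h2 : ((fderiv ℝ (fderiv ℝ w) x).flip (EuclideanSpace.single j 1)) = 0 := by
      apply Rigid_ext
      intro i
      have h3 := pd_pd_eq hw2 i j
      rw [hz i j] at h3
      simp only [ContinuousLinearMap.flip_apply, ← h3]
      rfl
    have h4 := congrArg (fun L : Ed d →L[ℝ] ℝ => L v) h2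
    simpa using h4
  apply ContinuousLinearMap.ext
  intro v
  apply Rigid_ext
  intro j
  rw [h1]
  rfl

/-- on the component of a point the solution is linear, and the component is a half space -/
theorem Rigid_comp (h : SmoothCone u w U) {x0 : Ed d} (hx0 : x0 ∈ Pos u)
    (hz : ∀ x ∈ connectedComponentIn (Pos u) x0, ∀ i j, pd i (pd j w) x = 0) :
    ∃ e : Ed d, 0 < inner ℝ e x0 ∧
      ∀ x, 0 < inner ℝ e x → x ∈ Pos u ∧ u x = inner ℝ e x ∧ ∀ i, pd i w x = e i := by
  set C := connectedComponentIn (Pos u) x0 with hC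
  have hCo : IsOpen C := h.isOpen_pos.connectedComponentIn
  have hCp : IsPreconnected C := isPreconnected_connectedComponentIn
  have hCs : C ⊆ Pos u := connectedComponentIn_subset _ _
  have hx0C : x0 ∈ C := mem_connectedComponentIn hx0
  have hdw : DifferentiableOn ℝ (fderiv ℝ w) C := fun x hx =>
    (((h.smoothAt (h.pos_sub (hCs hx))).fderiv_right (m := ∞)
      (by simp)).differentiableAt (by simp)).differentiableWithinAt
  have hconst : ∀ x ∈ C, fderiv ℝ w x = fderiv ℝ w x0 := fun x hx =>
    hCo.is_const_of_fderiv_eq_zero hCp hdw (fun y hy => Rigid_fderiv_zero h (hCs hy) (hz y hy)) hx hx0C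
  set L := fderiv ℝ w x0 with hL
  set e : Ed d := (InnerProductSpace.toDual ℝ (Ed d)).symm L with he
  have heL : ∀ v, inner ℝ e v = L v := fun v => by
    rw [he, InnerProductSpace.toDual_symm_apply]
  have hwd : ∀ x ∈ C, DifferentiableAt ℝ w x := fun x hx =>
    (h.smoothAt (h.pos_sub (hCs hx))).differentiableAt (by simp)
  have hk : ∀ x ∈ C, w x - L x = w x0 - L x0 := fun x hx =>
    hCo.is_const_of_fderiv_eq_zero hCp
      (f := fun y => w y - L y) (fun y hy => ((hwd y hy).sub
        L.differentiableAt).differentiableWithinAt)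
      (fun y hy => by
        rw [fderiv_fun_sub (hwd y hy) L.differentiableAt, hconst y hy]
        simp) hx hx0C
  have h2x : (2 : ℝ) • x0 ∈ C := by
    have hseg : segment ℝ x0 ((2 : ℝ) • x0) ⊆ Pos u := by
      rintro y ⟨a, b, ha, hb, hab, rfl⟩
      have h1 : a • x0 + b • (2 : ℝ) • x0 = (a + b * 2) • x0 := by
        rw [smul_smul, ← add_smul]
      rw [h1]
      exact h.smul_mem hx0 (by linarith)
    exact (convex_segment x0 ((2 : ℝ) • x0)).isPreconnected.subset_connectedComponentIn
      (left_mem_segment ℝ _ _) hseg (right_mem_segment ℝ _ _)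
  have hk0 : w x0 - L x0 = 0 := by
    have h1 := hk _ h2x
    have h2 : w ((2 : ℝ) • x0) = 2 * w x0 := by
      rw [h.eq _ (hCs h2x), h.hom 2 (by norm_num), h.eq _ hx0]
    rw [h2, map_smul, smul_eq_mul] at h1
    linarith
  have hwL : ∀ x ∈ C, u x = L x := by
    intro x hx
    have h1 := hk x hx
    rw [hk0] at h1
    rw [← h.eq x (hCs hx)]
    linarith
  -- the half space
  have hHC : {x : Ed d | 0 < L x} ⊆ C := by
    have hconv : Convex ℝ {x : Ed d | 0 < L x} := by
      intro x hx y hy a b ha hb hab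
      have hx' : 0 < L x := hx
      have hy' : 0 < L y := hy
      change 0 < L (a • x + b • y)
      rw [map_add, map_smul, map_smul, smul_eq_mul, smul_eq_mul]
      rcases ha.eq_or_lt with h0 | h0
      · have hb1 : b = 1 := by linarith
        rw [← h0, hb1]
        linarith
      · have h1 : 0 < a * L x := mul_pos h0 hx'
        have h2 : 0 ≤ b * L y := mul_nonneg hb hy'.le
        linarith
    refine hconv.isPreconnected.subset_of_closure_inter_subset hCo ⟨x0, ?_, hx0C⟩ ?_
    · change 0 < L x0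
      rw [← hwL x0 hx0C]
      exact hx0
    · rintro x ⟨hx1, hx2⟩
      have hx2' : 0 < L x := hx2
      have hux : u x = L x := by
        have hcl : IsClosed {y : Ed d | u y = L y} := isClosed_eq h.cont L.continuous
        exact closure_minimal (fun y hy => hwL y hy) hcl hx1
      have hxP : x ∈ Pos u := by
        change 0 < u x
        rw [hux]
        exact hx2'
      have hxo : IsOpen (connectedComponentIn (Pos u) x) := h.isOpen_pos.connectedComponentIn
      obtain ⟨y, hy1, hy2⟩ := mem_closure_iff.1 hx1 _ hxo (mem_connectedComponentIn hxP)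
      have e1 : connectedComponentIn (Pos u) x = connectedComponentIn (Pos u) y :=
        connectedComponentIn_eq hy1
      have e2 : connectedComponentIn (Pos u) x0 = connectedComponentIn (Pos u) y :=
        connectedComponentIn_eq hy2
      rw [hC, e2, ← e1]
      exact mem_connectedComponentIn hxP
  refine ⟨e, ?_, fun x hx => ?_⟩
  · rw [heL, ← hwL x0 hx0C]
    exact hx0
  · rw [heL] at hx
    have hxC : x ∈ C := hHC hx
    refine ⟨hCs hxC, by rw [heL, hwL x hxC], fun i => ?_⟩
    have h1 : pd i w x = L (EuclideanSpace.single i 1) := by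
      unfold pd
      rw [hconst x hxC]
    rw [h1, ← heL]
    simp [EuclideanSpace.inner_single_right]

theorem Rigid_perp (hd : 2 ≤ d) (e : Ed d) : ∃ x : Ed d, x ≠ 0 ∧ inner ℝ e x = 0 := by
  have i0 : (0 : ℕ) < d := by omega
  have i1 : (1 : ℕ) < d := by omega
  have hne : (⟨0, i0⟩ : Fin d) ≠ ⟨1, i1⟩ := by
    intro hh
    exact absurd (congrArg Fin.val hh) (by simp)
  by_cases h0 : e ⟨0, i0⟩ = 0
  · refine ⟨EuclideanSpace.single ⟨0, i0⟩ 1, ?_, ?_⟩
    · intro hh
      have := congrArg (fun v : Ed d => v ⟨0, i0⟩) hh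
      simp at this
    · simp [EuclideanSpace.inner_single_right, h0]
  · refine ⟨e ⟨0, i0⟩ • EuclideanSpace.single ⟨1, i1⟩ 1 -
      e ⟨1, i1⟩ • EuclideanSpace.single ⟨0, i0⟩ 1, ?_, ?_⟩
    · intro hh
      have h2 := congrArg (fun v : Ed d => v ⟨1, i1⟩) hh
      have h3 : (EuclideanSpace.single (⟨0, i0⟩ : Fin d) (1 : ℝ) : Ed d) ⟨1, i1⟩ = 0 := by
        simp
      have h4 : (EuclideanSpace.single (⟨1, i1⟩ : Fin d) (1 : ℝ) : Ed d) ⟨1, i1⟩ = 1 := by
        simp
      apply h0
      simpa [h3, h4] using h2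
    · rw [inner_sub_right, inner_smul_right, inner_smul_right]
      simp [EuclideanSpace.inner_single_right]
      ring

/-- boundary points of a half space contained in the positivity set -/
theorem Rigid_bd (h : SmoothCone u w U) {e : Ed d} (he : e ≠ 0)
    (hH : ∀ x, 0 < inner ℝ e x → x ∈ Pos u ∧ u x = inner ℝ e x ∧ ∀ i, pd i w x = e i)
    {x : Ed d} (hx0 : x ≠ 0) (hx : inner ℝ e x = 0) :
    x ∈ frontier (Pos u) ∧ ∀ i, pd i w x = e i := by
  have hcl : x ∈ closure {y : Ed d | 0 < inner ℝ e y} := by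
    rw [mem_closure_iff_seq_limit]
    refine ⟨fun n : ℕ => x + (1 / ((n : ℝ) + 1)) • e, fun n => ?_, ?_⟩
    · change 0 < inner ℝ e (x + (1 / ((n : ℝ) + 1)) • e)
      rw [inner_add_right, hx, inner_smul_right, real_inner_self_eq_norm_sq]
      have h1 : 0 < ‖e‖ := norm_pos_iff.2 he
      positivity
    · have h1 := (tendsto_one_div_add_atTop_nhds_zero_nat (𝕜 := ℝ)).smul_const e
      have h2 := (tendsto_const_nhds (x := x) (f := atTop (α := ℕ))).add h1
      simpa using h2
  have hsub : {y : Ed d | 0 < inner ℝ e y} ⊆ Pos u := fun y hy => (hH y hy).1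
  have hclP : x ∈ closure (Pos u) := closure_mono hsub hcl
  have hux : u x = 0 := by
    have h1 : {y : Ed d | 0 < inner ℝ e y} ⊆ {y : Ed d | u y = inner ℝ e y} :=
      fun y hy => (hH y hy).2.1
    have h2 : IsClosed {y : Ed d | u y = inner ℝ e y} :=
      isClosed_eq h.cont (continuous_const.inner continuous_id)
    have h3 : u x = inner ℝ e x := closure_minimal h1 h2 hcl
    rw [h3, hx]
  have hxP : x ∉ Pos u := by
    intro hh
    have h1 : 0 < u x := hh
    rw [hux] at h1
    exact lt_irrefl _ h1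
  refine ⟨h.mem_frontier_of_closure hclP hxP, fun i => ?_⟩
  have hxU : x ∈ U := h.sub ⟨hclP, hx0⟩
  have hc : ContinuousAt (pd i w) x :=
    (h.contDiffOn_pdw i).continuousOn.continuousAt (h.isOpen.mem_nhds hxU)
  have : (𝓝[{y : Ed d | 0 < inner ℝ e y}] x).NeBot := mem_closure_iff_nhdsWithin_neBot.1 hcl
  have h2 : Tendsto (pd i w) (𝓝[{y : Ed d | 0 < inner ℝ e y}] x) (𝓝 (pd i w x)) :=
    hc.tendsto.mono_left nhdsWithin_le_nhds
  have h3 : Tendsto (pd i w) (𝓝[{y : Ed d | 0 < inner ℝ e y}] x) (𝓝 (e i)) := by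
    refine tendsto_const_nhds.congr' ?_
    filter_upwards [self_mem_nhdsWithin] with y hy
    exact ((hH y hy).2.2 i).symm
  exact tendsto_nhds_unique h2 h3

/-- **Rigidity**: a smooth cone with vanishing Hessian is zero or a half-space solution. -/
theorem rigid (hd : 2 ≤ d) (h : SmoothCone u w U)
    (hz : ∀ x ∈ Pos u, ∀ i j, pd i (pd j w) x = 0) :
    (∀ x, u x = 0) ∨ ∃ e : Ed d, ‖e‖ = 1 ∧ ∀ x, u x = max (inner ℝ e x) 0 := by
  rcases (Pos u).eq_empty_or_nonempty with hem | ⟨x0, hx0⟩
  · left
    intro x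
    apply h.eq_zero_of_notMem
    rw [hem]
    exact notMem_empty x
  · right
    have hunit : ∀ y ∈ Pos u, ∃ e : Ed d, ‖e‖ = 1 ∧ 0 < inner ℝ e y ∧
        ∀ x, 0 < inner ℝ e x → x ∈ Pos u ∧ u x = inner ℝ e x ∧ ∀ i, pd i w x = e i := by
      intro y hy
      obtain ⟨e, he1, he2⟩ := Rigid_comp h hy fun x hx =>
        hz x (connectedComponentIn_subset _ _ hx)
      have he0 : e ≠ 0 := by
        rintro rfl
        simp at he1
      obtain ⟨x, hx0', hxe⟩ := Rigid_perp hd e
      obtain ⟨hxf, hpd⟩ := Rigid_bd h he0 he2 hx0' hxe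
      refine ⟨e, ?_, he1, he2⟩
      have h1 := h.grad x hxf hx0'
      have h2 : ∑ i, e i ^ 2 = 1 := by
        rw [← h1]
        exact Finset.sum_congr rfl fun i _ => by rw [hpd i]
      have h3 : ‖e‖ ^ 2 = 1 := by
        rw [EuclideanSpace.norm_sq_eq, ← h2]
        simp
      have h4 : 0 ≤ ‖e‖ := norm_nonneg e
      nlinarith
    obtain ⟨e, he, he1, he2⟩ := hunit x0 hx0
    have he0 : e ≠ 0 := by
      rintro rfl
      simp at he
    refine ⟨e, he, ?_⟩
    have hall : ∀ y ∈ Pos u, 0 < inner ℝ e y := by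
      intro y hy
      by_contra hneg
      obtain ⟨f, hf, hf1, hf2⟩ := hunit y hy
      have hef : inner ℝ e f = inner ℝ f e := real_inner_comm f e
      have hself : inner ℝ e e = (1 : ℝ) := by
        rw [real_inner_self_eq_norm_sq, he]
        norm_num
      have hself' : inner ℝ f f = (1 : ℝ) := by
        rw [real_inner_self_eq_norm_sq, hf]
        norm_num
      by_cases hpos : 0 < 1 + inner ℝ e f
      · have h1 : 0 < inner ℝ e (e + f) := by
          rw [inner_add_right, hself]
          exact hpos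
        have h2 : 0 < inner ℝ f (e + f) := by
          rw [inner_add_right, hself', ← hef]
          linarith
        have h3 : e = f := by
          ext i
          rw [← (he2 _ h1).2.2 i, (hf2 _ h2).2.2 i]
        rw [h3] at hneg
        exact hneg hf1
      · have h1 : ‖e + f‖ ^ 2 ≤ 0 := by
          rw [norm_add_sq_real, he, hf]
          linarith
        have h2 : e + f = 0 := by
          have h3 : ‖e + f‖ = 0 := by
            have h4 := norm_nonneg (e + f)
            nlinarith
          exact norm_eq_zero.1 h3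
        have hf0 : f = -e := eq_neg_of_add_eq_zero_right h2
        have hfe : f ≠ 0 := by
          rintro rfl
          simp at hf
        obtain ⟨x, hx0', hxe⟩ := Rigid_perp hd e
        obtain ⟨-, hpd⟩ := Rigid_bd h he0 he2 hx0' hxe
        have hxf : inner ℝ f x = 0 := by
          rw [hf0, inner_neg_left, hxe, neg_zero]
        obtain ⟨-, hpd'⟩ := Rigid_bd h hfe hf2 hx0' hxf
        apply he0
        ext i
        have h5 := hpd i
        have h6 := hpd' i
        rw [hf0] at h6
        have h7 : (-e) i = - e i := rfl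
        rw [h7] at h6
        change e i = 0
        linarith
    intro x
    by_cases hx : 0 < inner ℝ e x
    · rw [(he2 x hx).2.1, max_eq_left hx.le]
    · have hxP : x ∉ Pos u := fun hh => hx (hall x hh)
      rw [h.eq_zero_of_notMem hxP, max_eq_right (not_lt.1 hx)]

end

end Vale.Agent.P098
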