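import Vale.Agent.Lib.P098.Var.Jet
import Vale.Agent.Lib.P098.Var.Polar
import Vale.Agent.Lib.P098.Var.Rigid

/-!
# P098: `|∇w| ≤ 1` on the positivity set and `D²w(∇w,∇w) ≤ 0` on the free boundary
-/

open MeasureTheory Set Filter Topology Metric
open scoped ContDiff

namespace Vale.Agent.P098

section

variable {d : ℕ} {u w : Ed d → ℝ} {U : Set (Ed d)}

/-- `s = |∇w|²` -/
noncomputable def Sw {d : ℕ} (w : Ed d → ℝ) (x : Ed d) : ℝ := ∑ i, pd i w x ^ 2

namespace SmoothCone

theorem smoothS (h : SmoothCone u w U) : ContDiffOn ℝ ∞ (Sw w) U :=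
  ContDiffOn.sum fun i _ => (h.contDiffOn_pdw i).pow 2

theorem pdS (h : SmoothCone u w U) {x : Ed d} (hx : x ∈ U) (k : Fin d) :
    pd k (Sw w) x = 2 * ∑ i, pd k (pd i w) x * pd i w x := by
  have e : Sw w = fun x => ∑ i, pd i w x ^ 2 := rfl
  have hd : ∀ i, DifferentiableAt ℝ (fun y => pd i w y ^ 2) x := fun i => (h.diff1 hx i).pow 2
  rw [e, pd_sum _ _ fun i _ => hd i, Finset.mul_sum]
  refine Finset.sum_congr rfl fun i _ => ?_
  rw [pd_sq (h.diff1 hx i)]
  ring

/-- `Δ|∇w|² = 2|D²w|²` -/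
theorem lapS (h : SmoothCone u w U) {x : Ed d} (hx : x ∈ Pos u) :
    lap (Sw w) x = 2 * N2 w x := by
  have hxU := h.pos_sub hx
  have h1 : ∀ k, pd k (pd k (Sw w)) x = 2 * ∑ i, (pd k (pd k (pd i w)) x * pd i w x +
      pd k (pd i w) x ^ 2) := by
    intro k
    have h2 : pd k (Sw w) =ᶠ[𝓝 x] fun y => 2 * ∑ i, pd k (pd i w) y * pd i w y := by
      filter_upwards [h.isOpen.mem_nhds hxU] with y hy
      exact h.pdS hy k
    have hd : ∀ i, DifferentiableAt ℝ (fun y => pd k (pd i w) y * pd i w y) x := fun i =>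
      (h.diff2 hxU k i).mul (h.diff1 hxU i)
    rw [pd_congr h2, pd_const_mul _ (DifferentiableAt.fun_sum fun i _ => hd i),
      pd_sum _ _ fun i _ => hd i]
    congr 1
    refine Finset.sum_congr rfl fun i _ => ?_
    rw [pd_mul (h.diff2 hxU k i) (h.diff1 hxU i)]
    ring
  unfold lap
  rw [Finset.sum_congr rfl fun k _ => h1 k, ← Finset.mul_sum]
  congr 1
  simp only [Finset.sum_add_distrib]
  have h3 : ∑ k, ∑ i, pd k (pd k (pd i w)) x * pd i w x = 0 := by
    rw [Finset.sum_comm]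
    refine Finset.sum_eq_zero fun i _ => ?_
    rw [← Finset.sum_mul, h.tr3 (subset_closure hx) (h.ne_zero hx) i, zero_mul]
  rw [h3, zero_add]
  rfl

/-- `x·∇|∇w|² = 0` -/
theorem eulerS (h : SmoothCone u w U) {x : Ed d} (hx : x ∈ Pos u) :
    ∑ k, x k * pd k (Sw w) x = 0 := by
  have hxU := h.pos_sub hx
  have h1 : ∀ k, x k * pd k (Sw w) x = 2 * ∑ i, (x k * pd i (pd k w) x) * pd i w x := by
    intro k
    rw [h.pdS hxU, ← mul_assoc, mul_comm (x k) 2, mul_assoc, Finset.mul_sum]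
    congr 1
    refine Finset.sum_congr rfl fun i _ => ?_
    rw [h.symm2 hxU k i]
    ring
  rw [Finset.sum_congr rfl fun k _ => h1 k, ← Finset.mul_sum, Finset.sum_comm]
  have h2 : ∑ i, ∑ k, (x k * pd i (pd k w) x) * pd i w x = 0 := by
    refine Finset.sum_eq_zero fun i _ => ?_
    rw [← Finset.sum_mul, h.euler1_pos hx i, zero_mul]
  rw [h2, mul_zero]

theorem pd_ramp_S (h : SmoothCone u w U) {δ : ℝ} (hδ : 0 < δ) {x : Ed d} (hx : x ∈ U)
    (k : Fin d) : pd k (fun y => ramp δ (Sw w y - 1)) x =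
      chi ((Sw w x - 1) / δ) * pd k (Sw w) x := by
  have hS : DifferentiableAt ℝ (Sw w) x :=
    (h.smoothS.contDiffAt (h.isOpen.mem_nhds hx)).differentiableAt (by simp)
  have hS1 : DifferentiableAt ℝ (fun y => Sw w y - 1) x := hS.sub_const 1
  rw [pd_comp (ramp δ) ((ramp_contDiff δ).differentiable (by simp) _) hS1, ramp_deriv hδ,
    pd_sub hS (differentiableAt_const _), pd_const, sub_zero]

theorem lap_ramp_S (h : SmoothCone u w U) {δ : ℝ} (hδ : 0 < δ) {x : Ed d} (hx : x ∈ Pos u) :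
    chi ((Sw w x - 1) / δ) * (2 * N2 w x) ≤ lap (fun y => ramp δ (Sw w y - 1)) x := by
  have hxU := h.pos_sub hx
  have hSs : ContDiffAt ℝ ∞ (Sw w) x := h.smoothS.contDiffAt (h.isOpen.mem_nhds hxU)
  have hS : DifferentiableAt ℝ (Sw w) x := hSs.differentiableAt (by simp)
  have hS1 : DifferentiableAt ℝ (fun y => (Sw w y - 1) / δ) x := by
    have h1 : DifferentiableAt ℝ (fun y => (Sw w y - 1) * δ⁻¹) x := (hS.sub_const 1).mul_const _
    simpa [div_eq_mul_inv] using h1
  have hpS : ∀ k, DifferentiableAt ℝ (pd k (Sw w)) x := fun k =>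
    (contDiffAt_pd (m := ∞) hSs (by simp)).differentiableAt (by simp)
  have h1 : ∀ k, pd k (pd k (fun y => ramp δ (Sw w y - 1))) x =
      deriv chi ((Sw w x - 1) / δ) / δ * pd k (Sw w) x ^ 2 +
        chi ((Sw w x - 1) / δ) * pd k (pd k (Sw w)) x := by
    intro k
    have h2 : pd k (fun y => ramp δ (Sw w y - 1)) =ᶠ[𝓝 x]
        fun y => chi ((Sw w y - 1) / δ) * pd k (Sw w) y := by
      filter_upwards [h.isOpen.mem_nhds hxU] with y hy
      exact h.pd_ramp_S hδ hy k
    have h3 : DifferentiableAt ℝ (fun y => chi ((Sw w y - 1) / δ)) x :=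
      (chi_contDiff.differentiable (by simp) _).comp x hS1
    rw [pd_congr h2, pd_mul h3 (hpS k), pd_comp chi (chi_contDiff.differentiable (by simp) _) hS1]
    have h5 : pd k (fun y => (Sw w y - 1) / δ) x = pd k (Sw w) x / δ := by
      have e : (fun y => (Sw w y - 1) / δ) = fun y => δ⁻¹ * (Sw w y - 1) := by
        funext y
        ring
      rw [e, pd_const_mul _ (hS.sub_const 1), pd_sub hS (differentiableAt_const _), pd_const]
      ring
    rw [h5]
    ring
  have h6 : lap (fun y => ramp δ (Sw w y - 1)) x =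
      deriv chi ((Sw w x - 1) / δ) / δ * ∑ k, pd k (Sw w) x ^ 2 +
        chi ((Sw w x - 1) / δ) * lap (Sw w) x := by
    unfold lap
    rw [Finset.mul_sum, Finset.mul_sum, ← Finset.sum_add_distrib]
    exact Finset.sum_congr rfl fun k _ => h1 k
  rw [h6, h.lapS hx]
  have h7 := chi_deriv_nonneg ((Sw w x - 1) / δ)
  have h8 : 0 ≤ ∑ k, pd k (Sw w) x ^ 2 := Finset.sum_nonneg fun i _ => sq_nonneg _
  have h9 : 0 ≤ deriv chi ((Sw w x - 1) / δ) / δ * ∑ k, pd k (Sw w) x ^ 2 := by positivity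
  linarith

/-- the Laplacian of the ramp vanishes on the cone -/
theorem lap_ramp_zero (h : SmoothCone u w U) {δ : ℝ} (hδ : 0 < δ) {x0 : Ed d}
    (hx0 : x0 ∈ Pos u) : lap (fun y => ramp δ (Sw w y - 1)) x0 = 0 := by
  obtain ⟨v, hv⟩ : ∃ v : Ed d → ℝ, v = fun y => ramp δ (Sw w y - 1) := ⟨_, rfl⟩
  rw [← hv]
  have hvs : ContDiffOn ℝ ∞ v U := by
    rw [hv]
    exact (ramp_contDiff δ).comp_contDiffOn (h.smoothS.sub contDiffOn_const)
  have hlap0 : ∀ x ∈ Pos u, 0 ≤ lap v x := by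
    intro x hx
    have h1 := h.lap_ramp_S hδ hx
    rw [← hv] at h1
    have h2 := N2_nonneg w x
    have h3 := chi_nonneg ((Sw w x - 1) / δ)
    have h4 : 0 ≤ chi ((Sw w x - 1) / δ) * (2 * N2 w x) := by positivity
    linarith
  -- radial bump
  obtain ⟨f⟩ : Nonempty (ContDiffBump (Real.log ‖x0‖)) := ⟨default⟩
  have hψ : ContDiff ℝ ∞ (f : ℝ → ℝ) := f.contDiff
  have hψs : HasCompactSupport (f : ℝ → ℝ) := f.hasCompactSupport
  obtain ⟨ζ0, hζ0⟩ : ∃ ζ0 : Ed d → ℝ, ζ0 = radz f := ⟨_, rfl⟩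
  have hz : ContDiff ℝ ∞ ζ0 := by
    rw [hζ0]
    exact radz_contDiff hψ hψs
  have hzs : HasCompactSupport ζ0 := by
    rw [hζ0]
    exact radz_compact hψs
  have h00 : (0 : Ed d) ∉ tsupport ζ0 := by
    rw [hζ0]
    exact radz_zero_notMem (d := d) hψs
  have hznn : ∀ x : Ed d, 0 ≤ ζ0 x := by
    intro x
    rw [hζ0]
    by_cases hx : x = 0
    · unfold radz
      rw [if_pos hx]
    · rw [radz_apply _ hx]
      exact f.nonneg
  have hKc : IsCompact (closure (Pos u) ∩ tsupport ζ0) :=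
    hzs.isCompact.inter_left isClosed_closure
  have hVo : IsOpen (U \ {(0 : Ed d)}) := h.isOpen.sdiff isClosed_singleton
  have hKV : closure (Pos u) ∩ tsupport ζ0 ⊆ U \ {0} := by
    rintro x ⟨hx1, hx2⟩
    have hx0 : x ≠ 0 := fun e => h00 (e ▸ hx2)
    exact ⟨h.sub ⟨hx1, hx0⟩, hx0⟩
  obtain ⟨ρ, hρ, hρ0, -, hρs, hρV, W, hW, hKW, hW1⟩ := exists_cutoff hKc hVo hKV
  obtain ⟨ζ, hζ⟩ : ∃ ζ : Ed d → ℝ, ζ = fun x => ρ x * ζ0 x := ⟨_, rfl⟩
  have hζc : ContDiff ℝ ∞ ζ := by
    rw [hζ]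
    exact hρ.mul hz
  have hζs : HasCompactSupport ζ := by
    rw [hζ]
    exact hρs.mul_right
  have hζU : tsupport ζ ⊆ U \ {0} := by
    rw [hζ]
    exact tsupport_mul_subset.trans hρV
  have hζnn : ∀ x, 0 ≤ ζ x := fun x => by
    rw [hζ]
    exact mul_nonneg (hρ0 x) (hznn x)
  have hev : ∀ x ∈ Pos u, ζ =ᶠ[𝓝 x] ζ0 := by
    intro x hx
    rw [hζ]
    by_cases hxt : x ∈ tsupport ζ0
    · filter_upwards [hW.mem_nhds (hKW ⟨subset_closure hx, hxt⟩)] with y hy
      rw [hW1 y hy, one_mul]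
    · filter_upwards [notMem_tsupport_iff_eventuallyEq.1 hxt] with y hy
      rw [hy]
      simp
  have hζU' : tsupport ζ ⊆ U := fun x hx => (hζU hx).1
  have hζ00 : (0 : Ed d) ∉ tsupport ζ := fun hx => (hζU hx).2 rfl
  have hpv : ∀ i, ContDiffOn ℝ ∞ (pd i v) U := fun i => contDiffOn_pd h.isOpen hvs (by simp)
  have hGc : ∀ i, ContDiff ℝ 1 (fun x => ζ x * pd i v x) := fun i =>
    (contDiff_cutoff_mul h.isOpen hζc hζU' (hpv i)).of_le (by simp)
  have hGs : ∀ i, HasCompactSupport (fun x => ζ x * pd i v x) := fun i => hζs.mul_right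
  have hdiv : ∫ x in Pos u, ∑ i, pd i (fun x => ζ x * pd i v x) x = 0 := by
    refine h.div_eq_zero (fun i x => ζ x * pd i v x) hGc hGs
      (fun i hx => hζ00 (tsupport_mul_subset hx)) fun x hx hx0 => ?_
    refine Finset.sum_eq_zero fun i _ => ?_
    have hxU := h.frontier_sub hx hx0
    have h1 : pd i v x = 0 := by
      rw [hv, h.pd_ramp_S hδ hxU]
      have h2 : Sw w x = 1 := h.grad x hx hx0
      rw [h2, chi_zero (by simp), zero_mul]
    rw [h1]
    ring
  have hpt : ∀ x ∈ Pos u, ∑ i, pd i (fun x => ζ x * pd i v x) x = ζ x * lap v x := by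
    intro x hx
    have hxU := h.pos_sub hx
    have hn := h.isOpen.mem_nhds hxU
    have dζ : DifferentiableAt ℝ ζ x := hζc.differentiable (by simp) x
    have dpv : ∀ i, DifferentiableAt ℝ (pd i v) x := fun i =>
      ((hpv i).contDiffAt hn).differentiableAt (by simp)
    have e1 : ∀ i, pd i (fun x => ζ x * pd i v x) x =
        deriv f (Real.log ‖x‖) / ‖x‖ ^ 2 * chi ((Sw w x - 1) / δ) * (x i * pd i (Sw w) x) +
          ζ x * pd i (pd i v) x := by
      intro i
      rw [pd_mul dζ (dpv i), pd_congr (hev x hx), hζ0, pd_radz hψ (h.ne_zero hx)]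
      have e2 : pd i v x = chi ((Sw w x - 1) / δ) * pd i (Sw w) x := by
        rw [hv, h.pd_ramp_S hδ hxU]
      rw [e2]
      ring
    rw [Finset.sum_congr rfl fun i _ => e1 i, Finset.sum_add_distrib, ← Finset.mul_sum,
      h.eulerS hx, mul_zero, zero_add, ← Finset.mul_sum]
    rfl
  have hint : ∫ x in Pos u, ζ x * lap v x = 0 := by
    rw [← hdiv]
    exact setIntegral_congr_fun h.isOpen_pos.measurableSet fun x hx => (hpt x hx).symm
  have hcont : ContinuousOn (fun x => ζ x * lap v x) (Pos u) := by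
    have e : lap v = fun x => ∑ i, pd i (pd i v) x := rfl
    rw [e]
    refine hζc.continuous.continuousOn.mul (continuousOn_finsetSum _ fun i _ => ?_)
    exact ((contDiffOn_pd (m := ∞) h.isOpen (hpv i) (by simp)).continuousOn).mono h.pos_sub
  have hintb : IntegrableOn (fun x => ζ x * lap v x) (Pos u) volume := by
    refine (SmoothCone.integrable_div hGc hGs (Pos u)).congr_fun
      (fun x hx => hpt x hx) h.isOpen_pos.measurableSet
  have hae : (fun x => ζ x * lap v x) =ᵐ[volume.restrict (Pos u)] 0 := by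
    refine (setIntegral_eq_zero_iff_of_nonneg_ae ?_ hintb).1 hint
    refine (ae_restrict_iff' h.isOpen_pos.measurableSet).2 (Eventually.of_forall fun x hx => ?_)
    exact mul_nonneg (hζnn x) (hlap0 x hx)
  have hall : EqOn (fun x => ζ x * lap v x) 0 (Pos u) :=
    Measure.eqOn_open_of_ae_eq hae h.isOpen_pos hcont continuousOn_const
  have h1 := hall hx0
  have h2 : ζ x0 = 1 := by
    rw [(hev x0 hx0).self_of_nhds, hζ0, radz_apply _ (h.ne_zero hx0)]
    exact f.one_of_mem_closedBall (mem_closedBall_self f.rIn_pos.le)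
  have h3 : ζ x0 * lap v x0 = 0 := h1
  rw [h2, one_mul] at h3
  exact h3

/-- where `|∇w| > 1` the Hessian vanishes -/
theorem N2_zero_of_large (h : SmoothCone u w U) {x : Ed d} (hx : x ∈ Pos u)
    (hs : 1 < Sw w x) : N2 w x = 0 := by
  have hδ : 0 < (Sw w x - 1) / 2 := by linarith
  have h1 := h.lap_ramp_S hδ hx
  rw [h.lap_ramp_zero hδ hx] at h1
  have h2 : (Sw w x - 1) / ((Sw w x - 1) / 2) = 2 := by
    have : Sw w x - 1 ≠ 0 := by linarith
    field_simp
  rw [h2, chi_one le_rfl] at h1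
  have h3 := N2_nonneg w x
  linarith

theorem hess_zero_of_N2 {x : Ed d} (hN : N2 w x = 0) (i j : Fin d) : pd i (pd j w) x = 0 := by
  unfold N2 at hN
  have h1 := (Finset.sum_eq_zero_iff_of_nonneg fun i _ => Finset.sum_nonneg fun j _ =>
    sq_nonneg _).1 hN i (Finset.mem_univ i)
  have h2 := (Finset.sum_eq_zero_iff_of_nonneg fun j _ => sq_nonneg _).1 h1 j (Finset.mem_univ j)
  exact pow_eq_zero_iff (two_ne_zero) |>.1 h2

/-- **Gradient bound** `|∇w| ≤ 1` on the positivity set. -/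
theorem grad_le_one (hd : 2 ≤ d) (h : SmoothCone u w U) {x1 : Ed d} (hx1 : x1 ∈ Pos u) :
    Sw w x1 ≤ 1 := by
  by_contra hcon
  have hs1 : 1 < Sw w x1 := not_le.1 hcon
  have hSc : ContinuousOn (Sw w) (Pos u) := h.smoothS.continuousOn.mono h.pos_sub
  obtain ⟨O, hO⟩ : ∃ O : Set (Ed d), O = Pos u ∩ Sw w ⁻¹' (Ioi 1) := ⟨_, rfl⟩
  have hOo : IsOpen O := by
    rw [hO]
    exact hSc.isOpen_inter_preimage h.isOpen_pos isOpen_Ioi
  have hx1O : x1 ∈ O := by
    rw [hO]
    exact ⟨hx1, hs1⟩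
  have hOP : O ⊆ Pos u := by
    rw [hO]
    exact inter_subset_left
  have hA : ∀ x ∈ O, ∀ i j, pd i (pd j w) x = 0 := by
    intro x hx
    rw [hO] at hx
    exact fun i j => hess_zero_of_N2 (h.N2_zero_of_large hx.1 hx.2) i j
  set D := connectedComponentIn O x1 with hD
  have hDo : IsOpen D := hOo.connectedComponentIn
  have hDs : D ⊆ O := connectedComponentIn_subset _ _
  have hx1D : x1 ∈ D := mem_connectedComponentIn hx1O
  have hconst : ∀ x ∈ D, Sw w x = Sw w x1 := fun x hx =>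
    hDo.is_const_of_fderiv_eq_zero (isPreconnected_connectedComponentIn)
      (fun y hy => ((h.smoothS.contDiffAt (h.isOpen.mem_nhds
        (h.pos_sub (hOP (hDs hy))))).differentiableAt (by simp)).differentiableWithinAt)
      (fun y hy => by
        apply Rigid_ext
        intro k
        have h1 : pd k (Sw w) y = 0 := by
          rw [h.pdS (h.pos_sub (hOP (hDs hy)))]
          have h2 : ∑ i, pd k (pd i w) y * pd i w y = 0 :=
            Finset.sum_eq_zero fun i _ => by rw [hA y (hDs hy) k i, zero_mul]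
          rw [h2, mul_zero]
        exact h1) hx hx1D
  have hCD : connectedComponentIn (Pos u) x1 ⊆ D := by
    refine isPreconnected_connectedComponentIn.subset_of_closure_inter_subset hDo
      ⟨x1, mem_connectedComponentIn hx1, hx1D⟩ ?_
    rintro x ⟨hxc, hxC⟩
    have hxP : x ∈ Pos u := connectedComponentIn_subset _ _ hxC
    have hSx : Sw w x = Sw w x1 := by
      have hca : ContinuousAt (Sw w) x := hSc.continuousAt (h.isOpen_pos.mem_nhds hxP)
      have : (𝓝[D] x).NeBot := mem_closure_iff_nhdsWithin_neBot.1 hxc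
      have h2 : Tendsto (Sw w) (𝓝[D] x) (𝓝 (Sw w x)) := hca.tendsto.mono_left nhdsWithin_le_nhds
      have h3 : Tendsto (Sw w) (𝓝[D] x) (𝓝 (Sw w x1)) := by
        refine tendsto_const_nhds.congr' ?_
        filter_upwards [self_mem_nhdsWithin] with y hy
        exact (hconst y hy).symm
      exact tendsto_nhds_unique h2 h3
    have hxO : x ∈ O := by
      rw [hO]
      exact ⟨hxP, by rw [mem_preimage, hSx]; exact hs1⟩
    have hxo : IsOpen (connectedComponentIn O x) := hOo.connectedComponentIn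
    obtain ⟨y, hy1, hy2⟩ := mem_closure_iff.1 hxc _ hxo (mem_connectedComponentIn hxO)
    have e1 : connectedComponentIn O x = connectedComponentIn O y := connectedComponentIn_eq hy1
    have e2 : connectedComponentIn O x1 = connectedComponentIn O y := connectedComponentIn_eq hy2
    rw [hD, e2, ← e1]
    exact mem_connectedComponentIn hxO
  obtain ⟨e, he1, he2⟩ := Rigid_comp h hx1 fun x hx => hA x (hDs (hCD hx))
  have he0 : e ≠ 0 := by
    rintro rfl
    simp at he1
  obtain ⟨x, hx0', hxe⟩ := Rigid_perp hd e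
  obtain ⟨hxf, hpd⟩ := Rigid_bd h he0 he2 hx0' hxe
  have h1 := h.grad x hxf hx0'
  have h2 : Sw w x1 = 1 := by
    rw [← h1]
    unfold Sw
    exact Finset.sum_congr rfl fun i _ => by rw [hpd i, (he2 x1 he1).2.2 i]
  linarith

/-- near a free boundary point, `w > 0` implies membership in the positivity set -/
theorem pos_near (h : SmoothCone u w U) {z : Ed d} (hz : z ∈ frontier (Pos u)) (hz0 : z ≠ 0) :
    ∀ᶠ y in 𝓝 z, 0 < w y → y ∈ Pos u := by
  obtain ⟨r, hr, hU, h0, hd⟩ := h.exists_ball hz hz0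
  set e := gr w z with he
  have hen : ‖e‖ = 1 := h.norm_gr hz hz0
  have hzc : z ∈ Metric.ball z r := Metric.mem_ball_self hr
  have htop : z + (r / 2) • e ∈ Metric.ball z r := by
    rw [Metric.mem_ball, dist_eq_norm, add_sub_cancel_left, norm_smul, hen, mul_one,
      Real.norm_eq_abs, abs_of_pos (by positivity)]
    linarith
  have hwz : w z = 0 := h.w_zero hz hz0
  have h1 := h.growth hU hd (y := z) (s := r / 2) (by positivity) hzc htop
  have h2 : 0 < w (z + (r / 2) • e) := by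
    rw [hwz] at h1
    linarith
  have h3 : ContinuousAt (fun y => w (y + (r / 2) • e)) z := by
    have h4 : ContinuousAt w (z + (r / 2) • e) := (h.smoothAt (hU htop)).continuousAt
    exact ContinuousAt.comp (f := fun y => y + (r / 2) • e) h4 (by fun_prop)
  have h4 : ∀ᶠ y in 𝓝 z, 0 < w (y + (r / 2) • e) := h3.eventually (lt_mem_nhds h2)
  obtain ⟨r1, hr1, hr1'⟩ := Metric.eventually_nhds_iff_ball.1 h4
  set ρ := min r1 (r / 4) with hρ
  have hρ0 : 0 < ρ := by positivity
  obtain ⟨p, hpP, hpb⟩ : ∃ p ∈ Pos u, p ∈ Metric.ball z ρ := by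
    have := Metric.mem_closure_iff.1 (frontier_subset_closure hz) ρ hρ0
    obtain ⟨p, hp1, hp2⟩ := this
    exact ⟨p, hp1, by rw [Metric.mem_ball, dist_comm]; exact hp2⟩
  have hb4 : ∀ y ∈ Metric.ball z ρ, ∀ t ∈ Icc (0 : ℝ) (r / 2), y + t • e ∈ Metric.ball z r := by
    intro y hy t ht
    have h5 : dist (y + t • e) z ≤ ‖t • e‖ + dist y z := by
      calc dist (y + t • e) z ≤ dist (y + t • e) y + dist y z := dist_triangle _ _ _
        _ = ‖t • e‖ + dist y z := by rw [dist_eq_norm]; simp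
    have h6 : ‖t • e‖ = t := by
      rw [norm_smul, hen, mul_one, Real.norm_eq_abs, abs_of_nonneg ht.1]
    have h7 : dist y z < ρ := hy
    have h8 : ρ ≤ r / 4 := min_le_right _ _
    rw [Metric.mem_ball]
    have := ht.2
    linarith
  have hne0 : ∀ y ∈ Metric.ball z r, y ≠ 0 := by
    rintro y hy rfl
    exact h0 hy
  filter_upwards [Metric.ball_mem_nhds z hρ0] with y hy hwy
  have hA : (fun t : ℝ => p + t • e) '' Icc 0 (r / 2) ⊆ Pos u := by
    refine h.subset_pos (isPreconnected_Icc.image _ (by fun_prop)) ?_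
      (p := p) ⟨0, ⟨le_rfl, by positivity⟩, by simp⟩ hpP
    rintro q ⟨t, ht, rfl⟩
    have hq := hb4 p hpb t ht
    have h5 := h.growth hU hd (y := p) (s := t) ht.1
      (by simpa using hb4 p hpb 0 ⟨le_rfl, by positivity⟩) hq
    have h6 : 0 < w p := by
      rw [h.eq p hpP]
      exact hpP
    have := ht.1
    exact ⟨hne0 _ hq, by change 0 < w (p + t • e); linarith⟩
  have hpt : p + (r / 2) • e ∈ Pos u := hA ⟨r / 2, ⟨by positivity, le_rfl⟩, rfl⟩
  have hB : (fun q => q + (r / 2) • e) '' segment ℝ p y ⊆ Pos u := by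
    refine h.subset_pos ((convex_segment p y).isPreconnected.image _ (by fun_prop)) ?_
      (p := p + (r / 2) • e) ⟨p, left_mem_segment ℝ p y, rfl⟩ hpt
    rintro q' ⟨q, hq, rfl⟩
    have hqb : q ∈ Metric.ball z ρ := (convex_ball z ρ).segment_subset hpb hy hq
    exact ⟨hne0 _ (hb4 q hqb (r / 2) ⟨by positivity, le_rfl⟩),
      hr1' q (Metric.ball_subset_ball (min_le_left _ _) hqb)⟩
  have hyt : y + (r / 2) • e ∈ Pos u := hB ⟨y, right_mem_segment ℝ p y, rfl⟩
  have hC : (fun t : ℝ => y + t • e) '' Icc 0 (r / 2) ⊆ Pos u := by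
    refine h.subset_pos (isPreconnected_Icc.image _ (by fun_prop)) ?_
      (p := y + (r / 2) • e) ⟨r / 2, ⟨by positivity, le_rfl⟩, rfl⟩ hyt
    rintro q ⟨t, ht, rfl⟩
    have hq := hb4 y hy t ht
    have h5 := h.growth hU hd (y := y) (s := t) ht.1
      (by simpa using hb4 y hy 0 ⟨le_rfl, by positivity⟩) hq
    have := ht.1
    exact ⟨hne0 _ hq, by change 0 < w (y + t • e); linarith⟩
  exact hC ⟨0, ⟨le_rfl, by positivity⟩, by simp⟩

/-- **Sign of the mean curvature**: `D²w(∇w,∇w) ≤ 0` on the free boundary. -/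
theorem Q_nonpos (hd : 2 ≤ d) (h : SmoothCone u w U) {z : Ed d} (hz : z ∈ frontier (Pos u))
    (hz0 : z ≠ 0) : Qw w z ≤ 0 := by
  by_contra hcon
  have hQ : 0 < Qw w z := not_le.1 hcon
  have hzU := h.frontier_sub hz hz0
  have hn := h.isOpen.mem_nhds hzU
  have hS : DifferentiableAt ℝ (Sw w) z := (h.smoothS.contDiffAt hn).differentiableAt (by simp)
  -- derivative of `|∇w|²` in the direction of the gradient
  have h1 : fderiv ℝ (Sw w) z (gr w z) = 2 * Qw w z := by
    rw [fderiv_apply_eq]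
    change ∑ k, pd k w z * pd k (Sw w) z = 2 * Qw w z
    have h2 : ∀ k, pd k w z * pd k (Sw w) z = 2 * ∑ i, pd k w z * pd k (pd i w) z * pd i w z := by
      intro k
      rw [h.pdS hzU, ← mul_assoc, mul_comm (pd k w z) 2, mul_assoc, Finset.mul_sum]
      congr 1
      exact Finset.sum_congr rfl fun i _ => by ring
    rw [Finset.sum_congr rfl fun k _ => h2 k, ← Finset.mul_sum]
    rfl
  have h2 : HasDerivAt (fun t : ℝ => Sw w (z + t • gr w z)) (2 * Qw w z) 0 := by
    have h3 : HasDerivAt (fun t : ℝ => z + t • gr w z) (gr w z) 0 := by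
      simpa using ((hasDerivAt_id (0 : ℝ)).smul_const (gr w z)).const_add z
    have h4 : HasFDerivAt (Sw w) (fderiv ℝ (Sw w) z) (z + (0 : ℝ) • gr w z) := by
      rw [zero_smul, add_zero]
      exact hS.hasFDerivAt
    have h5 := h4.comp_hasDerivAt (0 : ℝ) h3
    rw [h1] at h5
    exact h5
  have h3 : HasDerivAt (fun t : ℝ => w (z + t • gr w z)) 1 0 := by
    have h3 : HasDerivAt (fun t : ℝ => z + t • gr w z) (gr w z) 0 := by
      simpa using ((hasDerivAt_id (0 : ℝ)).smul_const (gr w z)).const_add z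
    have h4 : HasFDerivAt w (fderiv ℝ w z) (z + (0 : ℝ) • gr w z) := by
      rw [zero_smul, add_zero]
      exact (h.diff0 hzU).hasFDerivAt
    have h5 := h4.comp_hasDerivAt (0 : ℝ) h3
    have h6 : fderiv ℝ w z (gr w z) = 1 := by
      rw [fderiv_gr, ← h.grad z hz hz0]
      exact Finset.sum_congr rfl fun i _ => by ring
    rw [h6] at h5
    exact h5
  have hline : Tendsto (fun t : ℝ => z + t • gr w z) (𝓝[>] 0) (𝓝 z) := by
    have h6 : Tendsto (fun t : ℝ => z + t • gr w z) (𝓝 0) (𝓝 (z + (0 : ℝ) • gr w z)) := by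
      have : Continuous (fun t : ℝ => z + t • gr w z) := by fun_prop
      exact this.tendsto 0
    rw [zero_smul, add_zero] at h6
    exact h6.mono_left nhdsWithin_le_nhds
  have hSz : Sw w z = 1 := h.grad z hz hz0
  have hev1 : ∀ᶠ t in 𝓝[>] (0 : ℝ), 1 < Sw w (z + t • gr w z) := by
    have h4 := h2.tendsto_slope_zero_right
    have h5 := h4.eventually (lt_mem_nhds (show (0 : ℝ) < 2 * Qw w z by positivity))
    filter_upwards [h5, self_mem_nhdsWithin] with t ht ht0
    have ht0' : 0 < t := ht0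
    rw [zero_add, zero_smul, add_zero, hSz, smul_eq_mul] at ht
    have h6 : 0 < t * (t⁻¹ * (Sw w (z + t • gr w z) - 1)) := mul_pos ht0' ht
    rw [← mul_assoc, mul_inv_cancel₀ ht0'.ne', one_mul] at h6
    linarith
  have hev2 : ∀ᶠ t in 𝓝[>] (0 : ℝ), 0 < w (z + t • gr w z) := by
    have h4 := h3.tendsto_slope_zero_right
    have h5 := h4.eventually (lt_mem_nhds (zero_lt_one' ℝ))
    filter_upwards [h5, self_mem_nhdsWithin] with t ht ht0
    have ht0' : 0 < t := ht0
    rw [zero_add, zero_smul, add_zero, h.w_zero hz hz0, smul_eq_mul, sub_zero] at ht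
    have h6 : 0 < t * (t⁻¹ * w (z + t • gr w z)) := mul_pos ht0' ht
    rwa [← mul_assoc, mul_inv_cancel₀ ht0'.ne', one_mul] at h6
  have hev3 := hline.eventually (h.pos_near hz hz0)
  obtain ⟨t, ht1, ht2, ht3⟩ := (hev1.and (hev2.and hev3)).exists
  exact absurd (grad_le_one hd h (ht3 ht2)) (not_le.2 ht1)

end SmoothCone

end

end Vale.Agent.P098
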