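import Vale.Agent.Lib.P098.Var.Vanish

/-!
# P098: the Hardy step for a homogeneous density `F`
-/

open MeasureTheory Set Filter Topology Metric
open scoped ContDiff

namespace Vale.Agent.P098

section

variable {d : ℕ} {u w F : Ed d → ℝ} {U : Set (Ed d)} {α c : ℝ}

/-- **Hardy step.**  A nonnegative density `F`, homogeneous of degree `-2α` on the cone, with
`∫ F (|∇ζ|² - c ζ²/|x|²) ≥ 0` for all radial `ζ = ψ(log |x|) ≥ 0` and `c > ((d-2)/2 - α)²`,
vanishes. -/
theorem hardy_vanish (h : SmoothCone u w U) (hFc : ContinuousOn F U)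
    (hF0 : ∀ x ∈ Pos u, 0 ≤ F x)
    (hFh : ∀ x ∈ Pos u, ∀ r : ℝ, 0 < r → F (r • x) = r ^ (-(2 * α)) * F x)
    (hineq : ∀ ψ : ℝ → ℝ, ContDiff ℝ ∞ ψ → HasCompactSupport ψ → (∀ s, 0 ≤ ψ s) →
      0 ≤ ∫ x in Pos u, F x * (∑ i, pd i (radz ψ) x ^ 2 - c * (radz ψ x ^ 2 / ‖x‖ ^ 2)))
    (hc : (((d : ℝ) - 2) / 2 - α) ^ 2 < c) : ∀ x ∈ Pos u, F x = 0 := by
  intro x0 hx0
  have hx00 : x0 ≠ 0 := h.ne_zero hx0
  have hd : 0 < d := by
    rcases Nat.eq_zero_or_pos d with h0 | h0
    · subst h0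
      exact absurd (Subsingleton.elim x0 0) hx00
    · exact h0
  have hc0 : 0 ≤ c := (sq_nonneg _).trans hc.le
  set β : ℝ := α - ((d : ℝ) - 2) / 2 with hβ
  have hβc : β ^ 2 < c := by
    have e : β ^ 2 = (((d : ℝ) - 2) / 2 - α) ^ 2 := by rw [hβ]; ring
    rw [e]
    exact hc
  obtain ⟨η, hη, hηs, hη0, hηneg⟩ := exists_eta β c hβc
  -- the radial test function
  set ψ : ℝ → ℝ := fun s => Real.exp (β * s) * η s with hψ
  have hψc : ContDiff ℝ ∞ ψ := (contDiff_const.mul contDiff_id).exp.mul hη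
  have hψs : HasCompactSupport ψ := hηs.mul_left
  have hψ0 : ∀ s, 0 ≤ ψ s := fun s => mul_nonneg (Real.exp_pos _).le (hη0 s)
  have hψd : ∀ s, deriv ψ s = Real.exp (β * s) * (β * η s + deriv η s) := by
    intro s
    have h1 : HasDerivAt (fun s => Real.exp (β * s)) (Real.exp (β * s) * β) s := by
      simpa using ((hasDerivAt_id s).const_mul β).exp
    have h2 : HasDerivAt η (deriv η s) s := (hη.differentiable (by simp) s).hasDerivAt
    have h3 : HasDerivAt ψ (Real.exp (β * s) * β * η s + Real.exp (β * s) * deriv η s) s :=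
      h1.mul h2
    rw [h3.deriv]
    ring
  have key := hineq ψ hψc hψs hψ0
  -- polar coordinates
  set A : Ed d → ℝ := (Pos u).indicator F with hA
  set B : ℝ → ℝ := fun r => (deriv ψ (Real.log r) ^ 2 - c * ψ (Real.log r) ^ 2) / r ^ 2 with hB
  have e1 : ∫ x in Pos u, F x * (∑ i, pd i (radz ψ) x ^ 2 - c * (radz ψ x ^ 2 / ‖x‖ ^ 2)) =
      ∫ x, A x * B ‖x‖ := by
    rw [← integral_indicator h.isOpen_pos.measurableSet]
    refine integral_congr_ae (Eventually.of_forall fun x => ?_)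
    change (Pos u).indicator (fun x => F x * (∑ i, pd i (radz ψ) x ^ 2 -
      c * (radz ψ x ^ 2 / ‖x‖ ^ 2))) x = A x * B ‖x‖
    by_cases hx : x ∈ Pos u
    · have hx0 : x ≠ 0 := h.ne_zero hx
      rw [hA, indicator_of_mem hx, indicator_of_mem hx, sum_pd_radz hψc hx0, radz_apply ψ hx0]
      change _ = F x * ((deriv ψ (Real.log ‖x‖) ^ 2 - c * ψ (Real.log ‖x‖) ^ 2) / ‖x‖ ^ 2)
      ring
    · rw [hA, indicator_of_notMem hx, indicator_of_notMem hx, zero_mul]
  have hAhom : ∀ x : Ed d, ‖x‖ = 1 → ∀ r : ℝ, 0 < r → A (r • x) = r ^ (-(2 * α)) * A x := by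
    intro x _ r hr
    by_cases hx : x ∈ Pos u
    · rw [hA, indicator_of_mem (h.smul_mem hx hr), indicator_of_mem hx, hFh x hx r hr]
    · have hx' : r • x ∉ Pos u := by
        intro hx'
        apply hx
        have h1 := h.smul_mem hx' (inv_pos.2 hr)
        rwa [smul_smul, inv_mul_cancel₀ hr.ne', one_smul] at h1
      rw [hA, indicator_of_notMem hx, indicator_of_notMem hx', mul_zero]
  rw [e1, polar_hom hd A (-(2 * α)) hAhom B] at key
  have e2 : ∫ r in Ioi (0 : ℝ), r ^ (d - 1) * (r ^ (-(2 * α)) * B r) =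
      ∫ s, ((β * η s + deriv η s) ^ 2 - c * η s ^ 2) := by
    rw [← integral_log]
    refine setIntegral_congr_fun measurableSet_Ioi fun r hr => ?_
    have hr0 : 0 < r := hr
    change r ^ (d - 1) * (r ^ (-(2 * α)) * ((deriv ψ (Real.log r) ^ 2 -
      c * ψ (Real.log r) ^ 2) / r ^ 2)) = _
    rw [hψd, hψ]
    have h1 : Real.exp (β * Real.log r) = r ^ β := by
      rw [Real.rpow_def_of_pos hr0, mul_comm]
    have h2 : (r : ℝ) ^ (d - 1) = r ^ ((d : ℝ) - 1) := by
      rw [← Real.rpow_natCast, Nat.cast_sub hd]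
      simp
    have h3 : (r : ℝ) ^ 2 = r ^ (2 : ℝ) := by
      rw [← Real.rpow_natCast]
      norm_num
    have h4 : r ^ ((d : ℝ) - 1) * r ^ (-(2 * α)) * (r ^ β * r ^ β) / r ^ (2 : ℝ) = r⁻¹ := by
      rw [← Real.rpow_add hr0, ← Real.rpow_add hr0, ← Real.rpow_add hr0, ← Real.rpow_sub hr0,
        ← Real.rpow_neg_one]
      congr 1
      rw [hβ]
      ring
    simp only []
    rw [h1, h2, h3]
    calc r ^ ((d : ℝ) - 1) * (r ^ (-(2 * α)) * (((r ^ β * (β * η (Real.log r) +
          deriv η (Real.log r))) ^ 2 - c * (r ^ β * η (Real.log r)) ^ 2) / r ^ (2 : ℝ))) =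
        (r ^ ((d : ℝ) - 1) * r ^ (-(2 * α)) * (r ^ β * r ^ β) / r ^ (2 : ℝ)) *
          ((β * η (Real.log r) + deriv η (Real.log r)) ^ 2 - c * η (Real.log r) ^ 2) := by
          ring
      _ = _ := by rw [h4]
  rw [e2] at key
  -- the integral of `A` over the sphere vanishes
  have hcontE : ContinuousOn F (Pos u) := hFc.mono h.pos_sub
  have hAm : Measurable A := by
    rw [hA]
    classical
    have h2 := hcontE.measurable_piecewise (g := fun _ => (0 : ℝ)) continuousOn_const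
      h.isOpen_pos.measurableSet
    have h3 : (Pos u).piecewise F (fun _ => (0 : ℝ)) = (Pos u).indicator F := by
      funext x
      by_cases hx : x ∈ Pos u
      · rw [piecewise_eq_of_mem _ _ _ hx, indicator_of_mem hx]
      · rw [piecewise_eq_of_notMem _ _ _ hx, indicator_of_notMem hx]
    rw [h3] at h2
    exact h2
  have hA0 : ∀ x, 0 ≤ A x := fun x => indicator_nonneg hF0 x
  have hKc : IsCompact (closure (Pos u) ∩ sphere (0 : Ed d) 1) :=
    (isCompact_sphere _ _).inter_left isClosed_closure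
  have hKU : closure (Pos u) ∩ sphere (0 : Ed d) 1 ⊆ U := by
    rintro x ⟨hx1, hx2⟩
    refine h.sub ⟨hx1, ?_⟩
    rintro rfl
    simp at hx2
  obtain ⟨M, hM⟩ := hKc.exists_bound_of_continuousOn (hFc.mono hKU)
  have hAint : Integrable (fun y : sphere (0 : Ed d) 1 => A y)
      (volume : Measure (Ed d)).toSphere := by
    refine Integrable.of_bound (hAm.comp measurable_subtype_coe).aestronglyMeasurable |M|
      (Eventually.of_forall fun y => ?_)
    by_cases hy : (y : Ed d) ∈ Pos u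
    · rw [hA, indicator_of_mem hy]
      exact (hM _ ⟨subset_closure hy, y.2⟩).trans (le_abs_self M)
    · rw [hA, indicator_of_notMem hy, norm_zero]
      exact abs_nonneg M
  have hCle : (∫ y : sphere (0 : Ed d) 1, A y ∂(volume : Measure (Ed d)).toSphere) ≤ 0 := by
    by_contra hpos
    have := mul_neg_of_pos_of_neg (not_le.1 hpos) hηneg
    linarith
  have hCge : 0 ≤ ∫ y : sphere (0 : Ed d) 1, A y ∂(volume : Measure (Ed d)).toSphere :=
    integral_nonneg fun y => hA0 y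
  have hC0 : ∫ y : sphere (0 : Ed d) 1, A y ∂(volume : Measure (Ed d)).toSphere = 0 :=
    le_antisymm hCle hCge
  have hae : (fun y : sphere (0 : Ed d) 1 => A y) =ᵐ[(volume : Measure (Ed d)).toSphere] 0 :=
    (integral_eq_zero_iff_of_nonneg (f := fun y : sphere (0 : Ed d) 1 => A y)
      (fun y => hA0 y) hAint).1 hC0
  -- `F = 0` on the unit sphere
  have hsph : ∀ y : Ed d, ‖y‖ = 1 → y ∈ Pos u → F y = 0 := by
    intro y hy hyP
    by_contra hne
    have hopen : IsOpen {z : sphere (0 : Ed d) 1 | (z : Ed d) ∈ Pos u ∧ F z ≠ 0} := by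
      have h1 : IsOpen (Pos u ∩ F ⁻¹' {0}ᶜ) :=
        hcontE.isOpen_inter_preimage h.isOpen_pos isOpen_compl_singleton
      exact h1.preimage continuous_subtype_val
    have hmeas : (volume : Measure (Ed d)).toSphere
        {z : sphere (0 : Ed d) 1 | (z : Ed d) ∈ Pos u ∧ F z ≠ 0} = 0 := by
      refine measure_mono_null ?_ (ae_iff.1 hae)
      rintro z ⟨hz1, hz2⟩
      change ¬ A z = 0
      rw [hA, indicator_of_mem hz1]
      exact hz2
    exact (hopen.measure_pos (volume : Measure (Ed d)).toSphere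
      ⟨⟨y, by simpa using hy⟩, hyP, hne⟩).ne' hmeas
  have hn : 0 < ‖x0‖ := norm_pos_iff.2 hx00
  have hy1 : ‖‖x0‖⁻¹ • x0‖ = 1 := by
    rw [norm_smul, norm_inv, norm_norm, inv_mul_cancel₀ hn.ne']
  have hyP : ‖x0‖⁻¹ • x0 ∈ Pos u := h.smul_mem hx0 (inv_pos.2 hn)
  have h1 := hFh _ hyP ‖x0‖ hn
  rw [smul_smul, mul_inv_cancel₀ hn.ne', one_smul, hsph _ hy1 hyP, mul_zero] at h1
  exact h1

end

end Vale.Agent.P098
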