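import Vale.Agent.Lib.P098.Var.JetDef
import Vale.Agent.Lib.P098.Var.Field

/-!
# P098: homogeneous extension of coefficient functions
-/

open MeasureTheory Set Filter Topology
open scoped ContDiff

namespace Vale.Agent.P098

/-- the coefficient as a function on `ℝ³` -/
def Coef.G (c : Coef) (y : Fin 3 → ℝ) : ℝ := c.f (y 0) (y 1) (y 2)

/-- extension of homogeneity `k` -/
noncomputable def Coef.hom (c : Coef) (k : ℝ) (v : Fin 4 → ℝ) : ℝ :=
  v 3 ^ (k / 2) * c.f (v 0 / Real.sqrt (v 3)) (v 1) (v 3 * v 2)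

theorem fderiv_single {n : ℕ} {G : (Fin n → ℝ) → ℝ} {y : Fin n → ℝ}
    (hG : DifferentiableAt ℝ G y) (i : Fin n) {g' : ℝ}
    (h : HasDerivAt (fun t => G (Function.update y i t)) g' (y i)) :
    fderiv ℝ G y (Pi.single i 1) = g' := by
  have h1 : HasDerivAt (fun t : ℝ => Function.update y i t) (Pi.single i 1) (y i) :=
    hasDerivAt_update y i (y i)
  have h2 : HasFDerivAt G (fderiv ℝ G y) (Function.update y i (y i)) := by
    rw [Function.update_eq_self]
    exact hG.hasFDerivAt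
  exact (h2.comp_hasDerivAt (y i) h1).unique h

namespace Coef

variable {c : Coef} {k : ℝ}

theorem G_diff (hc : c.Good) {y : Fin 3 → ℝ} (hy : 0 < y 2) : DifferentiableAt ℝ c.G y :=
  (hc.smooth y hy).differentiableAt (by simp)

theorem fderiv_G (hc : c.Good) {y : Fin 3 → ℝ} (hy : 0 < y 2) (z : Fin 3 → ℝ) :
    fderiv ℝ c.G y z = c.fu (y 0) (y 1) (y 2) * z 0 + c.fs (y 0) (y 1) (y 2) * z 1 +
      c.fN (y 0) (y 1) (y 2) * z 2 := by
  have hd := c.G_diff hc hy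
  have h0 : fderiv ℝ c.G y (Pi.single 0 1) = c.fu (y 0) (y 1) (y 2) := by
    refine fderiv_single hd 0 ?_
    have h := hc.hu (y 0) (y 1) (y 2) hy
    refine h.congr_of_eventuallyEq (Eventually.of_forall fun t => ?_)
    simp [G, Function.update]
  have h1 : fderiv ℝ c.G y (Pi.single 1 1) = c.fs (y 0) (y 1) (y 2) := by
    refine fderiv_single hd 1 ?_
    have h := hc.hs (y 0) (y 1) (y 2) hy
    refine h.congr_of_eventuallyEq (Eventually.of_forall fun t => ?_)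
    simp [G, Function.update]
  have h2 : fderiv ℝ c.G y (Pi.single 2 1) = c.fN (y 0) (y 1) (y 2) := by
    refine fderiv_single hd 2 ?_
    have h := hc.hN (y 0) (y 1) (y 2) hy
    refine h.congr_of_eventuallyEq (Eventually.of_forall fun t => ?_)
    simp [G, Function.update]
  have hz : z = z 0 • (Pi.single 0 1 : Fin 3 → ℝ) + z 1 • (Pi.single 1 1 : Fin 3 → ℝ) +
      z 2 • (Pi.single 2 1 : Fin 3 → ℝ) := by
    funext i
    fin_cases i <;> simp
  rw [hz, map_add, map_add, map_smul, map_smul, map_smul, h0, h1, h2]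
  simp only [smul_eq_mul]
  simp
  ring

/-- derivative along a curve -/
theorem comp_deriv (hc : c.Good) {a b m : ℝ → ℝ} {a' b' m' t : ℝ} (ha : HasDerivAt a a' t)
    (hb : HasDerivAt b b' t) (hm : HasDerivAt m m' t) (h0 : 0 < m t) :
    HasDerivAt (fun t => c.f (a t) (b t) (m t)) (c.fu (a t) (b t) (m t) * a' +
      c.fs (a t) (b t) (m t) * b' + c.fN (a t) (b t) (m t) * m') t := by
  have h1 : HasDerivAt (fun t : ℝ => (![a t, b t, m t] : Fin 3 → ℝ)) ![a', b', m'] t := by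
    rw [hasDerivAt_pi]
    intro i
    fin_cases i
    · exact ha
    · exact hb
    · exact hm
  have hd : DifferentiableAt ℝ c.G ![a t, b t, m t] := c.G_diff hc h0
  have h2 := hd.hasFDerivAt.comp_hasDerivAt t h1
  rw [c.fderiv_G hc (by exact h0)] at h2
  exact h2

theorem hom_smooth (hc : c.Good) {v : Fin 4 → ℝ} (h3 : 0 < v 3) (h2 : 0 < v 2) :
    ContDiffAt ℝ ∞ (c.hom k) v := by
  have hp : ∀ i, ContDiffAt ℝ ∞ (fun v : Fin 4 → ℝ => v i) v := fun i =>
    (contDiff_apply ℝ ℝ i).contDiffAt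
  have e1 : ContDiffAt ℝ ∞ (fun v : Fin 4 → ℝ => v 3 ^ (k / 2)) v :=
    (hp 3).rpow_const_of_ne h3.ne'
  have hs : ContDiffAt ℝ ∞ (fun v : Fin 4 → ℝ => Real.sqrt (v 3)) v := (hp 3).sqrt h3.ne'
  have hs0 : Real.sqrt (v 3) ≠ 0 := (Real.sqrt_pos.2 h3).ne'
  have e2 : ContDiffAt ℝ ∞ (fun v : Fin 4 → ℝ =>
      (![v 0 / Real.sqrt (v 3), v 1, v 3 * v 2] : Fin 3 → ℝ)) v := by
    rw [contDiffAt_pi]
    intro i
    fin_cases i
    · exact (hp 0).div hs hs0
    · exact hp 1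
    · exact (hp 3).mul (hp 2)
  have e3 : ContDiffAt ℝ ∞ (fun v : Fin 4 → ℝ =>
      c.f (v 0 / Real.sqrt (v 3)) (v 1) (v 3 * v 2)) v := by
    have e4 := hc.smooth ![v 0 / Real.sqrt (v 3), v 1, v 3 * v 2]
      (show 0 < v 3 * v 2 by positivity)
    exact e4.comp v e2
  exact e1.mul e3

theorem hom_diff (hc : c.Good) {v : Fin 4 → ℝ} (h3 : 0 < v 3) (h2 : 0 < v 2) :
    DifferentiableAt ℝ (c.hom k) v :=
  (hom_smooth hc h3 h2).differentiableAt (by simp)

theorem dc0 (hc : c.Good) {v : Fin 4 → ℝ} (h3 : 0 < v 3) (h2 : 0 < v 2) :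
    dc 0 (c.hom k) v = v 3 ^ (k / 2) *
      (c.fu (v 0 / Real.sqrt (v 3)) (v 1) (v 3 * v 2) * (1 / Real.sqrt (v 3))) := by
  have hN : 0 < v 3 * v 2 := by positivity
  have h : HasDerivAt (fun t => v 3 ^ (k / 2) * c.f (t / Real.sqrt (v 3)) (v 1) (v 3 * v 2))
      (v 3 ^ (k / 2) * (c.fu (v 0 / Real.sqrt (v 3)) (v 1) (v 3 * v 2) *
        (1 / Real.sqrt (v 3)))) (v 0) := by
    have h1 := comp_deriv hc ((hasDerivAt_id (v 0)).div_const (Real.sqrt (v 3)))
      (hasDerivAt_const (v 0) (v 1)) (hasDerivAt_const (v 0) (v 3 * v 2)) hN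
    have h4 := h1.const_mul (v 3 ^ (k / 2))
    simpa using h4
  refine fderiv_single (hom_diff hc h3 h2) 0 (h.congr_of_eventuallyEq
    (Eventually.of_forall fun t => ?_))
  simp [hom, Function.update]

theorem dc1 (hc : c.Good) {v : Fin 4 → ℝ} (h3 : 0 < v 3) (h2 : 0 < v 2) :
    dc 1 (c.hom k) v = v 3 ^ (k / 2) * c.fs (v 0 / Real.sqrt (v 3)) (v 1) (v 3 * v 2) := by
  have hN : 0 < v 3 * v 2 := by positivity
  have h : HasDerivAt (fun t => v 3 ^ (k / 2) * c.f (v 0 / Real.sqrt (v 3)) t (v 3 * v 2))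
      (v 3 ^ (k / 2) * c.fs (v 0 / Real.sqrt (v 3)) (v 1) (v 3 * v 2)) (v 1) :=
    (hc.hs _ _ _ hN).const_mul _
  refine fderiv_single (hom_diff hc h3 h2) 1 (h.congr_of_eventuallyEq
    (Eventually.of_forall fun t => ?_))
  simp [hom, Function.update]

theorem dc2 (hc : c.Good) {v : Fin 4 → ℝ} (h3 : 0 < v 3) (h2 : 0 < v 2) :
    dc 2 (c.hom k) v = v 3 ^ (k / 2) *
      (c.fN (v 0 / Real.sqrt (v 3)) (v 1) (v 3 * v 2) * v 3) := by
  have hN : 0 < v 3 * v 2 := by positivity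
  have h : HasDerivAt (fun t => v 3 ^ (k / 2) * c.f (v 0 / Real.sqrt (v 3)) (v 1) (v 3 * t))
      (v 3 ^ (k / 2) * (c.fN (v 0 / Real.sqrt (v 3)) (v 1) (v 3 * v 2) * v 3)) (v 2) := by
    have h1 := comp_deriv hc (hasDerivAt_const (v 2) (v 0 / Real.sqrt (v 3)))
      (hasDerivAt_const (v 2) (v 1)) ((hasDerivAt_id (v 2)).const_mul (v 3)) hN
    have h4 := h1.const_mul (v 3 ^ (k / 2))
    simpa using h4
  refine fderiv_single (hom_diff hc h3 h2) 2 (h.congr_of_eventuallyEq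
    (Eventually.of_forall fun t => ?_))
  simp [hom, Function.update]

theorem dc3 (hc : c.Good) {v : Fin 4 → ℝ} (h3 : 0 < v 3) (h2 : 0 < v 2) :
    dc 3 (c.hom k) v = v 3 ^ (k / 2) / v 3 *
      (k / 2 * c.f (v 0 / Real.sqrt (v 3)) (v 1) (v 3 * v 2) -
        v 0 / Real.sqrt (v 3) / 2 * c.fu (v 0 / Real.sqrt (v 3)) (v 1) (v 3 * v 2) +
        v 3 * v 2 * c.fN (v 0 / Real.sqrt (v 3)) (v 1) (v 3 * v 2)) := by
  have hN : 0 < v 3 * v 2 := by positivity
  have hs0 : 0 < Real.sqrt (v 3) := Real.sqrt_pos.2 h3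
  have hss : Real.sqrt (v 3) * Real.sqrt (v 3) = v 3 := Real.mul_self_sqrt h3.le
  have h : HasDerivAt (fun t => t ^ (k / 2) * c.f (v 0 / Real.sqrt t) (v 1) (t * v 2))
      (v 3 ^ (k / 2) / v 3 *
      (k / 2 * c.f (v 0 / Real.sqrt (v 3)) (v 1) (v 3 * v 2) -
        v 0 / Real.sqrt (v 3) / 2 * c.fu (v 0 / Real.sqrt (v 3)) (v 1) (v 3 * v 2) +
        v 3 * v 2 * c.fN (v 0 / Real.sqrt (v 3)) (v 1) (v 3 * v 2))) (v 3) := by
    have ha : HasDerivAt (fun t => v 0 / Real.sqrt t)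
        (-(v 0 / Real.sqrt (v 3)) / (2 * v 3)) (v 3) := by
      have h1 := (hasDerivAt_const (v 3) (v 0)).div (Real.hasDerivAt_sqrt h3.ne') hs0.ne'
      refine h1.congr_deriv ?_
      rw [sq, hss]
      field_simp
      ring
    have hb : HasDerivAt (fun t : ℝ => t * v 2) (v 2) (v 3) := by
      simpa using (hasDerivAt_id (v 3)).mul_const (v 2)
    have h1 := comp_deriv hc ha (hasDerivAt_const (v 3) (v 1)) hb hN
    have h2' : HasDerivAt (fun t : ℝ => t ^ (k / 2)) (k / 2 * v 3 ^ (k / 2 - 1)) (v 3) :=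
      Real.hasDerivAt_rpow_const (Or.inl h3.ne')
    refine (h2'.mul h1).congr_deriv ?_
    rw [Real.rpow_sub_one h3.ne']
    field_simp
    ring
  refine fderiv_single (hom_diff hc h3 h2) 3 (h.congr_of_eventuallyEq
    (Eventually.of_forall fun t => ?_))
  simp [hom, Function.update]

end Coef

end Vale.Agent.P098
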