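import Mathlib

/-!
# P098: algebraic data of a certificate

Jets `(x, p, A, T)` at a point `|x| = 1` of a one-homogeneous harmonic function (`p` gradient,
`A` Hessian, `T` third derivatives) and certificates: coefficient functions of
`(u, s, N) = (x·p, |p|², |A|²)` satisfying one interior and one boundary inequality.
-/

namespace Vale.Agent.P098

section jets

variable {d : ℕ}

/-- scalar product -/
def dot (a b : Fin d → ℝ) : ℝ := ∑ i, a i * b i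

/-- matrix times vector -/
def mv (A : Fin d → Fin d → ℝ) (q : Fin d → ℝ) (i : Fin d) : ℝ := ∑ j, A i j * q j

/-- `X = A : T`, half of the gradient of `|A|²` -/
def jX (A : Fin d → Fin d → ℝ) (T : Fin d → Fin d → Fin d → ℝ) (i : Fin d) : ℝ :=
  ∑ j, ∑ k, A j k * T i j k

/-- `|A|²` -/
def jN (A : Fin d → Fin d → ℝ) : ℝ := ∑ i, ∑ j, A i j ^ 2

/-- `|T|²` -/
def jT (T : Fin d → Fin d → Fin d → ℝ) : ℝ := ∑ k, ∑ i, ∑ j, T k i j ^ 2

/-- `tr A³` -/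
def jC3 (A : Fin d → Fin d → ℝ) : ℝ := ∑ i, ∑ j, (∑ l, A i l * A l j) * A i j

/-- `tr A⁴` -/
def jC4 (A : Fin d → Fin d → ℝ) : ℝ := ∑ i, ∑ j, A i j * ∑ k, A j k * ∑ l, A k l * A i l

/-- `⟨T : A², p⟩` -/
def jY (A : Fin d → Fin d → ℝ) (T : Fin d → Fin d → Fin d → ℝ) (p : Fin d → ℝ) : ℝ :=
  ∑ i, ∑ j, A i j * ∑ k, A j k * ∑ l, T i k l * p l

/-- interior jets at a point `x` of the unit sphere -/
structure Jet (x p : Fin d → ℝ) (A : Fin d → Fin d → ℝ) (T : Fin d → Fin d → Fin d → ℝ) :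
    Prop where
  unit : ∑ i, x i ^ 2 = 1
  symA : ∀ i j, A i j = A j i
  trA : ∑ i, A i i = 0
  Ax : ∀ j, ∑ i, x i * A i j = 0
  symT1 : ∀ i j k, T i j k = T j i k
  symT2 : ∀ i j k, T i j k = T i k j
  trT : ∀ k, ∑ i, T i i k = 0
  Tx : ∀ j k, ∑ i, x i * T i j k = -A j k

/-- boundary jets at a point `x` of the unit sphere, `Q = A(p,p)` is minus the mean curvature -/
structure BJet (x p : Fin d → ℝ) (A : Fin d → Fin d → ℝ) (Q : ℝ) : Prop where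
  unit : ∑ i, x i ^ 2 = 1
  symA : ∀ i j, A i j = A j i
  trA : ∑ i, A i i = 0
  Ax : ∀ j, ∑ i, x i * A i j = 0
  xp : ∑ i, x i * p i = 0
  pp : ∑ i, p i ^ 2 = 1
  Ap : ∀ i, mv A p i = Q * p i
  neg : Q ≤ 0

/-- a coefficient function of `(u, s, N)` with its derivatives -/
structure Coef where
  f : ℝ → ℝ → ℝ → ℝ
  fu : ℝ → ℝ → ℝ → ℝ
  fs : ℝ → ℝ → ℝ → ℝ
  fN : ℝ → ℝ → ℝ → ℝ

/-- `⟨∇c, F⟩` for the extension of `c` with homogeneity `k` -/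
def Coef.dd (c : Coef) (k : ℝ) (x p : Fin d → ℝ) (A : Fin d → Fin d → ℝ)
    (T : Fin d → Fin d → Fin d → ℝ) (F : Fin d → ℝ) : ℝ :=
  c.fu (dot x p) (dot p p) (jN A) * dot p F +
  2 * c.fs (dot x p) (dot p p) (jN A) * dot (mv A p) F +
  2 * c.fN (dot x p) (dot p p) (jN A) * dot (jX A T) F +
  (k * c.f (dot x p) (dot p p) (jN A) - dot x p * c.fu (dot x p) (dot p p) (jN A) +
    2 * jN A * c.fN (dot x p) (dot p p) (jN A)) * dot x F

/-- the six coefficient functions `E = φ`, `Z = g X + f₀ p + f₁ Ap + f₂ A²p + f₃ A³p + f₄ x` at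
`|x| = 1` (`f₄` is determined by `x·Z = -α E`) -/
structure CoefSys where
  φ : Coef
  g : Coef
  f0 : Coef
  f1 : Coef
  f2 : Coef
  f3 : Coef

/-- the divergence of `Z` -/
def CoefSys.div (C : CoefSys) (α : ℝ) (x p : Fin d → ℝ) (A : Fin d → Fin d → ℝ)
    (T : Fin d → Fin d → Fin d → ℝ) : ℝ :=
  C.g.dd (2 - 2 * α) x p A T (jX A T) + C.g.f (dot x p) (dot p p) (jN A) * jT T +
  C.f0.dd (-1 - 2 * α) x p A T p +
  (C.f1.dd (-2 * α) x p A T (mv A p) + C.f1.f (dot x p) (dot p p) (jN A) * jN A) +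
  (C.f2.dd (1 - 2 * α) x p A T (mv A (mv A p)) +
    C.f2.f (dot x p) (dot p p) (jN A) * (dot (jX A T) p + jC3 A)) +
  (C.f3.dd (2 - 2 * α) x p A T (mv A (mv A (mv A p))) +
    C.f3.f (dot x p) (dot p p) (jN A) * (dot (jX A T) (mv A p) + jY A T p + jC4 A)) +
  (d - 2 - 2 * α) * (C.g.f (dot x p) (dot p p) (jN A) * jN A -
    C.f0.f (dot x p) (dot p p) (jN A) * dot x p - α * C.φ.f (dot x p) (dot p p) (jN A))

/-- the square of the gradient of `E` -/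
def CoefSys.gr (C : CoefSys) (α : ℝ) (x p : Fin d → ℝ) (A : Fin d → Fin d → ℝ)
    (T : Fin d → Fin d → Fin d → ℝ) : ℝ :=
  ∑ i, (C.φ.fu (dot x p) (dot p p) (jN A) * p i +
    2 * C.φ.fs (dot x p) (dot p p) (jN A) * mv A p i +
    2 * C.φ.fN (dot x p) (dot p p) (jN A) * jX A T i +
    (-2 * α * C.φ.f (dot x p) (dot p p) (jN A) -
      dot x p * C.φ.fu (dot x p) (dot p p) (jN A) +
      2 * jN A * C.φ.fN (dot x p) (dot p p) (jN A)) * x i) ^ 2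

/-- **Certificates.**  `κ` is the constant in `s + κ u² N ≤ 1`, `a` the exponent of `N`. -/
structure CertData (d : ℕ) (α γ a κ : ℝ) (C : CoefSys) : Prop where
  a_lo : 1 / 2 < a
  a_hi : a < 1
  /-- interior inequality -/
  int : ∀ (x p : Fin d → ℝ) (A : Fin d → Fin d → ℝ) (T : Fin d → Fin d → Fin d → ℝ),
    Jet x p A T → 0 < dot x p → dot p p + κ * (dot x p ^ 2 * jN A) ≤ 1 → 0 < jN A →
    γ * C.φ.f (dot x p) (dot p p) (jN A) ≤
      C.div α x p A T - C.gr α x p A T / (4 * C.φ.f (dot x p) (dot p p) (jN A))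
  /-- boundary inequality -/
  bdry : ∀ (x p : Fin d → ℝ) (A : Fin d → Fin d → ℝ) (Q : ℝ), BJet x p A Q → 0 < jN A →
    Q * C.φ.f 0 1 (jN A) ≤ C.g.f 0 1 (jN A) * (2 * Q * jN A - jC3 A) +
      C.f0.f 0 1 (jN A) + C.f1.f 0 1 (jN A) * Q + C.f2.f 0 1 (jN A) * Q ^ 2 +
      C.f3.f 0 1 (jN A) * Q ^ 3
  /-- positivity with a lower bound -/
  lower : ∀ R : ℝ, ∃ c : ℝ, 0 < c ∧ ∀ u s N : ℝ, 0 ≤ u → 0 ≤ s → 0 < N → N ≤ R → u ≤ R →
    s + κ * (u ^ 2 * N) ≤ 1 → c * N ^ a ≤ C.φ.f u s N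
  zero : ∀ u s : ℝ, C.φ.f u s 0 = 0
  /-- upper bounds near `N = 0` -/
  upper : ∀ R : ℝ, ∃ c : ℝ, ∀ u s N : ℝ, |u| ≤ R → |s| ≤ R → 0 < N → N ≤ R →
    |C.φ.f u s N| ≤ c * N ^ a ∧ |C.φ.fu u s N| ≤ c * N ^ a ∧ |C.φ.fs u s N| ≤ c * N ^ a ∧
    |C.φ.fN u s N| ≤ c * N ^ (a - 1) ∧ |C.g.f u s N| ≤ c * N ^ (a - 1) ∧
    |C.f0.f u s N| ≤ c * N ^ a ∧ |C.f1.f u s N| ≤ c * N ^ (a - 1 / 2) ∧
    |C.f2.f u s N| ≤ c * N ^ (a - 1) ∧ |C.f3.f u s N| ≤ c * N ^ (a - 3 / 2)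

open scoped ContDiff in
/-- smoothness for `N > 0` and correctness of the derivatives -/
structure Coef.Good (c : Coef) : Prop where
  smooth : ∀ v : Fin 3 → ℝ, 0 < v 2 →
    ContDiffAt ℝ ∞ (fun v : Fin 3 → ℝ => c.f (v 0) (v 1) (v 2)) v
  hu : ∀ u s N : ℝ, 0 < N → HasDerivAt (fun t => c.f t s N) (c.fu u s N) u
  hs : ∀ u s N : ℝ, 0 < N → HasDerivAt (fun t => c.f u t N) (c.fs u s N) s
  hN : ∀ u s N : ℝ, 0 < N → HasDerivAt (fun t => c.f u s t) (c.fN u s N) N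

/-- all six coefficient functions are good -/
structure CoefSys.Good (C : CoefSys) : Prop where
  φ : C.φ.Good
  g : C.g.Good
  f0 : C.f0.Good
  f1 : C.f1.Good
  f2 : C.f2.Good
  f3 : C.f3.Good

end jets

end Vale.Agent.P098
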