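import Vale.Agent.Lib.P098.Var.Test

/-!
# P098: `|D²w|^{2p-2} |D³w|²` is integrable near the zeros of `D²w`, `1/2 < p < 1`
-/

open MeasureTheory Set Filter Topology
open scoped ContDiff

namespace Vale.Agent.P098

/-- `|D²w|²` -/
noncomputable def N2 {d : ℕ} (w : Ed d → ℝ) (x : Ed d) : ℝ := ∑ i, ∑ j, pd i (pd j w) x ^ 2

/-- `|D³w|²` -/
noncomputable def N3 {d : ℕ} (w : Ed d → ℝ) (x : Ed d) : ℝ :=
  ∑ k, ∑ i, ∑ j, pd k (pd i (pd j w)) x ^ 2

section

variable {d : ℕ} {u w : Ed d → ℝ} {U : Set (Ed d)}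

theorem integrable_of_tendsto_bdd {μ : Measure (Ed d)} {G : ℕ → Ed d → ℝ} {f : Ed d → ℝ}
    (hGf : ∀ᵐ x ∂μ, Tendsto (fun n : ℕ => G n x) atTop (𝓝 (f x)))
    (hG : ∀ n, Integrable (G n) μ) (h0 : ∀ n, ∀ᵐ x ∂μ, 0 ≤ G n x) {C : ℝ}
    (hC : ∀ n, ∫ x, G n x ∂μ ≤ C) : Integrable f μ := by
  refine ⟨aestronglyMeasurable_of_tendsto_ae _ (fun n => (hG n).aestronglyMeasurable) hGf, ?_⟩
  have h1 : ∫⁻ x, ‖f x‖ₑ ∂μ ≤ liminf (fun n => ∫⁻ x, ‖G n x‖ₑ ∂μ) atTop :=
    lintegral_congr_ae (by filter_upwards [hGf] with x hx using hx.enorm.liminf_eq) ▸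
      (MeasureTheory.lintegral_liminf_le' fun n => (hG n).aestronglyMeasurable.enorm)
  have h2 : ∀ n, ∫⁻ x, ‖G n x‖ₑ ∂μ ≤ ENNReal.ofReal C := by
    intro n
    rw [← ofReal_integral_norm_eq_lintegral_enorm (hG n)]
    refine ENNReal.ofReal_le_ofReal (le_trans (le_of_eq ?_) (hC n))
    refine integral_congr_ae ?_
    filter_upwards [h0 n] with x hx
    exact Real.norm_of_nonneg hx
  have h3 : liminf (fun n => ∫⁻ x, ‖G n x‖ₑ ∂μ) atTop ≤ ENNReal.ofReal C :=
    liminf_le_of_le (by isBoundedDefault) fun b hb => by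
      obtain ⟨n, hn⟩ := hb.exists
      exact hn.trans (h2 n)
  exact lt_of_le_of_lt (h1.trans h3) ENNReal.ofReal_lt_top

theorem SmoothCone.smooth3 (h : SmoothCone u w U) (k i j : Fin d) :
    ContDiffOn ℝ ∞ (pd k (pd i (pd j w))) U :=
  contDiffOn_pd h.isOpen (h.contDiffOn_pdpdw i j) (by simp)

theorem SmoothCone.smoothN2 (h : SmoothCone u w U) : ContDiffOn ℝ ∞ (N2 w) U := by
  have e : N2 w = fun x => ∑ i, ∑ j, pd i (pd j w) x ^ 2 := rfl
  rw [e]
  exact ContDiffOn.sum fun i _ => ContDiffOn.sum fun j _ => (h.contDiffOn_pdpdw i j).pow 2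

theorem SmoothCone.contN3 (h : SmoothCone u w U) : ContinuousOn (N3 w) U := by
  have e : N3 w = fun x => ∑ k, ∑ i, ∑ j, pd k (pd i (pd j w)) x ^ 2 := rfl
  rw [e]
  exact continuousOn_finsetSum _ fun k _ => continuousOn_finsetSum _ fun i _ =>
    continuousOn_finsetSum _ fun j _ => (h.smooth3 k i j).continuousOn.pow 2

theorem N2_nonneg (w : Ed d → ℝ) (x : Ed d) : 0 ≤ N2 w x :=
  Finset.sum_nonneg fun _ _ => Finset.sum_nonneg fun _ _ => sq_nonneg _

theorem N3_nonneg (w : Ed d → ℝ) (x : Ed d) : 0 ≤ N3 w x :=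
  Finset.sum_nonneg fun _ _ => Finset.sum_nonneg fun _ _ => Finset.sum_nonneg fun _ _ =>
    sq_nonneg _

theorem SmoothCone.pdN2 (h : SmoothCone u w U) {x : Ed d} (hx : x ∈ U) (k : Fin d) :
    pd k (N2 w) x = 2 * ∑ i, ∑ j, pd i (pd j w) x * pd k (pd i (pd j w)) x := by
  have hUn : U ∈ 𝓝 x := h.isOpen.mem_nhds hx
  have hd : ∀ i j, DifferentiableAt ℝ (pd i (pd j w)) x := fun i j =>
    ((h.contDiffOn_pdpdw i j).contDiffAt hUn).differentiableAt (by simp)
  have e : N2 w = fun x => ∑ i, ∑ j, pd i (pd j w) x ^ 2 := rfl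
  rw [e, pd_sum]
  · rw [Finset.mul_sum]
    refine Finset.sum_congr rfl fun i _ => ?_
    rw [pd_sum]
    · rw [Finset.mul_sum]
      refine Finset.sum_congr rfl fun j _ => ?_
      rw [pd_sq (hd i j)]
      ring
    · intro j _
      exact (hd i j).pow 2
  · intro i _
    exact DifferentiableAt.fun_sum fun j _ => (hd i j).pow 2

/-- Cauchy–Schwarz: `|∇N|² ≤ 4 N |D³w|²` -/
theorem SmoothCone.pdN2_sq (h : SmoothCone u w U) {x : Ed d} (hx : x ∈ U) :
    ∑ k, pd k (N2 w) x ^ 2 ≤ 4 * N2 w x * N3 w x := by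
  have h1 : ∀ k, pd k (N2 w) x ^ 2 ≤
      4 * N2 w x * ∑ i, ∑ j, pd k (pd i (pd j w)) x ^ 2 := by
    intro k
    rw [h.pdN2 hx]
    have h2 : (∑ i, ∑ j, pd i (pd j w) x * pd k (pd i (pd j w)) x) ^ 2 ≤
        N2 w x * ∑ i, ∑ j, pd k (pd i (pd j w)) x ^ 2 := by
      unfold N2
      rw [← Finset.sum_product', ← Finset.sum_product', ← Finset.sum_product']
      exact Finset.sum_mul_sq_le_sq_mul_sq _ _ _
    rw [mul_pow]
    linarith
  calc ∑ k, pd k (N2 w) x ^ 2 ≤
      ∑ k, 4 * N2 w x * ∑ i, ∑ j, pd k (pd i (pd j w)) x ^ 2 :=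
        Finset.sum_le_sum fun k _ => h1 k
    _ = 4 * N2 w x * N3 w x := by
      unfold N3
      rw [← Finset.mul_sum]

/-- `ΔN = 2 |D³w|²` on the positivity set -/
theorem SmoothCone.lapN2 (h : SmoothCone u w U) {x : Ed d} (hx : x ∈ Pos u) :
    lap (N2 w) x = 2 * N3 w x := by
  have hPo := h.isOpen_pos
  have hxU : x ∈ U := h.pos_sub hx
  have hUn : U ∈ 𝓝 x := h.isOpen.mem_nhds hxU
  have hlap1 : ∀ j, ∀ y ∈ Pos u, lap (pd j w) y = 0 := fun j y hy =>
    sum_pd_pd_pd hPo (h.smooth.mono h.pos_sub) h.harm hy j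
  have hlap2 : ∀ i j, ∑ k, pd k (pd k (pd i (pd j w))) x = 0 := fun i j =>
    sum_pd_pd_pd hPo ((h.contDiffOn_pdw j).mono h.pos_sub) (hlap1 j) hx i
  have hd2 : ∀ i j, DifferentiableAt ℝ (pd i (pd j w)) x := fun i j =>
    ((h.contDiffOn_pdpdw i j).contDiffAt hUn).differentiableAt (by simp)
  have hd3 : ∀ k i j, DifferentiableAt ℝ (pd k (pd i (pd j w))) x := fun k i j =>
    ((h.smooth3 k i j).contDiffAt hUn).differentiableAt (by simp)
  have h1 : ∀ k, pd k (pd k (N2 w)) x = 2 * ∑ i, ∑ j, (pd k (pd i (pd j w)) x ^ 2 +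
      pd i (pd j w) x * pd k (pd k (pd i (pd j w))) x) := by
    intro k
    have h2 : pd k (N2 w) =ᶠ[𝓝 x] fun y => 2 * ∑ i, ∑ j, pd i (pd j w) y *
        pd k (pd i (pd j w)) y := by
      filter_upwards [hUn] with y hy
      exact h.pdN2 hy k
    have hdd : ∀ i j, DifferentiableAt ℝ (fun y => pd i (pd j w) y * pd k (pd i (pd j w)) y) x :=
      fun i j => (hd2 i j).mul (hd3 k i j)
    rw [pd_congr h2, pd_const_mul]
    · congr 1
      rw [pd_sum]
      · refine Finset.sum_congr rfl fun i _ => ?_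
        rw [pd_sum]
        · refine Finset.sum_congr rfl fun j _ => ?_
          rw [pd_mul (hd2 i j) (hd3 k i j)]
          ring
        · intro j _
          exact hdd i j
      · intro i _
        exact DifferentiableAt.fun_sum fun j _ => hdd i j
    · exact DifferentiableAt.fun_sum fun i _ => DifferentiableAt.fun_sum fun j _ => hdd i j
  unfold lap
  rw [Finset.sum_congr rfl fun k _ => h1 k, ← Finset.mul_sum]
  congr 1
  simp only [Finset.sum_add_distrib]
  have h3 : ∑ k, ∑ i, ∑ j, pd i (pd j w) x * pd k (pd k (pd i (pd j w))) x = 0 := by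
    rw [Finset.sum_comm]
    refine Finset.sum_eq_zero fun i _ => ?_
    rw [Finset.sum_comm]
    refine Finset.sum_eq_zero fun j _ => ?_
    rw [← Finset.mul_sum, hlap2 i j, mul_zero]
  rw [h3, add_zero]
  rfl

/-- `(N + ε)^p` -/
noncomputable def Np {d : ℕ} (w : Ed d → ℝ) (ε p : ℝ) (x : Ed d) : ℝ := (N2 w x + ε) ^ p

theorem SmoothCone.smoothNp (h : SmoothCone u w U) {ε : ℝ} (hε : 0 < ε) (p : ℝ) :
    ContDiffOn ℝ ∞ (Np w ε p) U := by
  intro x hx
  apply ContDiffAt.contDiffWithinAt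
  have h1 : ContDiffAt ℝ ∞ (fun y => N2 w y + ε) x :=
    (h.smoothN2.contDiffAt (h.isOpen.mem_nhds hx)).add contDiffAt_const
  have h2 : N2 w x + ε ≠ 0 := by
    have := N2_nonneg w x
    linarith
  exact h1.rpow_const_of_ne h2

theorem SmoothCone.pdNp (h : SmoothCone u w U) {ε : ℝ} (hε : 0 < ε) (p : ℝ) {x : Ed d}
    (hx : x ∈ U) (k : Fin d) :
    pd k (Np w ε p) x = p * Np w ε (p - 1) x * pd k (N2 w) x := by
  have h2 : 0 < N2 w x + ε := by
    have := N2_nonneg w x
    linarith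
  have h1 : DifferentiableAt ℝ (N2 w) x :=
    (h.smoothN2.contDiffAt (h.isOpen.mem_nhds hx)).differentiableAt (by simp)
  have h3 : HasDerivAt (fun t : ℝ => (t + ε) ^ p) (p * (N2 w x + ε) ^ (p - 1)) (N2 w x) := by
    have h4 : HasDerivAt (fun t : ℝ => t + ε) 1 (N2 w x) := (hasDerivAt_id _).add_const ε
    have h5 := h4.rpow_const (p := p) (Or.inl h2.ne')
    simpa using h5
  have e : Np w ε p = fun y => (fun t : ℝ => (t + ε) ^ p) (N2 w y) := rfl
  rw [e, pd_comp (fun t : ℝ => (t + ε) ^ p) h3.differentiableAt h1, h3.deriv]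
  rfl

theorem Kato_alg (p ε N T S M1 M2 : ℝ) (hp : 1 / 2 < p) (hp1 : p < 1) (hε : 0 < ε)
    (hT : 0 ≤ T) (hS : S ≤ 4 * N * T) (hM2 : 0 < M2)
    (hM12 : M1 = (N + ε) * M2) :
    2 * p * (2 * p - 1) * (M1 * T) ≤ p * M1 * (2 * T) + p * (p - 1) * M2 * S := by
  have h1 : p * (1 - p) * M2 * S ≤ p * (1 - p) * M2 * (4 * N * T) :=
    mul_le_mul_of_nonneg_left hS (by
      have : 0 ≤ 1 - p := by linarith
      positivity)
  have h2 : 0 ≤ p * (1 - p) * M2 * (4 * ε * T) := by
    have : 0 ≤ 1 - p := by linarith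
    positivity
  have e1 : p * (1 - p) * M2 * (4 * N * T) + p * (1 - p) * M2 * (4 * ε * T) =
      4 * p * (1 - p) * (M1 * T) := by
    rw [hM12]
    ring
  have e2 : 2 * p * (2 * p - 1) * (M1 * T) = 2 * p * (M1 * T) - 4 * p * (1 - p) * (M1 * T) := by
    ring
  rw [e2]
  linarith

/-- subharmonicity of `(N+ε)^p` with the full third derivative -/
theorem SmoothCone.lapNp (h : SmoothCone u w U) {ε : ℝ} (hε : 0 < ε) {p : ℝ} (hp : 1 / 2 < p)
    (hp1 : p < 1) {x : Ed d} (hx : x ∈ Pos u) :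
    2 * p * (2 * p - 1) * (Np w ε (p - 1) x * N3 w x) ≤ lap (Np w ε p) x := by
  have hxU : x ∈ U := h.pos_sub hx
  have hUn : U ∈ 𝓝 x := h.isOpen.mem_nhds hxU
  have h1 : ∀ k, pd k (pd k (Np w ε p)) x = p * Np w ε (p - 1) x * pd k (pd k (N2 w)) x +
      p * (p - 1) * Np w ε (p - 1 - 1) x * pd k (N2 w) x ^ 2 := by
    intro k
    have h2 : pd k (Np w ε p) =ᶠ[𝓝 x] fun y => p * (Np w ε (p - 1) y * pd k (N2 w) y) := by
      filter_upwards [hUn] with y hy
      rw [h.pdNp hε p hy]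
      ring
    have d1 : DifferentiableAt ℝ (Np w ε (p - 1)) x :=
      ((h.smoothNp hε (p - 1)).contDiffAt hUn).differentiableAt (by simp)
    have d2 : DifferentiableAt ℝ (pd k (N2 w)) x :=
      ((contDiffOn_pd (m := ∞) h.isOpen h.smoothN2 (by simp)).contDiffAt hUn).differentiableAt
        (by simp)
    have d12 : DifferentiableAt ℝ (fun y => Np w ε (p - 1) y * pd k (N2 w) y) x := d1.mul d2
    rw [pd_congr h2, pd_const_mul _ d12, pd_mul d1 d2, h.pdNp hε (p - 1) hxU]
    ring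
  have h2 : lap (Np w ε p) x = p * Np w ε (p - 1) x * lap (N2 w) x +
      p * (p - 1) * Np w ε (p - 1 - 1) x * ∑ k, pd k (N2 w) x ^ 2 := by
    unfold lap
    rw [Finset.sum_congr rfl fun k _ => h1 k, Finset.sum_add_distrib, Finset.mul_sum,
      Finset.mul_sum]
  rw [h2, h.lapN2 hx]
  have hpos : 0 < N2 w x + ε := by
    have := N2_nonneg w x
    linarith
  refine Kato_alg p ε (N2 w x) (N3 w x) _ _ _ hp hp1 hε (N3_nonneg w x)
    (h.pdN2_sq hxU) (Real.rpow_pos_of_pos hpos _) ?_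
  unfold Np
  have e : (N2 w x + ε) ^ (p - 1) = (N2 w x + ε) ^ (1 + (p - 1 - 1)) := by
    congr 1
    ring
  rw [e, Real.rpow_add hpos, Real.rpow_one]

theorem N2_abs_pd (h : SmoothCone u w U) {x : Ed d} (hx : x ∈ U) (k : Fin d) :
    |pd k (N2 w) x| ≤ 2 * Real.sqrt (N2 w x) * Real.sqrt (N3 w x) := by
  have h1 : pd k (N2 w) x ^ 2 ≤ 4 * N2 w x * N3 w x :=
    (Finset.single_le_sum (f := fun k => pd k (N2 w) x ^ 2) (fun i _ => sq_nonneg _)
      (Finset.mem_univ k)).trans (h.pdN2_sq hx)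
  have h2 : 0 ≤ 2 * Real.sqrt (N2 w x) * Real.sqrt (N3 w x) := by positivity
  refine abs_le_of_sq_le_sq ?_ h2
  rw [mul_pow, mul_pow, Real.sq_sqrt (N2_nonneg w x), Real.sq_sqrt (N3_nonneg w x)]
  linarith

/-- bound of the gradient of `(N+ε)^p` which does not depend on `ε ≤ 1` -/
theorem Np_abs_pd (h : SmoothCone u w U) {ε : ℝ} (hε : 0 < ε) (hε1 : ε ≤ 1) {p : ℝ}
    (hp : 1 / 2 < p) (hp1 : p < 1) {x : Ed d} (hx : x ∈ U) (k : Fin d) :
    |pd k (Np w ε p) x| ≤ 2 * (N2 w x + 1) * (1 + N3 w x) := by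
  have hN := N2_nonneg w x
  have hT := N3_nonneg w x
  have hpos : 0 < N2 w x + ε := by linarith
  rw [h.pdNp hε p hx, abs_mul, abs_mul]
  have h1 : |Np w ε (p - 1) x| = (N2 w x + ε) ^ (p - 1) := abs_of_nonneg
    (Real.rpow_nonneg hpos.le _)
  have h2 : Real.sqrt (N2 w x) ≤ (N2 w x + ε) ^ (1 / 2 : ℝ) := by
    rw [← Real.sqrt_eq_rpow]
    exact Real.sqrt_le_sqrt (by linarith)
  have h3 : Real.sqrt (N3 w x) ≤ 1 + N3 w x := by
    rw [Real.sqrt_le_left (by linarith)]
    nlinarith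
  have h4 : (N2 w x + ε) ^ (p - 1) * (N2 w x + ε) ^ (1 / 2 : ℝ) ≤ N2 w x + 1 := by
    rw [← Real.rpow_add hpos]
    calc (N2 w x + ε) ^ (p - 1 + 1 / 2) ≤ (N2 w x + 1) ^ (p - 1 + 1 / 2) :=
          Real.rpow_le_rpow hpos.le (by linarith) (by linarith)
      _ ≤ (N2 w x + 1) ^ (1 : ℝ) :=
          Real.rpow_le_rpow_of_exponent_le (by linarith) (by linarith)
      _ = N2 w x + 1 := Real.rpow_one _
  rw [h1, abs_of_pos (by linarith : 0 < p)]
  calc p * (N2 w x + ε) ^ (p - 1) * |pd k (N2 w) x| ≤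
      1 * (N2 w x + ε) ^ (p - 1) * (2 * Real.sqrt (N2 w x) * Real.sqrt (N3 w x)) := by
        refine mul_le_mul (mul_le_mul_of_nonneg_right hp1.le (Real.rpow_nonneg hpos.le _))
          (N2_abs_pd h hx k) (abs_nonneg _) ?_
        exact mul_nonneg zero_le_one (Real.rpow_nonneg hpos.le _)
    _ = 2 * ((N2 w x + ε) ^ (p - 1) * Real.sqrt (N2 w x)) * Real.sqrt (N3 w x) := by ring
    _ ≤ 2 * (N2 w x + 1) * (1 + N3 w x) := by
        refine mul_le_mul (mul_le_mul_of_nonneg_left ?_ (by norm_num)) h3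
          (Real.sqrt_nonneg _) (by linarith)
        exact (mul_le_mul_of_nonneg_left h2 (Real.rpow_nonneg hpos.le _)).trans h4

theorem Np_le (w : Ed d → ℝ) {ε : ℝ} (hε : 0 < ε) (hε1 : ε ≤ 1) {p : ℝ} (hp : 0 < p)
    (hp1 : p < 1) (x : Ed d) : Np w ε p x ≤ N2 w x + 1 := by
  have hN := N2_nonneg w x
  unfold Np
  calc (N2 w x + ε) ^ p ≤ (N2 w x + 1) ^ p :=
        Real.rpow_le_rpow (by linarith) (by linarith) hp.le
    _ ≤ (N2 w x + 1) ^ (1 : ℝ) :=
        Real.rpow_le_rpow_of_exponent_le (by linarith) hp1.le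
    _ = N2 w x + 1 := Real.rpow_one _

theorem Np_nonneg (w : Ed d → ℝ) {ε : ℝ} (hε : 0 < ε) (p : ℝ) (x : Ed d) : 0 ≤ Np w ε p x :=
  Real.rpow_nonneg (by
    have := N2_nonneg w x
    linarith) _

/-- uniform bound -/
theorem Kato_bound (h : SmoothCone u w U) {p : ℝ} (hp : 1 / 2 < p) (hp1 : p < 1)
    {ζ : Ed d → ℝ} (hζ : ContDiff ℝ ∞ ζ) (hζ0 : ∀ x, 0 ≤ ζ x) (hζs : HasCompactSupport ζ)
    (hζU : tsupport ζ ⊆ U \ {0}) :
    ∃ C : ℝ, ∀ ε : ℝ, 0 < ε → ε ≤ 1 →
      ∫ x in Pos u, ζ x * (Np w ε (p - 1) x * N3 w x) ≤ C := by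
  have hVo : IsOpen (U \ {(0 : Ed d)}) := h.isOpen.sdiff isClosed_singleton
  have hζU' : tsupport ζ ⊆ U := fun x hx => (hζU hx).1
  have hζ00 : (0 : Ed d) ∉ tsupport ζ := fun hx => (hζU hx).2 rfl
  obtain ⟨ρ, hρ, hρ0, -, hρs, hρV, W, -, hKW, hW1⟩ := exists_cutoff hζs.isCompact hVo hζU
  have hρ1 : ∀ x ∈ tsupport ζ, ρ x = 1 := fun x hx => hW1 x (hKW hx)
  have hpζ : ∀ i, ContDiff ℝ ∞ (pd i ζ) := fun i => contDiff_pd hζ (by simp)
  have hpζs : ∀ i, tsupport (pd i ζ) ⊆ tsupport ζ := fun i => tsupport_pd_subset i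
  have hpζc : ∀ i, HasCompactSupport (pd i ζ) := fun i => hasCompactSupport_pd hζs
  have hN2c : ContinuousOn (N2 w) (tsupport ζ) := h.smoothN2.continuousOn.mono hζU'
  have hN3c : ContinuousOn (N3 w) (tsupport ζ) := h.contN3.mono hζU'
  have hwc : ∀ i, ContinuousOn (pd i w) (tsupport ζ) := fun i =>
    (h.contDiffOn_pdw i).continuousOn.mono hζU'
  -- boundary bound
  obtain ⟨B, hB⟩ := hζs.isCompact.exists_bound_of_continuousOn (f := fun x => ∑ i,
      (ζ x * (2 * (N2 w x + 1) * (1 + N3 w x)) + |pd i ζ x| * (N2 w x + 1)) * |pd i w x|)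
    (continuousOn_finsetSum _ fun i _ => ((hζ.continuous.continuousOn.mul
      ((continuousOn_const.mul (hN2c.add continuousOn_const)).mul
        (continuousOn_const.add hN3c))).add ((hpζ i).continuous.continuousOn.abs.mul
        (hN2c.add continuousOn_const))).mul (hwc i).abs)
  have hVc : ∀ i, ContDiff ℝ 1 (fun x => ρ x * pd i w x) := by
    intro i
    have h1 : ContDiffOn ℝ ∞ (pd i w) (U \ {0}) := (h.contDiffOn_pdw i).mono Set.sdiff_subset
    exact (contDiff_cutoff_mul hVo hρ hρV h1).of_le (by simp)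
  have hVs : ∀ i, HasCompactSupport (fun x => ρ x * pd i w x) := fun i => hρs.mul_right
  have hlapc : Continuous (lap ζ) := by
    have e : lap ζ = fun x => ∑ i, pd i (pd i ζ) x := rfl
    rw [e]
    exact continuous_finsetSum _ fun i _ => (contDiff_pd (m := 0) (hpζ i) (by simp)).continuous
  have hlap0 : ∀ x, x ∉ tsupport ζ → lap ζ x = 0 := by
    intro x hx
    unfold lap
    refine Finset.sum_eq_zero fun i _ => ?_
    exact pd_eq_zero_of_notMem_tsupport fun hx' => hx (hpζs i hx')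
  have iM : Integrable (fun x => (N2 w x + 1) * |lap ζ x|) volume := by
    refine integrable_of_continuousOn_compact hζs.isCompact
      ((hN2c.add continuousOn_const).mul hlapc.continuousOn.abs) fun x hx => ?_
    rw [hlap0 x hx]
    simp
  refine ⟨(|B| * -(∫ x in Pos u, ∑ i, pd i (fun x => ρ x * pd i w x) x) +
    ∫ x in Pos u, (N2 w x + 1) * |lap ζ x|) / (2 * p * (2 * p - 1)), fun ε hε hε1 => ?_⟩
  obtain ⟨F, hF⟩ : ∃ F, F = Np w ε p := ⟨_, rfl⟩
  have hFs : ContDiffOn ℝ ∞ F U := by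
    rw [hF]
    exact h.smoothNp hε p
  have hpF : ∀ i, ContDiffOn ℝ ∞ (pd i F) U := fun i => contDiffOn_pd h.isOpen hFs (by simp)
  have hG1 : ∀ i, ContDiff ℝ 1 (fun x => ζ x * pd i F x) := fun i =>
    (contDiff_cutoff_mul h.isOpen hζ hζU' (hpF i)).of_le (by simp)
  have hG2 : ∀ i, ContDiff ℝ 1 (fun x => pd i ζ x * F x) := fun i =>
    (contDiff_cutoff_mul h.isOpen (hpζ i) ((hpζs i).trans hζU') hFs).of_le (by simp)
  have hG1s : ∀ i, HasCompactSupport (fun x => ζ x * pd i F x) := fun i => hζs.mul_right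
  have hG2s : ∀ i, HasCompactSupport (fun x => pd i ζ x * F x) := fun i => (hpζc i).mul_right
  have hGc : ∀ i, ContDiff ℝ 1 (fun x => ζ x * pd i F x - pd i ζ x * F x) := fun i =>
    (hG1 i).sub (hG2 i)
  have hGs : ∀ i, HasCompactSupport (fun x => ζ x * pd i F x - pd i ζ x * F x) := fun i =>
    (hG1s i).sub (hG2s i)
  have hdiv : ∫ x in Pos u, ∑ i, pd i (fun x => (ζ x * pd i F x - pd i ζ x * F x) +
      |B| * (ρ x * pd i w x)) x ≤ 0 := by
    refine h.div_le_zero (fun i x => (ζ x * pd i F x - pd i ζ x * F x) +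
      |B| * (ρ x * pd i w x)) (fun i => ?_) (fun i => ?_) (fun i => ?_) ?_
    · exact (hGc i).add (contDiff_const.mul (hVc i))
    · exact (hGs i).add ((hVs i).mul_left)
    · intro hx
      have h1 : tsupport (fun x => (ζ x * pd i F x - pd i ζ x * F x) +
          |B| * (ρ x * pd i w x)) ⊆ tsupport ζ ∪ tsupport ρ := by
        refine closure_minimal ?_ ((isClosed_tsupport _).union (isClosed_tsupport _))
        intro x hx
        by_contra hx'
        rw [mem_union, not_or] at hx'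
        apply hx
        change (ζ x * pd i F x - pd i ζ x * F x) + |B| * (ρ x * pd i w x) = 0
        rw [image_eq_zero_of_notMem_tsupport hx'.1, image_eq_zero_of_notMem_tsupport hx'.2,
          pd_eq_zero_of_notMem_tsupport hx'.1]
        ring
      rcases h1 hx with h2 | h2
      · exact hζ00 h2
      · exact (hρV h2).2 rfl
    · intro x hx hx0
      have h1 : ∑ i, ((ζ x * pd i F x - pd i ζ x * F x) + |B| * (ρ x * pd i w x)) * pd i w x =
          ∑ i, (ζ x * pd i F x - pd i ζ x * F x) * pd i w x +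
            |B| * ρ x * ∑ i, pd i w x ^ 2 := by
        rw [Finset.mul_sum, ← Finset.sum_add_distrib]
        exact Finset.sum_congr rfl fun i _ => by ring
      rw [h1, h.grad x hx hx0, mul_one]
      by_cases hxt : x ∈ tsupport ζ
      · rw [hρ1 x hxt, mul_one]
        have hxU : x ∈ U := hζU' hxt
        have h2 : |∑ i, (ζ x * pd i F x - pd i ζ x * F x) * pd i w x| ≤ |B| := by
          refine (Finset.abs_sum_le_sum_abs _ _).trans (le_trans ?_ ((le_abs_self _).trans
            ((Real.norm_eq_abs _ ▸ hB x hxt).trans (le_abs_self B))))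
          refine Finset.sum_le_sum fun i _ => ?_
          rw [abs_mul]
          refine mul_le_mul_of_nonneg_right ?_ (abs_nonneg _)
          have h3 : |ζ x * pd i F x| ≤ ζ x * (2 * (N2 w x + 1) * (1 + N3 w x)) := by
            rw [abs_mul, abs_of_nonneg (hζ0 x), hF]
            exact mul_le_mul_of_nonneg_left (Np_abs_pd h hε hε1 hp hp1 hxU i) (hζ0 x)
          have h4 : |pd i ζ x * F x| ≤ |pd i ζ x| * (N2 w x + 1) := by
            rw [abs_mul, hF, abs_of_nonneg (Np_nonneg w hε p x)]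
            exact mul_le_mul_of_nonneg_left (Np_le w hε hε1 (by linarith) hp1 x) (abs_nonneg _)
          exact (abs_sub _ _).trans (add_le_add h3 h4)
        linarith [(abs_le.1 h2).1]
      · have h2 : ∑ i, (ζ x * pd i F x - pd i ζ x * F x) * pd i w x = 0 := by
          refine Finset.sum_eq_zero fun i _ => ?_
          rw [image_eq_zero_of_notMem_tsupport hxt, pd_eq_zero_of_notMem_tsupport hxt]
          ring
        rw [h2]
        have := hρ0 x
        positivity
  have hsplit : ∫ x in Pos u, ∑ i, pd i (fun x => (ζ x * pd i F x - pd i ζ x * F x) +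
      |B| * (ρ x * pd i w x)) x =
      (∫ x in Pos u, ∑ i, pd i (fun x => ζ x * pd i F x - pd i ζ x * F x) x) +
        |B| * ∫ x in Pos u, ∑ i, pd i (fun x => ρ x * pd i w x) x := by
    rw [← integral_const_mul, ← integral_add (SmoothCone.integrable_div hGc hGs _)
      ((SmoothCone.integrable_div hVc hVs _).const_mul _)]
    refine setIntegral_congr_fun h.isOpen_pos.measurableSet fun x _ => ?_
    rw [Finset.mul_sum, ← Finset.sum_add_distrib]
    refine Finset.sum_congr rfl fun i _ => ?_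
    rw [pd_add ((hGc i).differentiable (by simp) x)
      ((((hVc i).differentiable (by simp)) x).const_mul _),
      pd_const_mul _ ((hVc i).differentiable (by simp) x)]
  rw [hsplit] at hdiv
  -- the divergence of the field
  have hpt : ∀ x ∈ Pos u, 2 * p * (2 * p - 1) * (ζ x * (Np w ε (p - 1) x * N3 w x)) -
      (N2 w x + 1) * |lap ζ x| ≤ ∑ i, pd i (fun x => ζ x * pd i F x - pd i ζ x * F x) x := by
    intro x hx
    have hxU : x ∈ U := h.pos_sub hx
    have hUn : U ∈ 𝓝 x := h.isOpen.mem_nhds hxU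
    have dF : DifferentiableAt ℝ F x := (hFs.contDiffAt hUn).differentiableAt (by simp)
    have dpF : ∀ i, DifferentiableAt ℝ (pd i F) x := fun i =>
      ((hpF i).contDiffAt hUn).differentiableAt (by simp)
    have dζ : DifferentiableAt ℝ ζ x := hζ.differentiable (by simp) x
    have dpζ : ∀ i, DifferentiableAt ℝ (pd i ζ) x := fun i =>
      (hpζ i).differentiable (by simp) x
    have e1 : ∀ i, pd i (fun x => ζ x * pd i F x - pd i ζ x * F x) x =
        ζ x * pd i (pd i F) x - pd i (pd i ζ) x * F x := by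
      intro i
      have d1 : DifferentiableAt ℝ (fun x => ζ x * pd i F x) x := dζ.mul (dpF i)
      have d2 : DifferentiableAt ℝ (fun x => pd i ζ x * F x) x := (dpζ i).mul dF
      rw [pd_sub d1 d2, pd_mul dζ (dpF i), pd_mul (dpζ i) dF]
      ring
    have e2 : ∑ i, pd i (fun x => ζ x * pd i F x - pd i ζ x * F x) x =
        ζ x * lap F x - lap ζ x * F x := by
      rw [Finset.sum_congr rfl fun i _ => e1 i, Finset.sum_sub_distrib, ← Finset.mul_sum,
        ← Finset.sum_mul]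
      rfl
    rw [e2]
    have h1 := mul_le_mul_of_nonneg_left (h.lapNp hε hp hp1 hx) (hζ0 x)
    rw [← hF] at h1
    have h2 : lap ζ x * F x ≤ (N2 w x + 1) * |lap ζ x| := by
      have h3 : F x ≤ N2 w x + 1 := by
        rw [hF]
        exact Np_le w hε hε1 (by linarith) hp1 x
      have h4 : 0 ≤ F x := by
        rw [hF]
        exact Np_nonneg w hε p x
      calc lap ζ x * F x ≤ |lap ζ x| * F x :=
            mul_le_mul_of_nonneg_right (le_abs_self _) h4
        _ ≤ |lap ζ x| * (N2 w x + 1) := mul_le_mul_of_nonneg_left h3 (abs_nonneg _)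
        _ = _ := by ring
    linarith
  have iT : Integrable (fun x => ζ x * (Np w ε (p - 1) x * N3 w x)) volume := by
    refine integrable_of_continuousOn_compact hζs.isCompact
      (hζ.continuous.continuousOn.mul (((h.smoothNp hε (p - 1)).continuousOn.mono hζU').mul
        hN3c)) fun x hx => ?_
    rw [image_eq_zero_of_notMem_tsupport hx, zero_mul]
  have hmono : ∫ x in Pos u, (2 * p * (2 * p - 1) * (ζ x * (Np w ε (p - 1) x * N3 w x)) -
      (N2 w x + 1) * |lap ζ x|) ≤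
      ∫ x in Pos u, ∑ i, pd i (fun x => ζ x * pd i F x - pd i ζ x * F x) x :=
    setIntegral_mono_on ((iT.const_mul _).sub iM).integrableOn
      (SmoothCone.integrable_div hGc hGs _) h.isOpen_pos.measurableSet hpt
  rw [integral_sub (iT.const_mul _).integrableOn iM.integrableOn, integral_const_mul] at hmono
  have hpp : 0 < 2 * p * (2 * p - 1) := by
    have : 0 < 2 * p - 1 := by linarith
    have : 0 < p := by linarith
    positivity
  rw [le_div_iff₀ hpp]
  linarith

/-- **Integrability near the zeros of the Hessian.** -/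
theorem kato_integrable (h : SmoothCone u w U) {p : ℝ} (hp : 1 / 2 < p) (hp1 : p < 1)
    {K : Set (Ed d)} (hK : IsCompact K) (hK0 : (0 : Ed d) ∉ K) :
    IntegrableOn (fun x => N2 w x ^ (p - 1) * N3 w x) (Pos u ∩ K) volume := by
  have hKc : IsCompact (closure (Pos u) ∩ K) := hK.inter_left isClosed_closure
  have hVo : IsOpen (U \ {(0 : Ed d)}) := h.isOpen.sdiff isClosed_singleton
  have hKV : closure (Pos u) ∩ K ⊆ U \ {0} := by
    rintro x ⟨hx1, hx2⟩
    have hx0 : x ≠ 0 := fun e => hK0 (e ▸ hx2)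
    exact ⟨h.sub ⟨hx1, hx0⟩, hx0⟩
  obtain ⟨ζ, hζ, hζ0, -, hζs, hζV, W, -, hKW, hW1⟩ := exists_cutoff hKc hVo hKV
  have hζU' : tsupport ζ ⊆ U := fun x hx => (hζV hx).1
  obtain ⟨C, hC⟩ := Kato_bound h hp hp1 hζ hζ0 hζs hζV
  have hPm : MeasurableSet (Pos u) := h.isOpen_pos.measurableSet
  have hint : ∀ n : ℕ, Integrable (fun x => ζ x * (Np w (1 / ((n : ℝ) + 1)) (p - 1) x *
      N3 w x)) volume := by
    intro n
    refine integrable_of_continuousOn_compact hζs.isCompact
      (hζ.continuous.continuousOn.mul (((h.smoothNp (by positivity)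
        (p - 1)).continuousOn.mono hζU').mul (h.contN3.mono hζU'))) fun x hx => ?_
    rw [image_eq_zero_of_notMem_tsupport hx, zero_mul]
  have hnn : ∀ (n : ℕ) (x : Ed d), 0 ≤ ζ x * (Np w (1 / ((n : ℝ) + 1)) (p - 1) x * N3 w x) :=
    fun n x => mul_nonneg (hζ0 x) (mul_nonneg (Np_nonneg w (by positivity) _ x)
      (N3_nonneg w x))
  -- the function vanishes where `N2 = 0`, and the approximations converge elsewhere
  have hmain : Integrable ((Pos u ∩ K ∩ {x | 0 < N2 w x}).indicator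
      (fun x => N2 w x ^ (p - 1) * N3 w x)) (volume.restrict (Pos u ∩ K)) := by
    have hKm : MeasurableSet K := hK.measurableSet
    have hSo : MeasurableSet (Pos u ∩ {x | 0 < N2 w x}) := by
      have h1 := (h.smoothN2.continuousOn.mono h.pos_sub).isOpen_inter_preimage h.isOpen_pos
        (isOpen_Ioi (a := (0 : ℝ)))
      exact h1.measurableSet
    refine integrable_of_tendsto_bdd (G := fun n : ℕ =>
      (Pos u ∩ {x | 0 < N2 w x}).indicator
        (fun x => ζ x * (Np w (1 / ((n : ℝ) + 1)) (p - 1) x * N3 w x))) (C := C) ?_ ?_ ?_ ?_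
    · refine (ae_restrict_iff' (hPm.inter hKm)).2 (Eventually.of_forall fun x hx => ?_)
      by_cases hN : 0 < N2 w x
      · have m1 : x ∈ Pos u ∩ K ∩ {x | 0 < N2 w x} := ⟨hx, hN⟩
        have m2 : x ∈ Pos u ∩ {x | 0 < N2 w x} := ⟨hx.1, hN⟩
        rw [Set.indicator_of_mem m1]
        simp only [Set.indicator_of_mem m2]
        have hζ1 : ζ x = 1 := hW1 x (hKW ⟨subset_closure hx.1, hx.2⟩)
        rw [hζ1]
        simp only [one_mul]
        refine Tendsto.mul_const _ ?_
        unfold Np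
        have h1 : Tendsto (fun n : ℕ => N2 w x + 1 / ((n : ℝ) + 1)) atTop (𝓝 (N2 w x + 0)) :=
          tendsto_const_nhds.add tendsto_one_div_add_atTop_nhds_zero_nat
        rw [add_zero] at h1
        exact h1.rpow_const (Or.inl hN.ne')
      · have m1 : x ∉ Pos u ∩ K ∩ {x | 0 < N2 w x} := fun hh => hN hh.2
        have m2 : x ∉ Pos u ∩ {x | 0 < N2 w x} := fun hh => hN hh.2
        rw [Set.indicator_of_notMem m1]
        simp only [Set.indicator_of_notMem m2]
        exact tendsto_const_nhds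
    · intro n
      exact ((hint n).indicator hSo).integrableOn
    · intro n
      exact Eventually.of_forall fun x => indicator_nonneg (fun y _ => hnn n y) x
    · intro n
      have h1 : ∫ x in Pos u ∩ K, (Pos u ∩ {x | 0 < N2 w x}).indicator
          (fun x => ζ x * (Np w (1 / ((n : ℝ) + 1)) (p - 1) x * N3 w x)) x ≤
          ∫ x in Pos u, ζ x * (Np w (1 / ((n : ℝ) + 1)) (p - 1) x * N3 w x) := by
        calc _ ≤ ∫ x in Pos u ∩ K, ζ x * (Np w (1 / ((n : ℝ) + 1)) (p - 1) x * N3 w x) := by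
              refine integral_mono ((hint n).indicator hSo).integrableOn
                (hint n).integrableOn fun x => ?_
              exact indicator_le_self' (fun y _ => hnn n y) x
          _ ≤ _ := by
              refine setIntegral_mono_set (hint n).integrableOn
                (Eventually.of_forall fun x => hnn n x)
                (Eventually.of_forall fun x hx => hx.1)
      refine h1.trans (hC _ (by positivity) ?_)
      rw [div_le_one (by positivity)]
      have : (0 : ℝ) ≤ n := Nat.cast_nonneg n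
      linarith
  refine (hmain.congr ?_ : Integrable _ _)
  refine (ae_restrict_iff' (hPm.inter hK.measurableSet)).2 (Eventually.of_forall fun x hx => ?_)
  by_cases hN : 0 < N2 w x
  · have m1 : x ∈ Pos u ∩ K ∩ {x | 0 < N2 w x} := ⟨hx, hN⟩
    rw [Set.indicator_of_mem m1]
  · have m1 : x ∉ Pos u ∩ K ∩ {x | 0 < N2 w x} := fun hh => hN hh.2
    have hN0 : N2 w x = 0 := le_antisymm (not_lt.1 hN) (N2_nonneg w x)
    rw [Set.indicator_of_notMem m1]
    change 0 = N2 w x ^ (p - 1) * N3 w x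
    rw [hN0, Real.zero_rpow (by linarith), zero_mul]

end

end Vale.Agent.P098
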