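import Vale.Agent.Lib.P098.Var.FldX
import Vale.Agent.Lib.P098.Var.Scale

/-!
# P098: the algebraic Kato inequality for jets of one-homogeneous harmonic functions
-/

namespace Vale.Agent.P098

section

variable {d : ℕ}

/-- triple contraction -/
def tri (S R : Fin d → Fin d → Fin d → ℝ) : ℝ := ∑ i, ∑ j, ∑ k, S i j k * R i j k

theorem tri_self_nonneg (S : Fin d → Fin d → Fin d → ℝ) : 0 ≤ tri S S :=
  Finset.sum_nonneg fun _ _ => Finset.sum_nonneg fun _ _ => Finset.sum_nonneg fun _ _ =>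
    mul_self_nonneg _

theorem tri_expand (a b c : ℝ) (S R Q : Fin d → Fin d → Fin d → ℝ) :
    tri (fun i j k => a * S i j k + b * R i j k - c * Q i j k)
      (fun i j k => a * S i j k + b * R i j k - c * Q i j k) =
    a ^ 2 * tri S S + b ^ 2 * tri R R + c ^ 2 * tri Q Q + 2 * a * b * tri S R -
      2 * a * c * tri S Q - 2 * b * c * tri R Q := by
  unfold tri
  simp only [Finset.mul_sum, ← Finset.sum_add_distrib, ← Finset.sum_sub_distrib]
  exact Finset.sum_congr rfl fun i _ => Finset.sum_congr rfl fun j _ =>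
    Finset.sum_congr rfl fun k _ => by ring

/-- symmetrization of `M ⊗ v` (three terms) -/
def sy (M : Fin d → Fin d → ℝ) (v : Fin d → ℝ) (i j k : Fin d) : ℝ :=
  M j k * v i + M i k * v j + M i j * v k

theorem tri_sy {S : Fin d → Fin d → Fin d → ℝ} (h1 : ∀ i j k, S i j k = S j i k)
    (h2 : ∀ i j k, S i j k = S i k j) (M : Fin d → Fin d → ℝ) (v : Fin d → ℝ) :
    tri S (sy M v) = 3 * ∑ i, v i * ∑ j, ∑ k, M j k * S i j k := by
  have e1 : ∑ i, ∑ j, ∑ k, S i j k * (M j k * v i) = ∑ i, v i * ∑ j, ∑ k, M j k * S i j k := by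
    simp only [Finset.mul_sum]
    exact Finset.sum_congr rfl fun i _ => Finset.sum_congr rfl fun j _ =>
      Finset.sum_congr rfl fun k _ => by ring
  have e2 : ∑ i, ∑ j, ∑ k, S i j k * (M i k * v j) = ∑ i, v i * ∑ j, ∑ k, M j k * S i j k := by
    rw [← e1, Finset.sum_comm]
    exact Finset.sum_congr rfl fun i _ => Finset.sum_congr rfl fun j _ =>
      Finset.sum_congr rfl fun k _ => by rw [h1 j i k]
  have e3 : ∑ i, ∑ j, ∑ k, S i j k * (M i j * v k) = ∑ i, v i * ∑ j, ∑ k, M j k * S i j k := by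
    rw [← e2]
    refine Finset.sum_congr rfl fun i _ => ?_
    rw [Finset.sum_comm]
    exact Finset.sum_congr rfl fun j _ => Finset.sum_congr rfl fun k _ => by rw [h2 i k j]
  unfold tri sy
  simp only [mul_add, Finset.sum_add_distrib]
  rw [e1, e2, e3]
  ring

theorem sy_symm1 {M : Fin d → Fin d → ℝ} (hM : ∀ i j, M i j = M j i) (v : Fin d → ℝ)
    (i j k : Fin d) : sy M v i j k = sy M v j i k := by
  unfold sy
  rw [hM i j]
  ring

theorem sy_symm2 {M : Fin d → Fin d → ℝ} (hM : ∀ i j, M i j = M j i) (v : Fin d → ℝ)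
    (i j k : Fin d) : sy M v i j k = sy M v i k j := by
  unfold sy
  rw [hM j k]
  ring

/-- contraction of `sy M v` with a matrix -/
theorem con_sy {M B : Fin d → Fin d → ℝ} (hB : ∀ i j, B i j = B j i) (v : Fin d → ℝ)
    (i : Fin d) : ∑ j, ∑ k, B j k * sy M v i j k =
      (∑ j, ∑ k, B j k * M j k) * v i + 2 * ∑ j, M i j * ∑ k, B j k * v k := by
  unfold sy
  have e1 : ∑ j, ∑ k, B j k * (M j k * v i) = (∑ j, ∑ k, B j k * M j k) * v i := by
    simp only [Finset.sum_mul]
    exact Finset.sum_congr rfl fun j _ => Finset.sum_congr rfl fun k _ => by ring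
  have e2 : ∑ j, ∑ k, B j k * (M i k * v j) = ∑ j, M i j * ∑ k, B j k * v k := by
    simp only [Finset.mul_sum]
    rw [Finset.sum_comm]
    exact Finset.sum_congr rfl fun j _ => Finset.sum_congr rfl fun k _ => by
      rw [hB k j]
      ring
  have e3 : ∑ j, ∑ k, B j k * (M i j * v k) = ∑ j, M i j * ∑ k, B j k * v k := by
    simp only [Finset.mul_sum]
    exact Finset.sum_congr rfl fun j _ => Finset.sum_congr rfl fun k _ => by ring
  simp only [mul_add, Finset.sum_add_distrib]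
  rw [e1, e2, e3]
  ring

variable {x p : Fin d → ℝ} {A : Fin d → Fin d → ℝ} {T : Fin d → Fin d → Fin d → ℝ}

/-- the projection to the orthogonal complement of `x` -/
def gx (x : Fin d → ℝ) (i j : Fin d) : ℝ := (if i = j then 1 else 0) - x i * x j

theorem gx_symm (x : Fin d → ℝ) (i j : Fin d) : gx x i j = gx x j i := by
  unfold gx
  by_cases h : i = j
  · rw [h]
  · rw [if_neg h, if_neg (Ne.symm h)]
    ring

theorem gx_mul {q : Fin d → ℝ} (hq : ∑ i, x i * q i = 0) (i : Fin d) :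
    ∑ j, gx x i j * q j = q i := by
  unfold gx
  have e : ∀ j, ((if i = j then 1 else 0) - x i * x j) * q j =
      (if i = j then q j else 0) - x i * (x j * q j) := by
    intro j
    split_ifs <;> ring
  rw [Finset.sum_congr rfl fun j _ => e j, Finset.sum_sub_distrib, ← Finset.mul_sum, hq,
    Finset.sum_ite_eq]
  simp

theorem gx_tr (hx : ∑ i, x i ^ 2 = 1) : ∑ i, ∑ j, gx x i j * gx x i j = (d : ℝ) - 1 := by
  have e : ∀ i, ∑ j, gx x i j * gx x i j = 1 - x i ^ 2 := by
    intro i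
    have e1 : ∀ j, gx x i j * gx x i j = (if i = j then 1 - 2 * (x i * x j) else 0) +
        x i ^ 2 * x j ^ 2 := by
      intro j
      unfold gx
      split_ifs <;> ring
    rw [Finset.sum_congr rfl fun j _ => e1 j, Finset.sum_add_distrib, ← Finset.mul_sum, hx,
      Finset.sum_ite_eq]
    simp
    ring
  rw [Finset.sum_congr rfl fun i _ => e i, Finset.sum_sub_distrib, hx]
  simp

theorem gx_con (M : Fin d → Fin d → ℝ) :
    ∑ i, ∑ j, gx x i j * M i j = ∑ i, M i i - ∑ i, x i * ∑ j, x j * M i j := by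
  rw [← Finset.sum_sub_distrib]
  refine Finset.sum_congr rfl fun i _ => ?_
  unfold gx
  have e : ∀ j, ((if i = j then 1 else 0) - x i * x j) * M i j =
      (if i = j then M i j else 0) - x i * (x j * M i j) := by
    intro j
    split_ifs <;> ring
  rw [Finset.sum_congr rfl fun j _ => e j, Finset.sum_sub_distrib, ← Finset.mul_sum,
    Finset.sum_ite_eq]
  simp

/-- `|Aq|² ≤ (1 - 1/n) |A|² |q|²`, `n = d - 1` -/
theorem tracefree_bd (hd : 3 ≤ d) (hx : ∑ i, x i ^ 2 = 1) (hA : ∀ i j, A i j = A j i)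
    (htr : ∑ i, A i i = 0) (hAx : ∀ j, ∑ i, x i * A i j = 0) {q : Fin d → ℝ}
    (hq : ∑ i, x i * q i = 0) :
    ((d : ℝ) - 1) * ∑ i, mv A q i ^ 2 ≤ ((d : ℝ) - 2) * (jN A * ∑ i, q i ^ 2) := by
  obtain ⟨v, hv⟩ : ∃ v : Fin d → ℝ, v = mv A q := ⟨_, rfl⟩
  have hn : (2 : ℝ) ≤ (d : ℝ) - 1 := by
    have : (3 : ℝ) ≤ d := by exact_mod_cast hd
    linarith
  obtain ⟨n, hnd⟩ : ∃ n : ℝ, n = (d : ℝ) - 1 := ⟨_, rfl⟩
  have hn0 : 0 < n := by linarith
  rw [← hv]
  set V := ∑ i, v i ^ 2 with hV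
  set Q := ∑ i, q i ^ 2 with hQ
  set N := jN A with hN
  obtain ⟨b, hb⟩ : ∃ b : ℝ, b = ∑ i, q i * v i := ⟨_, rfl⟩
  have hxv : ∑ i, x i * v i = 0 := by
    rw [hv]
    exact dotx_A hAx q
  -- the test matrix
  obtain ⟨M, hM⟩ : ∃ M : Fin d → Fin d → ℝ,
      M = fun i j => (q i * v j + v i * q j) / 2 - b / n * gx x i j := ⟨_, rfl⟩
  have h1 : ∑ i, ∑ j, A i j * M i j = V := by
    have e1 : ∀ i j, A i j * M i j = (q i * (A i j * v j)) / 2 + (v i * (A i j * q j)) / 2 -
        b / n * (gx x i j * A i j) := by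
      intro i j
      rw [hM]
      ring
    simp only [e1, Finset.sum_add_distrib, Finset.sum_sub_distrib, ← Finset.mul_sum,
      ← Finset.sum_div]
    have e2 : ∑ i, q i * ∑ j, A i j * v j = V := by
      have h3 := mv_mv hA q v
      unfold dot at h3
      have h4 : ∀ i, mv A v i = ∑ j, A i j * v j := fun i => rfl
      simp only [h4] at h3
      rw [h3, ← hv, hV]
      exact Finset.sum_congr rfl fun i _ => by ring
    have e3 : ∑ i, v i * ∑ j, A i j * q j = V := by
      rw [hV]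
      refine Finset.sum_congr rfl fun i _ => ?_
      have h4 : ∑ j, A i j * q j = v i := by
        rw [hv]
        rfl
      rw [h4]
      ring
    have e4 : ∑ i, ∑ j, gx x i j * A i j = 0 := by
      rw [gx_con, htr]
      have : ∑ i, x i * ∑ j, x j * A i j = 0 := by
        refine Finset.sum_eq_zero fun i _ => ?_
        have h5 : ∑ j, x j * A i j = 0 := by
          rw [← hAx i]
          exact Finset.sum_congr rfl fun j _ => by rw [hA i j]
        rw [h5, mul_zero]
      rw [this]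
      ring
    rw [e2, e3, e4]
    ring
  have h2 : jN M = (Q * V + b ^ 2) / 2 - b ^ 2 / n := by
    have e1 : ∀ i j, M i j ^ 2 = (q i ^ 2 * v j ^ 2) / 4 + (v i ^ 2 * q j ^ 2) / 4 +
        ((q i * v i) * (q j * v j)) / 2 - (b / n) * (q i * (gx x i j * v j)) -
        (b / n) * (v i * (gx x i j * q j)) + (b / n) ^ 2 * (gx x i j * gx x i j) := by
      intro i j
      rw [hM]
      ring
    unfold jN
    simp only [e1, Finset.sum_add_distrib, Finset.sum_sub_distrib, ← Finset.mul_sum,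
      ← Finset.sum_div]
    have e2 : ∑ i, q i * ∑ j, gx x i j * v j = b := by
      rw [hb]
      exact Finset.sum_congr rfl fun i _ => by rw [gx_mul hxv]
    have e3 : ∑ i, v i * ∑ j, gx x i j * q j = b := by
      rw [hb]
      exact Finset.sum_congr rfl fun i _ => by
        rw [gx_mul hq]
        ring
    have e4 : ∑ i, q i ^ 2 * ∑ j, v j ^ 2 = Q * V := by
      rw [← Finset.sum_mul]
    have e5 : ∑ i, v i ^ 2 * ∑ j, q j ^ 2 = Q * V := by
      rw [← Finset.sum_mul]
      ring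
    have e6 : ∑ i, q i * v i * ∑ j, q j * v j = b ^ 2 := by
      rw [← Finset.sum_mul, ← hb]
      ring
    rw [e2, e3, e4, e5, e6, gx_tr hx, ← hnd]
    field_simp
    ring
  have h3 := pair_sq_le A M
  rw [h1, h2, ← hN] at h3
  have h4 : b ^ 2 ≤ Q * V := by
    rw [hb]
    exact Finset.sum_mul_sq_le_sq_mul_sq _ _ _
  have hV0 : 0 ≤ V := pp_nonneg v
  have hQ0 : 0 ≤ Q := pp_nonneg q
  have hN0 : 0 ≤ N := jN_nonneg
  have h5 : (Q * V + b ^ 2) / 2 - b ^ 2 / n ≤ (1 - 1 / n) * (Q * V) := by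
    have h6 : 0 ≤ 1 / 2 - 1 / n := by
      rw [sub_nonneg]
      exact one_div_le_one_div_of_le (by norm_num) (by linarith)
    have h7 := mul_le_mul_of_nonneg_left h4 h6
    have e : b ^ 2 / n = 1 / n * b ^ 2 := by ring
    rw [e]
    linarith
  have h8 : V ^ 2 ≤ N * ((1 - 1 / n) * (Q * V)) := h3.trans (mul_le_mul_of_nonneg_left h5 hN0)
  have h9 : (d : ℝ) - 2 = n - 1 := by
    rw [hnd]
    ring
  rw [h9, ← hnd]
  rcases hV0.lt_or_eq with hVp | hV0'
  · have h10 : V ≤ N * ((1 - 1 / n) * Q) := by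
      have : V * V ≤ (N * ((1 - 1 / n) * Q)) * V := by nlinarith
      exact le_of_mul_le_mul_right this hVp
    calc n * V ≤ n * (N * ((1 - 1 / n) * Q)) := mul_le_mul_of_nonneg_left h10 hn0.le
      _ = (n - 1) * (N * Q) := by
        field_simp
  · rw [← hV0', mul_zero]
    exact mul_nonneg (by linarith) (mul_nonneg hN0 hQ0)

end

end Vale.Agent.P098
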