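import Vale.Agent.Lib.P098.Var.KatoAlg

/-!
# P098: the Kato type inequality for `Δ(u² |A|²)`
-/

namespace Vale.Agent.P098

section

variable {d : ℕ} {x p : Fin d → ℝ} {A : Fin d → Fin d → ℝ} {T : Fin d → Fin d → Fin d → ℝ}

theorem jT_tri (T : Fin d → Fin d → Fin d → ℝ) : jT T = tri T T := by
  unfold jT tri
  exact Finset.sum_congr rfl fun i _ => Finset.sum_congr rfl fun j _ =>
    Finset.sum_congr rfl fun k _ => by ring

theorem dot_jX_x (J : Jet x p A T) : dot (jX A T) x = -jN A := by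
  have h := dotx_T J.Tx A
  have e : dot (jX A T) x = ∑ i, x i * ∑ j, ∑ k, A j k * T i j k := by
    unfold dot jX
    exact Finset.sum_congr rfl fun i _ => by ring
  rw [e, h]
  unfold jN
  congr 1
  exact Finset.sum_congr rfl fun i _ => Finset.sum_congr rfl fun j _ => by ring

/-- **Kato type inequality.** -/
theorem kato_jet (hd : 3 ≤ d) (J : Jet x p A T) :
    0 ≤ ((d : ℝ) + 1) * (2 * dot p p * jN A + 8 * dot x p * dot (jX A T) p +
      2 * dot x p ^ 2 * jT T) + (6 * d - 10) * (jN A * (dot p p - dot x p ^ 2)) := by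
  have hd3 : (3 : ℝ) ≤ d := by exact_mod_cast hd
  obtain ⟨u, hu⟩ : ∃ u : ℝ, u = dot x p := ⟨_, rfl⟩
  obtain ⟨q, hq⟩ : ∃ q : Fin d → ℝ, q = fun i => p i - u * x i := ⟨_, rfl⟩
  have hx1 := J.unit
  have hA := J.symA
  have hAx' : ∀ i, ∑ j, A i j * x j = 0 := by
    intro i
    rw [← J.Ax i]
    exact Finset.sum_congr rfl fun j _ => by
      rw [hA i j]
      ring
  have hxq : ∑ i, x i * q i = 0 := by
    have e : ∀ i, x i * q i = x i * p i - u * x i ^ 2 := fun i => by
      rw [hq]
      ring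
    rw [Finset.sum_congr rfl fun i _ => e i, Finset.sum_sub_distrib, ← Finset.mul_sum, hx1, hu]
    unfold dot
    ring
  obtain ⟨v, hv⟩ : ∃ v : Fin d → ℝ, v = mv A q := ⟨_, rfl⟩
  have hxv : ∑ i, x i * v i = 0 := by
    rw [hv]
    exact dotx_A J.Ax q
  obtain ⟨N, hN⟩ : ∃ N : ℝ, N = jN A := ⟨_, rfl⟩
  obtain ⟨Q, hQ⟩ : ∃ Q : ℝ, Q = ∑ i, q i ^ 2 := ⟨_, rfl⟩
  obtain ⟨V, hV⟩ : ∃ V : ℝ, V = ∑ i, v i ^ 2 := ⟨_, rfl⟩
  obtain ⟨X, hX⟩ : ∃ X : ℝ, X = dot (jX A T) q := ⟨_, rfl⟩
  obtain ⟨t, ht⟩ : ∃ t : ℝ, t = jT T := ⟨_, rfl⟩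
  obtain ⟨n, hn⟩ : ∃ n : ℝ, n = (d : ℝ) - 1 := ⟨_, rfl⟩
  have hn0 : 0 < n + 2 := by linarith
  -- the trace-free bound
  have hVb : n * V ≤ (n - 1) * (N * Q) := by
    have := tracefree_bd hd hx1 hA J.trA J.Ax hxq
    rw [← hv, ← hV, ← hN, ← hQ] at this
    rw [hn]
    linarith
  -- the tensor `τ`
  obtain ⟨τ, hτ⟩ : ∃ τ : Fin d → Fin d → Fin d → ℝ, τ = fun i j k => T i j k + sy A x i j k :=
    ⟨_, rfl⟩
  have hτ1 : ∀ i j k, τ i j k = τ j i k := fun i j k => by
    rw [hτ]
    simp only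
    rw [J.symT1 i j k, sy_symm1 hA]
  have hτ2 : ∀ i j k, τ i j k = τ i k j := fun i j k => by
    rw [hτ]
    simp only
    rw [J.symT2 i j k, sy_symm2 hA]
  have hcAx : ∀ i, ∑ j, ∑ k, A j k * sy A x i j k = N * x i := by
    intro i
    rw [con_sy hA x i]
    have e1 : ∑ j, A i j * ∑ k, A j k * x k = 0 :=
      Finset.sum_eq_zero fun j _ => by rw [hAx' j, mul_zero]
    have e2 : ∑ j, ∑ k, A j k * A j k = N := by
      rw [hN]
      unfold jN
      exact Finset.sum_congr rfl fun i _ => Finset.sum_congr rfl fun j _ => by ring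
    rw [e1, e2]
    ring
  have t1 : tri τ τ = t - 3 * N := by
    have e1 : tri τ τ = tri T T + 2 * tri T (sy A x) + tri (sy A x) (sy A x) := by
      unfold tri
      simp only [Finset.mul_sum, ← Finset.sum_add_distrib]
      refine Finset.sum_congr rfl fun i _ => Finset.sum_congr rfl fun j _ =>
        Finset.sum_congr rfl fun k _ => ?_
      rw [hτ]
      ring
    rw [e1, tri_sy J.symT1 J.symT2, tri_sy (sy_symm1 hA x) (sy_symm2 hA x), ← jT_tri, ← ht]
    have e2 : ∑ i, x i * ∑ j, ∑ k, A j k * T i j k = -N := by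
      rw [dotx_T J.Tx A, hN]
      unfold jN
      congr 1
      exact Finset.sum_congr rfl fun i _ => Finset.sum_congr rfl fun j _ => by ring
    have e3 : ∑ i, x i * ∑ j, ∑ k, A j k * sy A x i j k = N := by
      have : ∀ i, x i * ∑ j, ∑ k, A j k * sy A x i j k = N * x i ^ 2 := fun i => by
        rw [hcAx i]
        ring
      rw [Finset.sum_congr rfl fun i _ => this i, ← Finset.mul_sum, hx1, mul_one]
    rw [e2, e3]
    ring
  have t2 : tri (sy A q) (sy A q) = 3 * (N * Q + 2 * V) := by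
    rw [tri_sy (sy_symm1 hA q) (sy_symm2 hA q)]
    congr 1
    have e1 : ∀ i, q i * ∑ j, ∑ k, A j k * sy A q i j k =
        N * q i ^ 2 + 2 * (q i * mv A v i) := by
      intro i
      rw [con_sy hA q i]
      have e2 : ∑ j, ∑ k, A j k * A j k = N := by
        rw [hN]
        unfold jN
        exact Finset.sum_congr rfl fun i _ => Finset.sum_congr rfl fun j _ => by ring
      have e3 : ∑ j, A i j * ∑ k, A j k * q k = mv A v i := by
        rw [hv]
        rfl
      rw [e2, e3]
      ring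
    rw [Finset.sum_congr rfl fun i _ => e1 i, Finset.sum_add_distrib, ← Finset.mul_sum,
      ← Finset.mul_sum, ← hQ]
    have e4 : ∑ i, q i * mv A v i = V := by
      have h3 := mv_mv hA q v
      unfold dot at h3
      rw [h3, ← hv, hV]
      exact Finset.sum_congr rfl fun i _ => by ring
    rw [e4]
  have hgv : ∀ i, ∑ j, ∑ k, gx x j k * sy (gx x) v i j k = (n + 2) * v i := by
    intro i
    rw [con_sy (gx_symm x) v i, gx_tr hx1]
    have e1 : ∀ j, ∑ k, gx x j k * v k = v j := fun j => gx_mul hxv j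
    simp only [e1]
    rw [hn]
    ring
  have t3 : tri (sy (gx x) v) (sy (gx x) v) = 3 * ((n + 2) * V) := by
    rw [tri_sy (sy_symm1 (gx_symm x) v) (sy_symm2 (gx_symm x) v)]
    congr 1
    have e1 : ∀ i, v i * ∑ j, ∑ k, gx x j k * sy (gx x) v i j k = (n + 2) * v i ^ 2 := by
      intro i
      rw [hgv i]
      ring
    rw [Finset.sum_congr rfl fun i _ => e1 i, ← Finset.mul_sum, ← hV]
  have t4 : tri τ (sy A q) = 3 * X := by
    rw [tri_sy hτ1 hτ2]
    congr 1
    have e1 : ∀ i, q i * ∑ j, ∑ k, A j k * τ i j k = jX A T i * q i + N * (x i * q i) := by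
      intro i
      have e2 : ∑ j, ∑ k, A j k * τ i j k = jX A T i + N * x i := by
        rw [← hcAx i]
        unfold jX
        simp only [← Finset.sum_add_distrib]
        refine Finset.sum_congr rfl fun j _ => Finset.sum_congr rfl fun k _ => ?_
        rw [hτ]
        ring
      rw [e2]
      ring
    rw [Finset.sum_congr rfl fun i _ => e1 i, Finset.sum_add_distrib, ← Finset.mul_sum, hxq, hX]
    unfold dot
    ring
  have t5 : tri τ (sy (gx x) v) = 0 := by
    rw [tri_sy hτ1 hτ2]
    have e1 : ∀ i, ∑ j, ∑ k, gx x j k * τ i j k = 0 := by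
      intro i
      rw [gx_con]
      have e2 : ∑ j, τ i j j = 0 := by
        have e3 : ∀ j, τ i j j = T j j i + (A j j * x i + 2 * (A i j * x j)) := by
          intro j
          rw [hτ]
          simp only
          rw [J.symT1 i j j, J.symT2 j i j]
          unfold sy
          ring
        rw [Finset.sum_congr rfl fun j _ => e3 j, Finset.sum_add_distrib,
          Finset.sum_add_distrib, ← Finset.sum_mul, ← Finset.mul_sum, J.trT i, J.trA, hAx' i]
        ring
      have e4 : ∀ j, ∑ k, x k * τ i j k = 0 := by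
        intro j
        have e5 : ∀ k, x k * τ i j k = x k * T k i j + (A i j * x k ^ 2 +
            (A j k * x k) * x i + (A i k * x k) * x j) := by
          intro k
          rw [hτ]
          simp only
          rw [J.symT2 i j k, J.symT1 i k j]
          unfold sy
          ring
        rw [Finset.sum_congr rfl fun k _ => e5 k, Finset.sum_add_distrib,
          Finset.sum_add_distrib, Finset.sum_add_distrib, ← Finset.mul_sum, ← Finset.sum_mul,
          ← Finset.sum_mul, J.Tx i j, hx1, hAx' i, hAx' j]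
        ring
      rw [e2]
      have e6 : ∑ j, x j * ∑ k, x k * τ i j k = 0 :=
        Finset.sum_eq_zero fun j _ => by rw [e4 j, mul_zero]
      rw [e6]
      ring
    have e7 : ∑ i, v i * ∑ j, ∑ k, gx x j k * τ i j k = 0 :=
      Finset.sum_eq_zero fun i _ => by rw [e1 i, mul_zero]
    rw [e7]
    ring
  have t6 : tri (sy A q) (sy (gx x) v) = 6 * V := by
    rw [tri_sy (sy_symm1 hA q) (sy_symm2 hA q)]
    have e1 : ∀ i, ∑ j, ∑ k, gx x j k * sy A q i j k = 2 * v i := by
      intro i
      rw [con_sy (gx_symm x) q i]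
      have e2 : ∑ j, ∑ k, gx x j k * A j k = 0 := by
        rw [gx_con, J.trA]
        have : ∑ i, x i * ∑ j, x j * A i j = 0 := by
          refine Finset.sum_eq_zero fun i _ => ?_
          have h5 : ∑ j, x j * A i j = 0 := by
            rw [← hAx' i]
            exact Finset.sum_congr rfl fun j _ => by ring
          rw [h5, mul_zero]
        rw [this]
        ring
      have e3 : ∀ j, ∑ k, gx x j k * q k = q j := fun j => gx_mul hxq j
      simp only [e3]
      rw [e2]
      have e4 : ∑ j, A i j * q j = v i := by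
        rw [hv]
        rfl
      rw [e4]
      ring
    have e5 : ∀ i, v i * ∑ j, ∑ k, gx x j k * sy A q i j k = 2 * v i ^ 2 := by
      intro i
      rw [e1 i]
      ring
    rw [Finset.sum_congr rfl fun i _ => e5 i, ← Finset.mul_sum, ← hV]
    ring
  -- the square
  have key := tri_self_nonneg (fun i j k => u * τ i j k + (2 / 3) * sy A q i j k -
    (4 / (3 * (n + 2))) * sy (gx x) v i j k)
  rw [tri_expand, t1, t2, t3, t4, t5, t6] at key
  have key2 : 0 ≤ u ^ 2 * (t - 3 * N) + 4 * u * X + 4 / 3 * (N * Q) + 8 * n / (3 * (n + 2)) * V := by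
    refine key.trans (le_of_eq ?_)
    field_simp
    ring
  have hs : dot p p = Q + u ^ 2 := by
    have e1 : ∀ i, p i * p i = q i ^ 2 + 2 * u * (x i * q i) + u ^ 2 * x i ^ 2 := by
      intro i
      rw [hq]
      ring
    unfold dot
    rw [Finset.sum_congr rfl fun i _ => e1 i, Finset.sum_add_distrib, Finset.sum_add_distrib,
      ← Finset.mul_sum, ← Finset.mul_sum, hxq, hx1, ← hQ]
    ring
  have hXp : dot (jX A T) p = X - u * N := by
    have e1 : ∀ i, jX A T i * p i = jX A T i * q i + u * (jX A T i * x i) := by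
      intro i
      rw [hq]
      ring
    have e2 := dot_jX_x J
    unfold dot at e2 hX ⊢
    rw [Finset.sum_congr rfl fun i _ => e1 i, Finset.sum_add_distrib, ← Finset.mul_sum, e2, ← hX,
      hN]
    ring
  have hV2 : 8 * n / (3 * (n + 2)) * V ≤ 8 / (3 * (n + 2)) * ((n - 1) * (N * Q)) := by
    have e : 8 * n / (3 * (n + 2)) * V = 8 / (3 * (n + 2)) * (n * V) := by ring
    rw [e]
    exact mul_le_mul_of_nonneg_left hVb (by positivity)
  have key3 : 0 ≤ u ^ 2 * (t - 3 * N) + 4 * u * X + 4 / 3 * (N * Q) +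
      8 / (3 * (n + 2)) * ((n - 1) * (N * Q)) := by linarith
  have key4 : 0 ≤ (n + 2) * (u ^ 2 * (t - 3 * N) + 4 * u * X) + 4 * n * (N * Q) := by
    have h1 := mul_nonneg hn0.le key3
    refine h1.trans (le_of_eq ?_)
    field_simp
    ring
  rw [← hu, ← hN, ← ht, hs, hXp]
  have hd' : (d : ℝ) = n + 1 := by
    rw [hn]
    ring
  rw [hd']
  nlinarith [key4]

end

end Vale.Agent.P098
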