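import Vale.Agent.Lib.P098.Var.Test

/-!
# P098: letting `δ → 0`
-/

open MeasureTheory Set Filter Topology
open scoped ContDiff

namespace Vale.Agent.P098

section

variable {d : ℕ} {u w E : Ed d → ℝ} {U : Set (Ed d)} {α c : ℝ}

theorem stab_cert_aux (h : SmoothCone u w U) (hst : Stab u w) (hE : Cert u w U E α c)
    (hc : 0 ≤ c) {ζ : Ed d → ℝ} (hζ : ContDiff ℝ ∞ ζ) (hζ0 : ∀ x, 0 ≤ ζ x)
    (hζs : HasCompactSupport ζ) (hζU : tsupport ζ ⊆ U \ {0}) :
    0 ≤ ∫ x in Pos u, E x ^ 2 * (∑ i, pd i ζ x ^ 2 - c * (ζ x ^ 2 / ‖x‖ ^ 2)) := by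
  obtain ⟨M, hM⟩ := stab_delta h hst hE hc hζ hζ0 hζs hζU
  have hζU' : tsupport ζ ⊆ U := fun x hx => (hζU hx).1
  have hζ00 : (0 : Ed d) ∉ tsupport ζ := fun hx => (hζU hx).2 rfl
  have hpζ : ∀ i, Continuous (pd i ζ) := fun i =>
    (contDiff_pd (m := 0) hζ (by simp)).continuous
  have hpζ0 : ∀ x, x ∉ tsupport ζ → ∀ i, pd i ζ x = 0 := fun x hx i =>
    pd_eq_zero_of_notMem_tsupport hx
  have hφx0 : ∀ x, x ∉ tsupport ζ → ζ x = 0 := fun x hx => image_eq_zero_of_notMem_tsupport hx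
  obtain ⟨Z, hZ⟩ : ∃ Z : Ed d → ℝ, Z = fun x => ∑ i, pd i ζ x ^ 2 - c * (ζ x ^ 2 / ‖x‖ ^ 2) :=
    ⟨_, rfl⟩
  have hZc : ContinuousOn Z (tsupport ζ) := by
    rw [hZ]
    refine (continuousOn_finsetSum _ fun i _ => ((hpζ i).continuousOn).pow 2).sub
      (continuousOn_const.mul (((hζ.continuous.continuousOn).pow 2).div
        (continuous_norm.continuousOn.pow 2) ?_))
    intro x hx
    have hx0 : x ≠ 0 := fun e => hζ00 (e ▸ hx)
    have : ‖x‖ ≠ 0 := norm_ne_zero_iff.2 hx0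
    positivity
  have hZ0 : ∀ x, x ∉ tsupport ζ → Z x = 0 := by
    intro x hx
    rw [hZ]
    simp [hpζ0 x hx, hφx0 x hx]
  have hZx : ∀ x, ∑ i, pd i ζ x ^ 2 - c * (ζ x ^ 2 / ‖x‖ ^ 2) = Z x := fun x => by rw [hZ]
  simp only [hZx] at hM ⊢
  have iDom : Integrable (fun x => |E x| ^ 2 * |Z x|) volume := by
    refine integrable_of_continuousOn_compact hζs.isCompact ?_ ?_
    · exact (((hE.cont.mono hζU').abs).pow 2).mul hZc.abs
    · intro x hx
      rw [hZ0 x hx]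
      simp
  have hlim : Tendsto (fun n : ℕ => ∫ x in Pos u, ramp (1 / ((n : ℝ) + 1)) (E x) ^ 2 * Z x)
      atTop (𝓝 (∫ x in Pos u, E x ^ 2 * Z x)) := by
    refine tendsto_integral_of_dominated_convergence (fun x => |E x| ^ 2 * |Z x|) ?_ ?_ ?_ ?_
    · intro n
      have hδ : (0 : ℝ) < 1 / ((n : ℝ) + 1) := by positivity
      have h1 : Integrable (fun x => ramp (1 / ((n : ℝ) + 1)) (E x) ^ 2 * Z x) volume := by
        refine integrable_of_continuousOn_compact hζs.isCompact ?_ ?_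
        · exact (((Cert.ramp_smoothOn h hE hδ).continuousOn.mono hζU').pow 2).mul hZc
        · intro x hx
          rw [hZ0 x hx]
          simp
      exact h1.integrableOn.aestronglyMeasurable
    · exact iDom.integrableOn
    · intro n
      have hδ : (0 : ℝ) < 1 / ((n : ℝ) + 1) := by positivity
      refine (ae_restrict_iff' h.isOpen_pos.measurableSet).2 (Eventually.of_forall ?_)
      intro x hx
      rw [norm_mul, Real.norm_eq_abs, Real.norm_eq_abs, abs_pow]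
      refine mul_le_mul_of_nonneg_right ?_ (abs_nonneg _)
      refine pow_le_pow_left₀ (abs_nonneg _) ?_ 2
      rw [abs_of_nonneg (ramp_nonneg hδ _)]
      exact (ramp_le hδ (hE.nonneg x hx)).trans (le_abs_self _)
    · refine (ae_restrict_iff' h.isOpen_pos.measurableSet).2 (Eventually.of_forall ?_)
      intro x hx
      refine Tendsto.mul_const _ (Tendsto.pow ?_ 2)
      have h1 : Tendsto (fun n : ℕ => E x - 2 * (1 / ((n : ℝ) + 1))) atTop (𝓝 (E x)) := by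
        have h2 := (tendsto_one_div_add_atTop_nhds_zero_nat (𝕜 := ℝ)).const_mul 2
        have h3 := (tendsto_const_nhds (x := E x) (f := atTop)).sub h2
        simpa using h3
      refine tendsto_of_tendsto_of_tendsto_of_le_of_le h1 tendsto_const_nhds ?_ ?_
      · intro n
        exact ramp_ge (by positivity) _
      · intro n
        exact ramp_le (by positivity) (hE.nonneg x hx)
  have hlim0 : Tendsto (fun n : ℕ => 1 / ((n : ℝ) + 1) * M) atTop (𝓝 0) := by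
    simpa using (tendsto_one_div_add_atTop_nhds_zero_nat (𝕜 := ℝ)).mul_const M
  exact le_of_tendsto_of_tendsto' hlim0 hlim fun n => hM _ (by positivity)

/-- **Integrated inequality**: stability and a certificate give
`∫ E² (|∇ζ|² - c ζ²/|x|²) ≥ 0`. -/
theorem stab_cert (h : SmoothCone u w U) (hst : Stab u w) (hE : Cert u w U E α c)
    (hc : 0 ≤ c) {ζ : Ed d → ℝ} (hζ : ContDiff ℝ ∞ ζ) (hζ0 : ∀ x, 0 ≤ ζ x)
    (hζs : HasCompactSupport ζ) (h00 : (0 : Ed d) ∉ tsupport ζ) :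
    0 ≤ ∫ x in Pos u, E x ^ 2 * (∑ i, pd i ζ x ^ 2 - c * (ζ x ^ 2 / ‖x‖ ^ 2)) := by
  have hKc : IsCompact (closure (Pos u) ∩ tsupport ζ) :=
    hζs.isCompact.inter_left isClosed_closure
  have hVo : IsOpen (U \ {(0 : Ed d)}) := h.isOpen.sdiff isClosed_singleton
  have hKV : closure (Pos u) ∩ tsupport ζ ⊆ U \ {0} := by
    rintro x ⟨hx1, hx2⟩
    have hx0 : x ≠ 0 := fun e => h00 (e ▸ hx2)
    exact ⟨h.sub ⟨hx1, hx0⟩, hx0⟩
  obtain ⟨ρ, hρ, hρ0, -, hρs, hρV, W, hW, hKW, hW1⟩ := exists_cutoff hKc hVo hKV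
  have hηU : tsupport (fun x => ρ x * ζ x) ⊆ U \ {0} := tsupport_mul_subset.trans hρV
  have hev : ∀ x ∈ Pos u, (fun x => ρ x * ζ x) =ᶠ[𝓝 x] ζ := by
    intro x hx
    by_cases hxt : x ∈ tsupport ζ
    · filter_upwards [hW.mem_nhds (hKW ⟨subset_closure hx, hxt⟩)] with y hy
      rw [hW1 y hy, one_mul]
    · filter_upwards [notMem_tsupport_iff_eventuallyEq.1 hxt] with y hy
      rw [hy]
      simp
  have key := stab_cert_aux h hst hE hc (hρ.mul hζ) (fun x => mul_nonneg (hρ0 x) (hζ0 x))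
    (hρs.mul_right) hηU
  have e : ∫ x in Pos u, E x ^ 2 * (∑ i, pd i (fun x => ρ x * ζ x) x ^ 2 -
      c * ((ρ x * ζ x) ^ 2 / ‖x‖ ^ 2)) =
      ∫ x in Pos u, E x ^ 2 * (∑ i, pd i ζ x ^ 2 - c * (ζ x ^ 2 / ‖x‖ ^ 2)) := by
    refine setIntegral_congr_fun h.isOpen_pos.measurableSet fun x hx => ?_
    have h1 : ρ x * ζ x = ζ x := (hev x hx).self_of_nhds
    change E x ^ 2 * (∑ i, pd i (fun x => ρ x * ζ x) x ^ 2 -
      c * ((ρ x * ζ x) ^ 2 / ‖x‖ ^ 2)) = _
    have h2 : ∑ i, pd i (fun x => ρ x * ζ x) x ^ 2 = ∑ i, pd i ζ x ^ 2 :=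
      Finset.sum_congr rfl fun i _ => by rw [pd_congr (hev x hx)]
    rw [h1, h2]
  rw [e] at key
  exact key

end

end Vale.Agent.P098
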