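import Vale.Agent.Lib.P098.Var.Cert

/-!
# P098: certificates with a divergence field

A pair `(E, Z)`: density `E ≥ 0` and vector field `Z` with
`div Z - |∇E|²/(4E) ≥ γ E/|x|²` inside, `Z·∇w ≥ D²w(∇w,∇w) E` on the free boundary and
`x·Z = -α E`.  If `γ > ((d-2)/2 - α)²` and the cone is stable then `E = 0`.
-/

open MeasureTheory Set Filter Topology
open scoped ContDiff

namespace Vale.Agent.P098

/-- certificate with a divergence field -/
structure PairCert {d : ℕ} (u w : Ed d → ℝ) (U : Set (Ed d)) (E : Ed d → ℝ)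
    (Z : Fin d → Ed d → ℝ) (α γ : ℝ) : Prop where
  cont : ContinuousOn E U
  smooth : ∀ x ∈ U, 0 < E x → ContDiffAt ℝ ∞ E x
  smoothZ : ∀ x ∈ U, 0 < E x → ∀ i, ContDiffAt ℝ ∞ (Z i) x
  nonneg : ∀ x ∈ Pos u, 0 ≤ E x
  hom : ∀ x ∈ Pos u, ∀ r : ℝ, 0 < r → E (r • x) = r ^ (-(2 * α)) * E x
  rad : ∀ x ∈ Pos u, 0 < E x → ∑ i, x i * Z i x = -(α * E x)
  int : ∀ x ∈ Pos u, 0 < E x →
    γ * E x / ‖x‖ ^ 2 ≤ ∑ i, pd i (Z i) x - (∑ i, pd i E x ^ 2) / (4 * E x)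
  bdry : ∀ x ∈ frontier (Pos u), x ≠ 0 → 0 < E x → Qw w x * E x ≤ ∑ i, Z i x * pd i w x
  integ : ∀ K : Set (Ed d), IsCompact K → (0 : Ed d) ∉ K → ∃ J : Ed d → ℝ,
    IntegrableOn J (Pos u ∩ K) volume ∧ ∀ x ∈ Pos u ∩ K, 0 < E x →
      (∑ i, pd i E x ^ 2) / E x + |∑ i, pd i E x * Z i x| / E x ≤ J x

/-! ### the cutoff functions of `E` -/

theorem chi_deriv_zero_left {s : ℝ} (hs : s ≤ 1) : deriv chi s = 0 := by
  rcases hs.lt_or_eq with h | h
  · have h1 : chi =ᶠ[𝓝 s] fun _ => 0 := by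
      filter_upwards [gt_mem_nhds h] with y hy
      exact chi_zero hy.le
    rw [h1.deriv_eq]
    simp
  · have hmin : IsLocalMin chi s := by
      filter_upwards with y
      rw [chi_zero hs]
      exact chi_nonneg y
    exact hmin.deriv_eq_zero

/-- `ω(s) = s χ'(s)` -/
noncomputable def chiom (s : ℝ) : ℝ := s * deriv chi s

theorem chiom_zero {s : ℝ} (hs : s ≤ 1 ∨ 2 ≤ s) : chiom s = 0 := by
  unfold chiom
  rcases hs with h | h
  · rw [chi_deriv_zero_left h, mul_zero]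
  · rw [chi_deriv_zero h, mul_zero]

theorem chiom_bound : ∃ M : ℝ, 0 ≤ M ∧ ∀ s, |chiom s| ≤ M := by
  have hc : Continuous chiom := continuous_id.mul (chi_contDiff.continuous_deriv (by simp))
  obtain ⟨M, hM⟩ := (isCompact_Icc (a := (1 : ℝ)) (b := 2)).exists_bound_of_continuousOn
    hc.continuousOn
  refine ⟨|M|, abs_nonneg _, fun s => ?_⟩
  by_cases hs : s ≤ 1 ∨ 2 ≤ s
  · rw [chiom_zero hs, abs_zero]
    exact abs_nonneg _
  · rw [not_or, not_le, not_le] at hs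
    exact (hM s ⟨hs.1.le, hs.2.le⟩).trans (le_abs_self M)

/-- `κ_δ(t) = √t χ(√t/δ)` -/
noncomputable def kap (δ t : ℝ) : ℝ := Real.sqrt t * chi (Real.sqrt t / δ)

/-- `μ_δ(t) = χ(√t/δ)²` -/
noncomputable def mud (δ t : ℝ) : ℝ := chi (Real.sqrt t / δ) ^ 2

theorem sqrt_div_le {δ t : ℝ} (hδ : 0 < δ) (ht : t < δ ^ 2) : Real.sqrt t / δ ≤ 1 := by
  rw [div_le_one hδ]
  exact (Real.sqrt_le_left hδ.le).2 ht.le

theorem kap_zero {δ t : ℝ} (hδ : 0 < δ) (ht : t < δ ^ 2) : kap δ t = 0 := by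
  unfold kap
  rw [chi_zero (sqrt_div_le hδ ht), mul_zero]

theorem mud_zero {δ t : ℝ} (hδ : 0 < δ) (ht : t < δ ^ 2) : mud δ t = 0 := by
  unfold mud
  rw [chi_zero (sqrt_div_le hδ ht)]
  norm_num

theorem chi_sqrt_smoothAt {δ t : ℝ} (ht : 0 < t) :
    ContDiffAt ℝ ∞ (fun t => chi (Real.sqrt t / δ)) t :=
  chi_contDiff.contDiffAt.comp t ((Real.contDiffAt_sqrt ht.ne').div_const δ)

theorem kap_contDiff {δ : ℝ} (hδ : 0 < δ) : ContDiff ℝ ∞ (kap δ) := by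
  rw [contDiff_iff_contDiffAt]
  intro t
  by_cases ht : 0 < t
  · exact (Real.contDiffAt_sqrt ht.ne').mul (chi_sqrt_smoothAt ht)
  · have h1 : kap δ =ᶠ[𝓝 t] fun _ => 0 := by
      have h2 : t < δ ^ 2 := lt_of_le_of_lt (not_lt.1 ht) (by positivity)
      filter_upwards [gt_mem_nhds h2] with y hy
      exact kap_zero hδ hy
    exact contDiffAt_const.congr_of_eventuallyEq h1

theorem mud_contDiff {δ : ℝ} (hδ : 0 < δ) : ContDiff ℝ ∞ (mud δ) := by
  rw [contDiff_iff_contDiffAt]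
  intro t
  by_cases ht : 0 < t
  · exact (chi_sqrt_smoothAt ht).pow 2
  · have h1 : mud δ =ᶠ[𝓝 t] fun _ => 0 := by
      have h2 : t < δ ^ 2 := lt_of_le_of_lt (not_lt.1 ht) (by positivity)
      filter_upwards [gt_mem_nhds h2] with y hy
      exact mud_zero hδ hy
    exact contDiffAt_const.congr_of_eventuallyEq h1

theorem chi_sqrt_hasDerivAt {δ t : ℝ} (ht : 0 < t) :
    HasDerivAt (fun t => chi (Real.sqrt t / δ))
      (deriv chi (Real.sqrt t / δ) * (1 / (2 * Real.sqrt t) / δ)) t := by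
  have h1 : HasDerivAt (fun t => Real.sqrt t / δ) (1 / (2 * Real.sqrt t) / δ) t :=
    (Real.hasDerivAt_sqrt ht.ne').div_const δ
  have h2 : HasDerivAt chi (deriv chi (Real.sqrt t / δ)) (Real.sqrt t / δ) :=
    (chi_contDiff.differentiable (by simp) _).hasDerivAt
  have h3 : HasDerivAt (chi ∘ fun t => Real.sqrt t / δ)
      (deriv chi (Real.sqrt t / δ) * (1 / (2 * Real.sqrt t) / δ)) t := h2.comp t h1
  exact h3

theorem kap_deriv {δ t : ℝ} (hδ : 0 < δ) (ht : 0 < t) : deriv (kap δ) t =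
    (chi (Real.sqrt t / δ) + chiom (Real.sqrt t / δ)) / (2 * Real.sqrt t) := by
  have hs : 0 < Real.sqrt t := Real.sqrt_pos.2 ht
  have h3 : HasDerivAt (kap δ) (1 / (2 * Real.sqrt t) * chi (Real.sqrt t / δ) +
      Real.sqrt t * (deriv chi (Real.sqrt t / δ) * (1 / (2 * Real.sqrt t) / δ))) t :=
    (Real.hasDerivAt_sqrt ht.ne').mul (chi_sqrt_hasDerivAt ht)
  rw [h3.deriv]
  unfold chiom
  field_simp

theorem mud_deriv {δ t : ℝ} (hδ : 0 < δ) (ht : 0 < t) : deriv (mud δ) t =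
    chi (Real.sqrt t / δ) * chiom (Real.sqrt t / δ) / t := by
  have hs : 0 < Real.sqrt t := Real.sqrt_pos.2 ht
  have h3 : HasDerivAt (mud δ) ((2 : ℕ) * chi (Real.sqrt t / δ) ^ (2 - 1) *
      (deriv chi (Real.sqrt t / δ) * (1 / (2 * Real.sqrt t) / δ))) t :=
    (chi_sqrt_hasDerivAt ht).pow 2
  have h4 : t = Real.sqrt t * Real.sqrt t := (Real.mul_self_sqrt ht.le).symm
  rw [h3.deriv]
  unfold chiom
  have h5 : deriv chi (Real.sqrt t / δ) * (1 / (2 * Real.sqrt t) / δ) =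
      Real.sqrt t / δ * deriv chi (Real.sqrt t / δ) / (2 * (Real.sqrt t * Real.sqrt t)) := by
    field_simp
  rw [h5, ← h4]
  push_cast
  field_simp

theorem kap_sq {δ t : ℝ} (ht : 0 ≤ t) : kap δ t ^ 2 = mud δ t * t := by
  unfold kap mud
  rw [mul_pow, Real.sq_sqrt ht]
  ring

theorem kap_nonneg (δ t : ℝ) : 0 ≤ kap δ t := mul_nonneg (Real.sqrt_nonneg _) (chi_nonneg _)

end Vale.Agent.P098
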