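import Vale.Agent.Lib.P098.Var.Pair

/-!
# P098: pair certificates, the inequality at level `δ`
-/

open MeasureTheory Set Filter Topology
open scoped ContDiff

namespace Vale.Agent.P098

section

variable {d : ℕ} {u w E : Ed d → ℝ} {U : Set (Ed d)} {Z : Fin d → Ed d → ℝ} {α γ : ℝ}

theorem PairInt_e1 (α M z q e χ o : ℝ) (hz : 0 ≤ z) (hχ0 : 0 ≤ χ) (hχ1 : χ ≤ 1)
    (ho : |o| ≤ M) : -(2 * |α| * M * z * |q| * |e|) ≤ 2 * α * z * χ * o * q * e := by
  have a3 : χ * |o| ≤ M := by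
    calc χ * |o| ≤ 1 * M := mul_le_mul hχ1 ho (abs_nonneg _) zero_le_one
      _ = M := one_mul _
  have a2 : |2 * α * z * χ * o * q * e| ≤ 2 * |α| * M * z * |q| * |e| := by
    rw [abs_mul, abs_mul, abs_mul, abs_mul, abs_mul, abs_mul, abs_of_pos (zero_lt_two' ℝ),
      abs_of_nonneg hz, abs_of_nonneg hχ0]
    calc 2 * |α| * z * χ * |o| * |q| * |e| =
        (2 * |α| * z * |q| * |e|) * (χ * |o|) := by ring
      _ ≤ (2 * |α| * z * |q| * |e|) * M :=
        mul_le_mul_of_nonneg_left a3 (by positivity)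
      _ = _ := by ring
  exact (abs_le.1 a2).1

theorem PairInt_e2 (M z e χ o T : ℝ) (he : 0 < e) (hχ0 : 0 ≤ χ) (hχ1 : χ ≤ 1)
    (ho : |o| ≤ M) : -(z ^ 2 * M * (|T| / e)) ≤ z ^ 2 * (χ * o) * (T / e) := by
  have a3 : χ * |o| ≤ M := by
    calc χ * |o| ≤ 1 * M := mul_le_mul hχ1 ho (abs_nonneg _) zero_le_one
      _ = M := one_mul _
  have a2 : |z ^ 2 * (χ * o) * (T / e)| ≤ z ^ 2 * M * (|T| / e) := by
    rw [abs_mul, abs_mul, abs_mul, abs_div, abs_of_pos he, abs_of_nonneg hχ0,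
      abs_of_nonneg (sq_nonneg z)]
    exact mul_le_mul_of_nonneg_right (mul_le_mul_of_nonneg_left a3 (sq_nonneg _))
      (by positivity)
  exact (abs_le.1 a2).1

theorem PairInt_e3 (M z e χ o N : ℝ) (he : 0 < e) (hN : 0 ≤ N) (hM : 0 ≤ M) (hχ0 : 0 ≤ χ)
    (hχ1 : χ ≤ 1) (ho : |o| ≤ M) :
    z ^ 2 * (2 * χ * o + o ^ 2) * (N / (4 * e)) ≤ z ^ 2 * (M + M ^ 2) * (N / e) := by
  have a4 : χ * o ≤ M := by
    calc χ * o ≤ χ * |o| := mul_le_mul_of_nonneg_left (le_abs_self _) hχ0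
      _ ≤ 1 * M := mul_le_mul hχ1 ho (abs_nonneg _) zero_le_one
      _ = M := one_mul _
  have a5 : o ^ 2 ≤ M ^ 2 := by
    rw [← sq_abs o]
    exact pow_le_pow_left₀ (abs_nonneg _) ho 2
  have a3 : (2 * χ * o + o ^ 2) * (1 / 4) ≤ M + M ^ 2 := by
    have := sq_nonneg M
    linarith
  have b : 0 ≤ N / e := by positivity
  calc z ^ 2 * (2 * χ * o + o ^ 2) * (N / (4 * e)) =
      z ^ 2 * (((2 * χ * o + o ^ 2) * (1 / 4)) * (N / e)) := by field_simp
    _ ≤ z ^ 2 * ((M + M ^ 2) * (N / e)) :=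
      mul_le_mul_of_nonneg_left (mul_le_mul_of_nonneg_right a3 b) (sq_nonneg _)
    _ = _ := by ring

theorem PairInt_err (α M z q e χ o N T J : ℝ) (hz : 0 ≤ z) (he : 0 < e) (hχ0 : 0 ≤ χ)
    (hχ1 : χ ≤ 1) (hM : 0 ≤ M) (ho : |o| ≤ M) (hN : 0 ≤ N) (hJ : N / e + |T| / e ≤ J) :
    -(2 * |α| * M * z * |q| * |e| + z ^ 2 * (M + M ^ 2) * J) ≤
      2 * α * z * χ * o * q * e + z ^ 2 * (χ * o) * (T / e) -
        z ^ 2 * (2 * χ * o + o ^ 2) * (N / (4 * e)) := by
  have h1 := PairInt_e1 α M z q e χ o hz hχ0 hχ1 ho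
  have h2 := PairInt_e2 M z e χ o T he hχ0 hχ1 ho
  have h3 := PairInt_e3 M z e χ o N he hN hM hχ0 hχ1 ho
  have b3 : z ^ 2 * (M + M ^ 2) * (N / e + |T| / e) ≤ z ^ 2 * (M + M ^ 2) * J :=
    mul_le_mul_of_nonneg_left hJ (by positivity)
  have b4 : z ^ 2 * M * (|T| / e) ≤ z ^ 2 * (M + M ^ 2) * (|T| / e) := by
    have a1 : M ≤ M + M ^ 2 := by
      have := sq_nonneg M
      linarith
    exact mul_le_mul_of_nonneg_right (mul_le_mul_of_nonneg_left a1 (sq_nonneg _))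
      (by positivity)
  have b5 : z ^ 2 * (M + M ^ 2) * (N / e + |T| / e) =
      z ^ 2 * (M + M ^ 2) * (N / e) + z ^ 2 * (M + M ^ 2) * (|T| / e) := by ring
  rw [b5] at b3
  linarith

theorem fderiv_eq_sum {f : Ed d → ℝ} {x : Ed d} (v : Ed d) :
    fderiv ℝ f x v = ∑ i, v i * pd i f x := by
  have h1 : v = ∑ i, v i • EuclideanSpace.single i (1 : ℝ) := by
    ext j
    simp [Finset.sum_apply, Pi.single_apply]
  conv_lhs => rw [h1]
  rw [map_sum]
  refine Finset.sum_congr rfl fun i _ => ?_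
  rw [map_smul]
  rfl

namespace PairCert

/-- Euler's relation -/
theorem euler (hE : PairCert u w U E Z α γ) {x : Ed d} (hx : x ∈ Pos u)
    (hd : DifferentiableAt ℝ E x) : ∑ i, x i * pd i E x = -(2 * α * E x) := by
  rw [← fderiv_eq_sum]
  have h1 : HasDerivAt (fun r : ℝ => E (r • x)) (fderiv ℝ E x x) 1 := by
    have h2 : HasDerivAt (fun r : ℝ => r • x) ((1 : ℝ) • x) 1 := (hasDerivAt_id 1).smul_const x
    rw [one_smul] at h2
    have h3 : HasFDerivAt E (fderiv ℝ E x) ((1 : ℝ) • x) := by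
      rw [one_smul]
      exact hd.hasFDerivAt
    exact h3.comp_hasDerivAt (1 : ℝ) h2
  have h4 : HasDerivAt (fun r : ℝ => r ^ (-(2 * α)) * E x) (-(2 * α) * E x) 1 := by
    have h5 := (Real.hasDerivAt_rpow_const (x := 1) (p := -(2 * α))
      (Or.inl one_ne_zero)).mul_const (E x)
    simpa using h5
  have h6 : (fun r : ℝ => E (r • x)) =ᶠ[𝓝 1] fun r : ℝ => r ^ (-(2 * α)) * E x := by
    filter_upwards [lt_mem_nhds (zero_lt_one' ℝ)] with r hr
    exact hE.hom x hx r hr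
  have h7 := h4.congr_of_eventuallyEq h6
  have h8 := h1.unique h7
  rw [h8]
  ring

theorem small_nhds (h : SmoothCone u w U) (hE : PairCert u w U E Z α γ) {δ : ℝ} (hδ : 0 < δ)
    {x : Ed d} (hx : x ∈ U) (hx0 : E x ≤ 0) : ∀ᶠ y in 𝓝 x, E y < δ ^ 2 := by
  have h1 : ContinuousAt E x := hE.cont.continuousAt (h.isOpen.mem_nhds hx)
  exact h1.eventually (gt_mem_nhds (lt_of_le_of_lt hx0 (by positivity)))

theorem kap_smooth (h : SmoothCone u w U) (hE : PairCert u w U E Z α γ) {δ : ℝ} (hδ : 0 < δ) :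
    ContDiffOn ℝ ∞ (fun x => kap δ (E x)) U := by
  intro x hx
  apply ContDiffAt.contDiffWithinAt
  by_cases hp : 0 < E x
  · exact (kap_contDiff hδ).contDiffAt.comp x (hE.smooth x hx hp)
  · refine contDiffAt_const (c := (0 : ℝ)) |>.congr_of_eventuallyEq ?_
    filter_upwards [small_nhds h hE hδ hx (not_lt.1 hp)] with y hy
    exact kap_zero hδ hy

theorem mud_smooth (h : SmoothCone u w U) (hE : PairCert u w U E Z α γ) {δ : ℝ} (hδ : 0 < δ)
    (i : Fin d) : ContDiffOn ℝ ∞ (fun x => mud δ (E x) * Z i x) U := by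
  intro x hx
  apply ContDiffAt.contDiffWithinAt
  by_cases hp : 0 < E x
  · exact ((mud_contDiff hδ).contDiffAt.comp x (hE.smooth x hx hp)).mul (hE.smoothZ x hx hp i)
  · refine contDiffAt_const (c := (0 : ℝ)) |>.congr_of_eventuallyEq ?_
    filter_upwards [small_nhds h hE hδ hx (not_lt.1 hp)] with y hy
    rw [mud_zero hδ hy, zero_mul]

theorem pd_kap (hE : PairCert u w U E Z α γ) {δ : ℝ} (hδ : 0 < δ) {x : Ed d} (hx : x ∈ U)
    (hp : 0 < E x) (i : Fin d) : pd i (fun x => kap δ (E x)) x =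
      (chi (Real.sqrt (E x) / δ) + chiom (Real.sqrt (E x) / δ)) / (2 * Real.sqrt (E x)) *
        pd i E x := by
  rw [pd_comp (kap δ) ((kap_contDiff hδ).differentiable (by simp) _)
    ((hE.smooth x hx hp).differentiableAt (by simp)), kap_deriv hδ hp]

theorem pd_mud (hE : PairCert u w U E Z α γ) {δ : ℝ} (hδ : 0 < δ) {x : Ed d} (hx : x ∈ U)
    (hp : 0 < E x) (i : Fin d) : pd i (fun x => mud δ (E x) * Z i x) x =
      chi (Real.sqrt (E x) / δ) * chiom (Real.sqrt (E x) / δ) / E x * (pd i E x * Z i x) +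
        chi (Real.sqrt (E x) / δ) ^ 2 * pd i (Z i) x := by
  have hdE : DifferentiableAt ℝ E x := (hE.smooth x hx hp).differentiableAt (by simp)
  have hdm : DifferentiableAt ℝ (fun x => mud δ (E x)) x :=
    ((mud_contDiff hδ).differentiable (by simp) _).comp x hdE
  rw [pd_mul hdm ((hE.smoothZ x hx hp i).differentiableAt (by simp)),
    pd_comp (mud δ) ((mud_contDiff hδ).differentiable (by simp) _) hdE, mud_deriv hδ hp]
  unfold mud
  ring

theorem pd_kap_zero (h : SmoothCone u w U) (hE : PairCert u w U E Z α γ) {δ : ℝ} (hδ : 0 < δ)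
    {x : Ed d} (hx : x ∈ U) (hp : E x ≤ 0) (i : Fin d) :
    pd i (fun x => kap δ (E x)) x = 0 := by
  have h1 : (fun x => kap δ (E x)) =ᶠ[𝓝 x] fun _ => 0 := by
    filter_upwards [small_nhds h hE hδ hx hp] with y hy
    exact kap_zero hδ hy
  rw [pd_congr h1, pd_const]

theorem pd_mud_zero (h : SmoothCone u w U) (hE : PairCert u w U E Z α γ) {δ : ℝ} (hδ : 0 < δ)
    {x : Ed d} (hx : x ∈ U) (hp : E x ≤ 0) (i : Fin d) :
    pd i (fun x => mud δ (E x) * Z i x) x = 0 := by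
  have h1 : (fun x => mud δ (E x) * Z i x) =ᶠ[𝓝 x] fun _ => 0 := by
    filter_upwards [small_nhds h hE hδ hx hp] with y hy
    rw [mud_zero hδ hy, zero_mul]
  rw [pd_congr h1, pd_const]

/-- the pointwise inequality at level `δ` -/
theorem pointwise (h : SmoothCone u w U) (hE : PairCert u w U E Z α γ) {δ M : ℝ} (hδ : 0 < δ)
    (hM0 : 0 ≤ M) (hM : ∀ s, |chiom s| ≤ M) {ζ : Ed d → ℝ} (hζ : ContDiff ℝ ∞ ζ)
    (hζ0 : ∀ x, 0 ≤ ζ x) {x : Ed d} (hx : x ∈ Pos u) {q J : ℝ}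
    (hq : ∀ i, pd i ζ x = q * x i)
    (hJ : 0 < E x → (∑ i, pd i E x ^ 2) / E x + |∑ i, pd i E x * Z i x| / E x ≤ J) :
    mud δ (E x) * (E x * (γ * (ζ x ^ 2 / ‖x‖ ^ 2) - ∑ i, pd i ζ x ^ 2)) -
        {y | δ < Real.sqrt (E y) ∧ Real.sqrt (E y) < 2 * δ}.indicator
          (fun _ => 2 * |α| * M * ζ x * |q| * |E x| + ζ x ^ 2 * (M + M ^ 2) * J) x ≤
      ∑ i, pd i (fun x => ζ x ^ 2 * (mud δ (E x) * Z i x)) x -
        ∑ i, pd i (fun x => ζ x * kap δ (E x)) x ^ 2 := by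
  have hxU : x ∈ U := h.pos_sub hx
  have hUn : U ∈ 𝓝 x := h.isOpen.mem_nhds hxU
  have dζ : DifferentiableAt ℝ ζ x := hζ.differentiable (by simp) x
  have dζ2 : DifferentiableAt ℝ (fun x => ζ x ^ 2) x := dζ.pow 2
  have dk : DifferentiableAt ℝ (fun x => kap δ (E x)) x :=
    ((kap_smooth h hE hδ).contDiffAt hUn).differentiableAt (by simp)
  have dm : ∀ i, DifferentiableAt ℝ (fun x => mud δ (E x) * Z i x) x := fun i =>
    ((mud_smooth h hE hδ i).contDiffAt hUn).differentiableAt (by simp)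
  have e1 : ∀ i, pd i (fun x => ζ x ^ 2 * (mud δ (E x) * Z i x)) x =
      2 * ζ x * (q * x i) * (mud δ (E x) * Z i x) +
        ζ x ^ 2 * pd i (fun x => mud δ (E x) * Z i x) x := by
    intro i
    rw [pd_mul dζ2 (dm i), pd_sq dζ, hq]
  have e2 : ∀ i, pd i (fun x => ζ x * kap δ (E x)) x =
      (q * x i) * kap δ (E x) + ζ x * pd i (fun x => kap δ (E x)) x := by
    intro i
    rw [pd_mul dζ dk, hq]
  by_cases hp : 0 < E x
  · have hsq : 0 < Real.sqrt (E x) := Real.sqrt_pos.2 hp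
    have hsq2 : Real.sqrt (E x) * Real.sqrt (E x) = E x := Real.mul_self_sqrt hp.le
    set s := Real.sqrt (E x) / δ with hs
    set χ := chi s with hχ
    set om := chiom s with hom
    have hχ0 : 0 ≤ χ := chi_nonneg _
    have hχ1 : χ ≤ 1 := chi_le_one _
    have hmud : mud δ (E x) = χ ^ 2 := rfl
    have hkap : kap δ (E x) = Real.sqrt (E x) * χ := rfl
    have hxn : 0 < ‖x‖ ^ 2 := by
      have := norm_pos_iff.2 (h.ne_zero hx)
      positivity
    obtain ⟨N, hN⟩ : ∃ N, N = ∑ i, pd i E x ^ 2 := ⟨_, rfl⟩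
    obtain ⟨T, hT⟩ : ∃ T, T = ∑ i, pd i E x * Z i x := ⟨_, rfl⟩
    obtain ⟨D, hD⟩ : ∃ D, D = ∑ i, pd i (Z i) x := ⟨_, rfl⟩
    obtain ⟨X, hX⟩ : ∃ X, X = ∑ i, x i ^ 2 := ⟨_, rfl⟩
    have hN0 : 0 ≤ N := by
      rw [hN]
      exact Finset.sum_nonneg fun i _ => sq_nonneg _
    have hrad := hE.rad x hx hp
    have heul := hE.euler hx ((hE.smooth x hxU hp).differentiableAt (by simp))
    have hint := hE.int x hx hp
    rw [← hN, ← hD] at hint
    have hJ' := hJ hp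
    rw [← hN, ← hT] at hJ'
    -- the two sums
    have s1 : ∑ i, pd i (fun x => ζ x ^ 2 * (mud δ (E x) * Z i x)) x =
        2 * ζ x * q * χ ^ 2 * (-(α * E x)) + ζ x ^ 2 * (χ * om / E x * T + χ ^ 2 * D) := by
      have e3 : ∀ i, pd i (fun x => ζ x ^ 2 * (mud δ (E x) * Z i x)) x =
          2 * ζ x * q * χ ^ 2 * (x i * Z i x) + (ζ x ^ 2 * (χ * om / E x) * (pd i E x * Z i x) +
            ζ x ^ 2 * χ ^ 2 * pd i (Z i) x) := by
        intro i
        rw [e1, hE.pd_mud hδ hxU hp, hmud]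
        ring
      rw [Finset.sum_congr rfl fun i _ => e3 i, Finset.sum_add_distrib, Finset.sum_add_distrib,
        ← Finset.mul_sum, ← Finset.mul_sum, ← Finset.mul_sum, hrad, ← hT, ← hD]
      ring
    have s2 : ∑ i, pd i (fun x => ζ x * kap δ (E x)) x ^ 2 =
        q ^ 2 * X * (E x * χ ^ 2) + ζ x * q * χ * (χ + om) * (-(2 * α * E x)) +
          ζ x ^ 2 * (χ + om) ^ 2 * (N / (4 * E x)) := by
      have e3 : ∀ i, pd i (fun x => ζ x * kap δ (E x)) x ^ 2 =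
          q ^ 2 * (E x * χ ^ 2) * x i ^ 2 + (ζ x * q * χ * (χ + om) * (x i * pd i E x) +
            ζ x ^ 2 * (χ + om) ^ 2 / (4 * E x) * pd i E x ^ 2) := by
        intro i
        rw [e2, hE.pd_kap hδ hxU hp, hkap, ← hs, ← hχ, ← hom]
        have e4 : (q * x i * (Real.sqrt (E x) * χ) +
            ζ x * ((χ + om) / (2 * Real.sqrt (E x)) * pd i E x)) ^ 2 =
            q ^ 2 * ((Real.sqrt (E x) * Real.sqrt (E x)) * χ ^ 2) * x i ^ 2 +
            (ζ x * q * χ * (χ + om) * (x i * pd i E x) +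
            ζ x ^ 2 * (χ + om) ^ 2 / (4 * (Real.sqrt (E x) * Real.sqrt (E x))) *
              pd i E x ^ 2) := by
          field_simp
          ring
        rw [e4, hsq2]
      rw [Finset.sum_congr rfl fun i _ => e3 i, Finset.sum_add_distrib, Finset.sum_add_distrib,
        ← Finset.mul_sum, ← Finset.mul_sum, ← Finset.mul_sum, heul, ← hN, ← hX]
      ring
    have s3 : ∑ i, pd i ζ x ^ 2 = q ^ 2 * X := by
      rw [hX, Finset.mul_sum]
      refine Finset.sum_congr rfl fun i _ => ?_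
      rw [hq]
      ring
    rw [s1, s2, s3, hmud]
    -- interior inequality
    have k1 : ζ x ^ 2 * χ ^ 2 * (γ * E x / ‖x‖ ^ 2) ≤ ζ x ^ 2 * χ ^ 2 * (D - N / (4 * E x)) :=
      mul_le_mul_of_nonneg_left hint (by positivity)
    have k2 : χ ^ 2 * (E x * (γ * (ζ x ^ 2 / ‖x‖ ^ 2) - q ^ 2 * X)) =
        ζ x ^ 2 * χ ^ 2 * (γ * E x / ‖x‖ ^ 2) - q ^ 2 * X * (E x * χ ^ 2) := by ring
    have k3 : 2 * ζ x * q * χ ^ 2 * (-(α * E x)) + ζ x ^ 2 * (χ * om / E x * T + χ ^ 2 * D) -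
        (q ^ 2 * X * (E x * χ ^ 2) + ζ x * q * χ * (χ + om) * (-(2 * α * E x)) +
          ζ x ^ 2 * (χ + om) ^ 2 * (N / (4 * E x))) =
        ζ x ^ 2 * χ ^ 2 * (D - N / (4 * E x)) - q ^ 2 * X * (E x * χ ^ 2) +
          (2 * α * ζ x * χ * om * q * E x + ζ x ^ 2 * (χ * om) * (T / E x) -
            ζ x ^ 2 * (2 * χ * om + om ^ 2) * (N / (4 * E x))) := by
      ring
    rw [k2, k3]
    -- the error
    by_cases hmem : x ∈ {y | δ < Real.sqrt (E y) ∧ Real.sqrt (E y) < 2 * δ}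
    · rw [indicator_of_mem hmem]
      have hfin := PairInt_err α M (ζ x) q (E x) χ om N T J (hζ0 x) hp hχ0 hχ1 hM0 (hM s) hN0 hJ'
      linarith
    · rw [indicator_of_notMem hmem]
      have hom0 : om = 0 := by
        apply chiom_zero
        rw [Set.mem_ofPred_eq, not_and_or, not_lt, not_lt] at hmem
        rcases hmem with h1 | h1
        · left
          rw [hs, div_le_one hδ]
          exact h1
        · right
          rw [hs, le_div_iff₀ hδ]
          exact h1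
      rw [hom0]
      linarith
  · have hE0 : E x = 0 := le_antisymm (not_lt.1 hp) (hE.nonneg x hx)
    have hm0 : mud δ (E x) = 0 := mud_zero hδ (by rw [hE0]; positivity)
    have hk0 : kap δ (E x) = 0 := kap_zero hδ (by rw [hE0]; positivity)
    have s1 : ∑ i, pd i (fun x => ζ x ^ 2 * (mud δ (E x) * Z i x)) x = 0 := by
      refine Finset.sum_eq_zero fun i _ => ?_
      rw [e1, pd_mud_zero h hE hδ hxU (not_lt.1 hp), hm0]
      ring
    have s2 : ∑ i, pd i (fun x => ζ x * kap δ (E x)) x ^ 2 = 0 := by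
      refine Finset.sum_eq_zero fun i _ => ?_
      rw [e2, pd_kap_zero h hE hδ hxU (not_lt.1 hp), hk0]
      ring
    have hmem : x ∉ {y | δ < Real.sqrt (E y) ∧ Real.sqrt (E y) < 2 * δ} := by
      rintro ⟨h1, -⟩
      rw [hE0, Real.sqrt_zero] at h1
      linarith
    rw [s1, s2, indicator_of_notMem hmem, hm0]
    simp

end PairCert

end

end Vale.Agent.P098
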