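import Vale.Agent.Lib.P098.Var.Div

/-!
# P098: the convex ramp `f_δ(s) = δ F(s/δ)`, `F' = χ`, and commutation of derivatives
-/

open MeasureTheory Set Filter Topology
open scoped ContDiff

namespace Vale.Agent.P098

/-- `F(s) = ∫_0^s χ` -/
noncomputable def ramp1 (s : ℝ) : ℝ := ∫ t in (0 : ℝ)..s, chi t

theorem ramp1_hasDerivAt (s : ℝ) : HasDerivAt ramp1 (chi s) s :=
  intervalIntegral.integral_hasDerivAt_right (chi_contDiff.continuous.intervalIntegrable _ _)
    (chi_contDiff.continuous.stronglyMeasurableAtFilter _ _) chi_contDiff.continuous.continuousAt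

theorem ramp1_deriv : deriv ramp1 = chi := by
  funext s
  exact (ramp1_hasDerivAt s).deriv

theorem ramp1_contDiff : ContDiff ℝ ∞ ramp1 := by
  rw [contDiff_infty_iff_deriv]
  refine ⟨fun s => (ramp1_hasDerivAt s).differentiableAt, ?_⟩
  rw [ramp1_deriv]
  exact chi_contDiff

theorem ramp1_zero {s : ℝ} (hs : s ≤ 1) : ramp1 s = 0 := by
  unfold ramp1
  rw [intervalIntegral.integral_congr (g := fun _ => 0)]
  · simp
  · intro t ht
    have h1 : t ≤ 1 := by
      rcases le_total 0 s with h | h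
      · rw [uIcc_of_le h] at ht
        exact ht.2.trans hs
      · rw [uIcc_of_ge h] at ht
        exact ht.2.trans zero_le_one
    exact chi_zero h1

theorem ramp1_le_mul {s : ℝ} (hs : 0 ≤ s) : ramp1 s ≤ s * chi s := by
  unfold ramp1
  calc ∫ t in (0 : ℝ)..s, chi t ≤ ∫ t in (0 : ℝ)..s, chi s := by
        refine intervalIntegral.integral_mono_on hs
          (chi_contDiff.continuous.intervalIntegrable _ _) (by simp) ?_
        intro t ht
        exact chi_mono ht.2
    _ = s * chi s := by simp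

theorem ramp1_nonneg (s : ℝ) : 0 ≤ ramp1 s := by
  rcases le_total s 1 with h | h
  · rw [ramp1_zero h]
  · unfold ramp1
    exact intervalIntegral.integral_nonneg (by linarith) fun t _ => chi_nonneg t

theorem ramp1_ge (s : ℝ) : s - 2 ≤ ramp1 s := by
  rcases le_total s 2 with h | h
  · have := ramp1_nonneg s
    linarith
  · have h1 : ramp1 s = ramp1 2 + ∫ t in (2 : ℝ)..s, chi t := by
      unfold ramp1
      rw [intervalIntegral.integral_add_adjacent_intervals
        (chi_contDiff.continuous.intervalIntegrable _ _)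
        (chi_contDiff.continuous.intervalIntegrable _ _)]
    have h2 : ∫ t in (2 : ℝ)..s, chi t = ∫ t in (2 : ℝ)..s, (1 : ℝ) := by
      refine intervalIntegral.integral_congr fun t ht => ?_
      rw [uIcc_of_le h] at ht
      exact chi_one ht.1
    have h3 := ramp1_nonneg 2
    rw [h1, h2]
    simp
    linarith

/-- `f_δ(s) = δ F(s/δ)` -/
noncomputable def ramp (δ s : ℝ) : ℝ := δ * ramp1 (s / δ)

theorem ramp_contDiff (δ : ℝ) : ContDiff ℝ ∞ (ramp δ) :=
  contDiff_const.mul (ramp1_contDiff.comp (contDiff_id.div_const δ))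

theorem ramp_deriv {δ : ℝ} (hδ : 0 < δ) (s : ℝ) : deriv (ramp δ) s = chi (s / δ) := by
  have h1 : HasDerivAt (fun s : ℝ => s / δ) (1 / δ) s := (hasDerivAt_id s).div_const δ
  have h2 := ((ramp1_hasDerivAt (s / δ)).comp s h1).const_mul δ
  have h3 : HasDerivAt (ramp δ) (δ * (chi (s / δ) * (1 / δ))) s := h2
  rw [h3.deriv]
  field_simp

theorem ramp_zero {δ s : ℝ} (hδ : 0 < δ) (hs : s ≤ δ) : ramp δ s = 0 := by
  unfold ramp
  rw [ramp1_zero ((div_le_one hδ).2 hs), mul_zero]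

theorem ramp_nonneg {δ : ℝ} (hδ : 0 < δ) (s : ℝ) : 0 ≤ ramp δ s :=
  mul_nonneg hδ.le (ramp1_nonneg _)

theorem ramp_le_mul {δ s : ℝ} (hδ : 0 < δ) (hs : 0 ≤ s) : ramp δ s ≤ s * chi (s / δ) := by
  unfold ramp
  have h1 := ramp1_le_mul (s := s / δ) (by positivity)
  calc δ * ramp1 (s / δ) ≤ δ * (s / δ * chi (s / δ)) := mul_le_mul_of_nonneg_left h1 hδ.le
    _ = s * chi (s / δ) := by field_simp

theorem ramp_le {δ s : ℝ} (hδ : 0 < δ) (hs : 0 ≤ s) : ramp δ s ≤ s :=
  (ramp_le_mul hδ hs).trans (mul_le_of_le_one_right hs (chi_le_one _))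

theorem ramp_ge {δ : ℝ} (hδ : 0 < δ) (s : ℝ) : s - 2 * δ ≤ ramp δ s := by
  unfold ramp
  have h1 := ramp1_ge (s / δ)
  calc s - 2 * δ = δ * (s / δ - 2) := by field_simp
    _ ≤ δ * ramp1 (s / δ) := mul_le_mul_of_nonneg_left h1 hδ.le

theorem ramp_gap {δ s : ℝ} (hδ : 0 < δ) (hs : 0 ≤ s) :
    s * chi (s / δ) - ramp δ s ≤ 2 * δ := by
  have h1 := ramp_ge hδ s
  have h2 : s * chi (s / δ) ≤ s := mul_le_of_le_one_right hs (chi_le_one _)
  linarith

section comm

variable {d : ℕ} {f : Ed d → ℝ} {x : Ed d}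

theorem pd_pd_eq (hf : ContDiffAt ℝ 2 f x) (i j : Fin d) :
    pd i (pd j f) x = fderiv ℝ (fderiv ℝ f) x (EuclideanSpace.single i 1)
      (EuclideanSpace.single j 1) := by
  have h1 : DifferentiableAt ℝ (fderiv ℝ f) x :=
    (hf.fderiv_right (m := 1) (by norm_num)).differentiableAt (by simp)
  have h2 : pd j f = fun y => fderiv ℝ f y (EuclideanSpace.single j 1) := rfl
  unfold pd
  rw [fderiv_clm_apply h1 (differentiableAt_const _)]
  simp

/-- symmetry of second derivatives -/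
theorem pd_comm (hf : ContDiffAt ℝ 2 f x) (i j : Fin d) :
    pd i (pd j f) x = pd j (pd i f) x := by
  rw [pd_pd_eq hf, pd_pd_eq hf]
  exact (hf.isSymmSndFDerivAt (by simp)) _ _

theorem pd_comm_nhds (hf : ContDiffAt ℝ ∞ f x) (i j : Fin d) :
    pd i (pd j f) =ᶠ[𝓝 x] pd j (pd i f) := by
  have h2 : ContDiffAt ℝ 2 f x := hf.of_le ENat.LEInfty.out
  filter_upwards [h2.eventually (by simp)] with y hy
  exact pd_comm hy i j

/-- the derivatives of a harmonic function are harmonic -/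
theorem sum_pd_pd_pd {V : Set (Ed d)} (hV : IsOpen V) (hf : ContDiffOn ℝ ∞ f V)
    (hh : ∀ y ∈ V, lap f y = 0) (hx : x ∈ V) (j : Fin d) :
    ∑ i, pd i (pd i (pd j f)) x = 0 := by
  have hVn : V ∈ 𝓝 x := hV.mem_nhds hx
  have hfx : ContDiffAt ℝ ∞ f x := hf.contDiffAt hVn
  have h1 : ∀ i, pd i (pd i (pd j f)) x = pd j (pd i (pd i f)) x := by
    intro i
    rw [pd_congr (pd_comm_nhds hfx i j)]
    have h3 : ContDiffAt ℝ ∞ (pd i f) x := contDiffAt_pd hfx (by simp)
    exact pd_comm (h3.of_le ENat.LEInfty.out) i j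
  have h2 : ∑ i, pd j (pd i (pd i f)) x = pd j (fun y => ∑ i, pd i (pd i f) y) x := by
    rw [pd_sum]
    intro i _
    have h3 : ContDiffAt ℝ ∞ (pd i f) x := contDiffAt_pd hfx (by simp)
    have h4 : ContDiffAt ℝ ∞ (pd i (pd i f)) x := contDiffAt_pd h3 (by simp)
    exact h4.differentiableAt (by simp)
  rw [Finset.sum_congr rfl fun i _ => h1 i, h2]
  have h5 : (fun y => ∑ i, pd i (pd i f) y) =ᶠ[𝓝 x] fun _ => 0 := by
    filter_upwards [hVn] with y hy
    exact hh y hy
  rw [pd_congr h5, pd_const]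

end comm

end Vale.Agent.P098
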