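import Vale.Agent.Lib.P098.Var.Final
import Vale.Agent.Lib.P098.Bld.KMain

/-!
# P098: conclusion from a certificate of class K
-/

open MeasureTheory Set Filter Topology
open scoped ContDiff

namespace Vale.Agent.P098

/-- a certificate of class K in dimension `k + 1` implies that smooth minimizing cones and stable
cones in dimension `k + 1` are flat -/
theorem res_of_cert {k : ℕ} (hk : 2 ≤ k) {K : KCert} {a γ κ : ℝ} (hG : K.Good)
    (hK : K.Hyp k a γ κ) (hγ : 0 < γ) (hκ : 0 ≤ κ) (hκ1 : κ * (3 * k - 2) ≤ k + 2) :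
    (∀ (u w : Ed (k + 1) → ℝ) (U : Set (Ed (k + 1))), SmoothCone u w U → Stab u w →
      (∀ x, u x = 0) ∨ ∃ e : Ed (k + 1), ‖e‖ = 1 ∧ ∀ x, u x = max (inner ℝ e x) 0) ∧
    (∀ (u w : Ed (k + 1) → ℝ) (U : Set (Ed (k + 1))), Cone0 u w U → LipMin u →
      (∀ x, u x = 0) ∨ ∃ e : Ed (k + 1), ‖e‖ = 1 ∧ ∀ x, u x = max (inner ℝ e x) 0) := by
  have hc := certi_of_hyp hG hK
  have e1 : (((k + 1 : ℕ) : ℝ) - 2) / 2 = ((k : ℝ) - 1) / 2 := by
    push_cast
    ring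
  have e2 : κ * (3 * ((k + 1 : ℕ) : ℝ) - 5) ≤ ((k + 1 : ℕ) : ℝ) + 1 := by
    push_cast
    linarith
  have hc' : Certi (k + 1) ((((k + 1 : ℕ) : ℝ) - 2) / 2) γ a κ (K.toCS a) := by
    rw [e1]
    exact hc
  obtain ⟨hφ, hC⟩ := hG.toCS a
  exact ⟨fun u w U h hst => flat_of_stab (by omega) h hst hc' hφ hC hγ hκ e2,
    fun u w U h hm => flat_of_min (by omega) h hm hc' hφ hC hγ hκ e2⟩

end Vale.Agent.P098
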