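import Vale.Agent.Lib.P098.Var.FldD
import Vale.Agent.Lib.P098.Var.HomE

/-!
# P098: `div Z` and `|∇E|²` at points of the unit sphere
-/

open MeasureTheory Set Filter Topology
open scoped ContDiff

namespace Vale.Agent.P098

section

variable {d : ℕ} {u w : Ed d → ℝ} {U : Set (Ed d)}

theorem Co.fderiv_f {c : Co} (hc : c.Good) {v : Fin 7 → ℝ} (hv : 0 < v 2) (z : Fin 7 → ℝ) :
    fderiv ℝ c.f v z = ∑ a, c.D a v * z a := by
  have hd : DifferentiableAt ℝ c.f v := (hc.smooth v hv).differentiableAt (by simp)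
  have hz : z = ∑ a, z a • (Pi.single a (1 : ℝ) : Fin 7 → ℝ) := by
    funext b
    simp [Finset.sum_apply, Pi.single_apply]
  conv_lhs => rw [hz]
  rw [map_sum]
  refine Finset.sum_congr rfl fun a _ => ?_
  rw [map_smul, smul_eq_mul, fderiv_single hd a (hc.deriv v hv a), mul_comm]

/-- the jet at a point of the unit sphere -/
theorem jet_unit (h : SmoothCone u w U) {x : Ed d} (hx : x ∈ Pos u) (hx1 : rho x = 1) :
    Jet (xj x) (pj w x) (Aj w x) (Tj w x) where
  unit := hx1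
  symA := h.symAj (h.pos_sub hx)
  trA := h.harm x hx
  Ax j := by
    have h1 := h.euler1_pos hx j
    refine Eq.trans (Finset.sum_congr rfl fun i _ => ?_) h1
    change x i * pd i (pd j w) x = x i * pd j (pd i w) x
    rw [h.symm2 (h.pos_sub hx) i j]
  symT1 := h.symTj1 (h.pos_sub hx)
  symT2 := h.symTj2 (h.pos_sub hx)
  trT k := h.tr3 (subset_closure hx) (h.ne_zero hx) k
  Tx j k := by
    have h1 := h.euler2_pos hx k j
    have hxU := h.pos_sub hx
    have e : ∀ i, x i * pd k (pd j (pd i w)) x = xj x i * Tj w x i j k := by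
      intro i
      change x i * pd k (pd j (pd i w)) x = x i * pd i (pd j (pd k w)) x
      have e1 : pd i (pd j (pd k w)) x = pd k (pd j (pd i w)) x := by
        rw [h.symm3b hxU i j k, h.symm3a hxU j i k, h.symm3b hxU j k i]
      rw [e1]
    rw [← Finset.sum_congr rfl fun i _ => e i, h1]
    rfl

theorem pd_Vh (h : SmoothCone u w U) {x : Ed d} (hx : x ∈ Pos u) (hx1 : rho x = 1)
    (i : Fin d) (a : Fin 7) : pd i (fun y => Vh w y a) x =
      jG (pj w x) (Aj w x) (Tj w x) a i - (del7 a : ℝ) * W7 w x a * x i := by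
  have hx0 := h.ne_zero hx
  have e : (fun y => Vh w y a) = fun y => rho y ^ (-(del7 a : ℝ) / 2) * W7 w y a := rfl
  rw [e, pd_mul ((rho_rpow_smooth hx0 _).differentiableAt (by simp))
    (h.diff_of_smooth (h.pos_sub hx) (h.smoothW a)), pd_rho_rpow hx0, h.pdW hx, hx1,
    Real.one_rpow, Real.one_rpow]
  ring

theorem pd_co (h : SmoothCone u w U) {x : Ed d} (hx : x ∈ Pos u) (hx1 : rho x = 1)
    (hN : 0 < N2 w x) {c : Co} (hc : c.Good) (k : ℝ) (i : Fin d) :
    pd i (fun y => rho y ^ (k / 2) * c.f (Vh w y)) x =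
      c.grad k (xj x) (pj w x) (Aj w x) (Tj w x) i := by
  have hx0 := h.ne_zero hx
  have hxU := h.pos_sub hx
  have hV : Vh w x = W7 w x := by
    funext a
    unfold Vh
    rw [hx1, Real.one_rpow, one_mul]
  have h2 : 0 < Vh w x 2 := by
    rw [Vh_two]
    exact mul_pos (rho_pos' hx0) hN
  have hVd : DifferentiableAt ℝ (Vh w) x := (h.Vh_smooth hxU hx0).differentiableAt (by simp)
  have hcd : DifferentiableAt ℝ c.f (Vh w x) := (hc.smooth _ h2).differentiableAt (by simp)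
  have h3 : pd i (fun y => c.f (Vh w y)) x =
      ∑ a, c.D a (Vh w x) * pd i (fun y => Vh w y a) x := by
    unfold pd
    have e : (fun y => c.f (Vh w y)) = c.f ∘ Vh w := rfl
    rw [e, fderiv_comp x hcd hVd]
    change fderiv ℝ c.f (Vh w x) (fderiv ℝ (Vh w) x (EuclideanSpace.single i 1)) = _
    rw [Co.fderiv_f hc h2]
    refine Finset.sum_congr rfl fun a _ => ?_
    congr 1
    have h4 := (hasFDerivAt_pi'.1 hVd.hasFDerivAt) a
    rw [h4.fderiv]
    rfl
  have hd : DifferentiableAt ℝ (fun y => c.f (Vh w y)) x := hcd.comp x hVd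
  rw [pd_mul ((rho_rpow_smooth hx0 _).differentiableAt (by simp)) hd, pd_rho_rpow hx0, h3, hx1,
    Real.one_rpow, Real.one_rpow]
  unfold Co.grad
  have e3 : ∀ a, c.D a (Vh w x) * pd i (fun y => Vh w y a) x =
      c.D a (W7 w x) * jG (pj w x) (Aj w x) (Tj w x) a i -
        (del7 a : ℝ) * W7 w x a * c.D a (W7 w x) * x i := by
    intro a
    rw [pd_Vh h hx hx1, hV]
    ring
  rw [Finset.sum_congr rfl fun a _ => e3 a, Finset.sum_sub_distrib, ← Finset.sum_mul, hV]
  change k / 2 * 1 * (2 * x i) * c.f (W7 w x) + 1 *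
      (∑ a, c.D a (W7 w x) * jG (pj w x) (Aj w x) (Tj w x) a i -
        (∑ a, (del7 a : ℝ) * W7 w x a * c.D a (W7 w x)) * x i) =
    ∑ a, c.D a (W7 w x) * jG (pj w x) (Aj w x) (Tj w x) a i +
      (k * c.f (W7 w x) - ∑ a, (del7 a : ℝ) * W7 w x a * c.D a (W7 w x)) * x i
  ring

theorem cX_diff (h : SmoothCone u w U) {x : Ed d} (hx : x ∈ U) (hx0 : x ≠ 0)
    (hN : 0 < N2 w x) {C : CS} (hφ : C.φ.Good) (hC : ∀ m, (C.c m).Good) (α : ℝ) :
    ContDiffAt ℝ ∞ (C.cX α w) x := by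
  have hs : ∀ c : Co, c.Good → ContDiffAt ℝ ∞ (fun y => c.f (Vh w y)) x := fun c hc =>
    h.co_smooth hx hx0 hN hc
  have hv : ∀ a, ContDiffAt ℝ ∞ (fun y => Vh w y a) x := fun a =>
    (contDiffAt_pi.1 (h.Vh_smooth hx hx0)) a
  have h1 : ContDiffAt ℝ ∞ (fun y => C.cx α (Vh w y)) x :=
    ((((((((hs _ (hC 0)).mul (hv 2)).sub ((hs _ (hC 1)).mul (hv 0))).add
      ((hs _ (hC 5)).mul (hv 3))).add ((hs _ (hC 6)).mul (hv 4))).add
      ((hs _ (hC 7)).mul (hv 5))).add ((hs _ (hC 8)).mul (hv 6))).sub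
      (contDiffAt_const.mul (hs _ hφ)))
  exact (rho_rpow_smooth hx0 _).mul h1

theorem Z_smooth (h : SmoothCone u w U) {x : Ed d} (hx : x ∈ U) (hx0 : x ≠ 0)
    (hN : 0 < N2 w x) {C : CS} (hφ : C.φ.Good) (hC : ∀ m, (C.c m).Good) (α : ℝ) (i : Fin d) :
    ContDiffAt ℝ ∞ (C.Z α w i) x := by
  have h1 : ContDiffAt ℝ ∞ (fun y => ∑ m, C.cm α m w y * F9 w m i y) x :=
    ContDiffAt.sum fun m _ => (h.cf_smooth hx hx0 hN (hC m) _).mul
      ((h.smooth9 m i).contDiffAt (h.isOpen.mem_nhds hx))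
  exact h1.add ((cX_diff h hx hx0 hN hφ hC α).mul
    (EuclideanSpace.proj i : Ed d →L[ℝ] ℝ).contDiff.contDiffAt)

/-- **`div Z` on the unit sphere.** -/
theorem div_unit (h : SmoothCone u w U) {x : Ed d} (hx : x ∈ Pos u) (hx1 : rho x = 1)
    (hN : 0 < N2 w x) {C : CS} (hφ : C.φ.Good) (hC : ∀ m, (C.c m).Good) (α : ℝ) :
    ∑ i, pd i (C.Z α w i) x = C.div α (xj x) (pj w x) (Aj w x) (Tj w x) := by
  have hx0 := h.ne_zero hx
  have hxU := h.pos_sub hx
  have dcm : ∀ m, DifferentiableAt ℝ (C.cm α m w) x := fun m =>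
    (h.cf_smooth hxU hx0 hN (hC m) _).differentiableAt (by simp)
  have dF : ∀ m i, DifferentiableAt ℝ (F9 w m i) x := fun m i =>
    h.diff_of_smooth hxU (h.smooth9 m i)
  have dcX : DifferentiableAt ℝ (C.cX α w) x :=
    (cX_diff h hxU hx0 hN hφ hC α).differentiableAt (by simp)
  have hV : Vh w x = W7 w x := by
    funext a
    unfold Vh
    rw [hx1, Real.one_rpow, one_mul]
  have e1 : ∀ i, pd i (C.Z α w i) x =
      ∑ m, (pd i (C.cm α m w) x * F9 w m i x + C.cm α m w x * pd i (F9 w m i) x) +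
        (pd i (C.cX α w) x * x i + C.cX α w x) := by
    intro i
    have e : C.Z α w i = fun y => (∑ m, C.cm α m w y * F9 w m i y) + C.cX α w y * y i := rfl
    have hd : ∀ m, DifferentiableAt ℝ (fun y => C.cm α m w y * F9 w m i y) x := fun m =>
      (dcm m).mul (dF m i)
    have hd2 : DifferentiableAt ℝ (fun y : Ed d => C.cX α w y * y i) x :=
      dcX.mul (coord_diff i x)
    rw [e, pd_add (DifferentiableAt.fun_sum fun m _ => hd m) hd2,
      pd_sum _ _ fun m _ => hd m, pd_mul dcX (coord_diff i x), pd_coord, if_pos rfl, mul_one]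
    congr 1
    exact Finset.sum_congr rfl fun m _ => pd_mul (dcm m) (dF m i)
  rw [Finset.sum_congr rfl fun i _ => e1 i, Finset.sum_add_distrib, Finset.sum_comm]
  have e2 : ∑ i, (pd i (C.cX α w) x * x i + C.cX α w x) =
      (d - 2 - 2 * α) * C.cx α (jV (xj x) (pj w x) (Aj w x)) := by
    rw [Finset.sum_add_distrib]
    have e3 : ∑ i, pd i (C.cX α w) x * x i = (-2 - 2 * α) * C.cX α w x := by
      rw [← euler_hom dcX fun r hr => h.homcX C α hx hr]
      exact Finset.sum_congr rfl fun i _ => by ring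
    have e4 : C.cX α w x = C.cx α (W7 w x) := by
      unfold CS.cX
      rw [hx1, Real.one_rpow, one_mul, hV]
    rw [e3, e4, Finset.sum_const, Finset.card_univ, Fintype.card_fin, nsmul_eq_mul]
    change _ = (d - 2 - 2 * α) * C.cx α (W7 w x)
    ring
  rw [e2]
  unfold CS.div
  congr 1
  refine Finset.sum_congr rfl fun m _ => ?_
  rw [Finset.sum_add_distrib, ← Finset.mul_sum, h.div9 hx m]
  congr 1
  · unfold dot
    refine Finset.sum_congr rfl fun i _ => ?_
    have e5 : pd i (C.cm α m w) x = (C.c m).grad (-1 - 2 * α - deg9 m) (xj x) (pj w x)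
        (Aj w x) (Tj w x) i := pd_co h hx hx1 hN (hC m) _ i
    rw [e5]
    rfl
  · congr 1
    unfold CS.cm
    rw [hx1, Real.one_rpow, one_mul, hV]
    rfl

/-- **`|∇E|²` on the unit sphere.** -/
theorem gr_unit (h : SmoothCone u w U) {x : Ed d} (hx : x ∈ Pos u) (hx1 : rho x = 1)
    (hN : 0 < N2 w x) {C : CS} (hφ : C.φ.Good) (α : ℝ) (i : Fin d) :
    pd i (C.E α w) x = C.φ.grad (-2 * α) (xj x) (pj w x) (Aj w x) (Tj w x) i := by
  have h1 := pd_co h hx hx1 hN hφ (-2 * α) i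
  rw [← h1]
  have e : (-2 * α) / 2 = -α := by ring
  rw [e]
  rfl

end

end Vale.Agent.P098
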