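import Vale.Agent.Lib.P098.Var.Limit
import Vale.Agent.Lib.P098.Var.Polar

/-!
# P098: a certificate with `c > ((d-2)/2 - α)²` vanishes on a stable cone
-/

open MeasureTheory Set Filter Topology Metric
open scoped ContDiff

namespace Vale.Agent.P098

/-- one-dimensional test function -/
theorem exists_eta (β c : ℝ) (hc : β ^ 2 < c) :
    ∃ η : ℝ → ℝ, ContDiff ℝ ∞ η ∧ HasCompactSupport η ∧ (∀ s, 0 ≤ η s) ∧
      ∫ s, ((β * η s + deriv η s) ^ 2 - c * η s ^ 2) < 0 := by
  obtain ⟨f⟩ : Nonempty (ContDiffBump (0 : ℝ)) := ⟨default⟩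
  have hf : ContDiff ℝ ∞ (f : ℝ → ℝ) := f.contDiff
  have hfs : HasCompactSupport (f : ℝ → ℝ) := f.hasCompactSupport
  have hdf : Continuous (deriv (f : ℝ → ℝ)) := hf.continuous_deriv (by simp)
  have hdfs : HasCompactSupport (deriv (f : ℝ → ℝ)) := hfs.deriv
  have ia : Integrable (fun s => (f s) ^ 2) volume := by
    have h1 : HasCompactSupport (fun s => (f s) ^ 2) := by
      have e : (fun s => (f s) ^ 2) = fun s => f s * f s := by
        funext s
        ring
      rw [e]
      exact hfs.mul_right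
    exact (hf.continuous.pow 2).integrable_of_hasCompactSupport h1
  have ib : Integrable (fun s => f s * deriv f s) volume :=
    (hf.continuous.mul hdf).integrable_of_hasCompactSupport (hfs.mul_right)
  have ie : Integrable (fun s => (deriv f s) ^ 2) volume := by
    have h1 : HasCompactSupport (fun s => (deriv f s) ^ 2) := by
      have e : (fun s => (deriv f s) ^ 2) = fun s => deriv f s * deriv f s := by
        funext s
        ring
      rw [e]
      exact hdfs.mul_right
    exact (hdf.pow 2).integrable_of_hasCompactSupport h1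
  have hapos : 0 < ∫ s, (f s) ^ 2 := by
    rw [integral_pos_iff_support_of_nonneg (fun s => sq_nonneg _) ia]
    have h1 : ball (0 : ℝ) f.rOut ⊆ Function.support (fun s => (f s) ^ 2) := by
      intro s hs
      have h2 : s ∈ Function.support f := by
        rw [f.support_eq]
        exact hs
      exact pow_ne_zero 2 h2
    refine lt_of_lt_of_le ?_ (measure_mono h1)
    exact isOpen_ball.measure_pos volume ⟨0, mem_ball_self f.rOut_pos⟩
  set a := ∫ s, (f s) ^ 2 with ha
  set b := ∫ s, f s * deriv f s with hb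
  set e := ∫ s, (deriv f s) ^ 2 with he
  -- choice of `R`
  have hlim : Tendsto (fun R : ℝ => (β ^ 2 - c) * a + 2 * β * R⁻¹ * b + (R⁻¹) ^ 2 * e) atTop
      (𝓝 ((β ^ 2 - c) * a + 2 * β * 0 * b + 0 ^ 2 * e)) := by
    have h0 : Tendsto (fun R : ℝ => R⁻¹) atTop (𝓝 0) := tendsto_inv_atTop_zero
    exact (tendsto_const_nhds.add ((h0.const_mul _).mul_const _)).add ((h0.pow 2).mul_const _)
  have hneg : (β ^ 2 - c) * a + 2 * β * 0 * b + 0 ^ 2 * e < 0 := by
    have : (β ^ 2 - c) * a < 0 := mul_neg_of_neg_of_pos (by linarith) hapos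
    simpa using this
  obtain ⟨R, hR1, hR2⟩ := ((hlim.eventually (gt_mem_nhds hneg)).and
    (eventually_gt_atTop (0 : ℝ))).exists
  refine ⟨fun s => f (s / R), hf.comp (contDiff_id.div_const R), ?_, fun s => f.nonneg, ?_⟩
  · have h1 : (fun s => f (s / R)) = fun s => f (R⁻¹ • s) := by
      funext s
      rw [smul_eq_mul]
      congr 1
      ring
    rw [h1]
    exact hfs.comp_smul (inv_ne_zero hR2.ne')
  · have hd : ∀ s, deriv (fun s => f (s / R)) s = deriv f (s / R) * R⁻¹ := by
      intro s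
      have h1 : HasDerivAt (fun s : ℝ => s / R) (1 / R) s := (hasDerivAt_id s).div_const R
      have h2 : HasDerivAt f (deriv f (s / R)) (s / R) :=
        (hf.differentiable (by simp) _).hasDerivAt
      have h3 := h2.comp s h1
      have h4 : HasDerivAt (fun s => f (s / R)) (deriv f (s / R) * (1 / R)) s := h3
      rw [h4.deriv, one_div]
    obtain ⟨K, hK⟩ : ∃ K : ℝ → ℝ, K = fun t => (β ^ 2 - c) * (f t) ^ 2 +
        2 * β * R⁻¹ * (f t * deriv f t) + (R⁻¹) ^ 2 * (deriv f t) ^ 2 := ⟨_, rfl⟩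
    have e1 : (fun s => (β * f (s / R) + deriv (fun s => f (s / R)) s) ^ 2 - c * f (s / R) ^ 2) =
        fun s => K (s / R) := by
      funext s
      rw [hd, hK]
      ring
    have iab : Integrable (fun t => (β ^ 2 - c) * (f t) ^ 2 +
        2 * β * R⁻¹ * (f t * deriv f t)) volume := (ia.const_mul _).add (ib.const_mul _)
    have hKint : ∫ t, K t = (β ^ 2 - c) * a + 2 * β * R⁻¹ * b + (R⁻¹) ^ 2 * e := by
      rw [hK, integral_add iab (ie.const_mul _), integral_add (ia.const_mul _) (ib.const_mul _),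
        integral_const_mul, integral_const_mul, integral_const_mul]
    rw [e1, Measure.integral_comp_div, hKint, smul_eq_mul, abs_of_pos hR2]
    exact mul_neg_of_pos_of_neg hR2 hR1

section

variable {d : ℕ} {u w E : Ed d → ℝ} {U : Set (Ed d)} {α c : ℝ}

/-- **Vanishing theorem.**  On a stable cone a certificate whose constant beats the Hardy
constant vanishes identically. -/
theorem cert_vanish (h : SmoothCone u w U) (hst : Stab u w) (hE : Cert u w U E α c)
    (hc : (((d : ℝ) - 2) / 2 - α) ^ 2 < c) : ∀ x ∈ Pos u, E x = 0 := by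
  intro x0 hx0
  have hx00 : x0 ≠ 0 := h.ne_zero hx0
  have hd : 0 < d := by
    rcases Nat.eq_zero_or_pos d with h0 | h0
    · subst h0
      exact absurd (Subsingleton.elim x0 0) hx00
    · exact h0
  have hc0 : 0 ≤ c := (sq_nonneg _).trans hc.le
  set β : ℝ := α - ((d : ℝ) - 2) / 2 with hβ
  have hβc : β ^ 2 < c := by
    have e : β ^ 2 = (((d : ℝ) - 2) / 2 - α) ^ 2 := by rw [hβ]; ring
    rw [e]
    exact hc
  obtain ⟨η, hη, hηs, hη0, hηneg⟩ := exists_eta β c hβc
  -- the radial test function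
  set ψ : ℝ → ℝ := fun s => Real.exp (β * s) * η s with hψ
  have hψc : ContDiff ℝ ∞ ψ := (contDiff_const.mul contDiff_id).exp.mul hη
  have hψs : HasCompactSupport ψ := hηs.mul_left
  have hψ0 : ∀ s, 0 ≤ ψ s := fun s => mul_nonneg (Real.exp_pos _).le (hη0 s)
  have hψd : ∀ s, deriv ψ s = Real.exp (β * s) * (β * η s + deriv η s) := by
    intro s
    have h1 : HasDerivAt (fun s => Real.exp (β * s)) (Real.exp (β * s) * β) s := by
      simpa using ((hasDerivAt_id s).const_mul β).exp
    have h2 : HasDerivAt η (deriv η s) s := (hη.differentiable (by simp) s).hasDerivAt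
    have h3 : HasDerivAt ψ (Real.exp (β * s) * β * η s + Real.exp (β * s) * deriv η s) s :=
      h1.mul h2
    rw [h3.deriv]
    ring
  have key := stab_cert h hst hE hc0 (radz_contDiff (d := d) hψc hψs)
    (fun x => by
      by_cases hx : x = 0
      · unfold radz
        rw [if_pos hx]
      · rw [radz_apply ψ hx]
        exact hψ0 _) (radz_compact hψs) (radz_zero_notMem hψs)
  -- polar coordinates
  set A : Ed d → ℝ := (Pos u).indicator (fun x => E x ^ 2) with hA
  set B : ℝ → ℝ := fun r => (deriv ψ (Real.log r) ^ 2 - c * ψ (Real.log r) ^ 2) / r ^ 2 with hB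
  have e1 : ∫ x in Pos u, E x ^ 2 * (∑ i, pd i (radz ψ) x ^ 2 - c * (radz ψ x ^ 2 / ‖x‖ ^ 2)) =
      ∫ x, A x * B ‖x‖ := by
    rw [← integral_indicator h.isOpen_pos.measurableSet]
    refine integral_congr_ae (Eventually.of_forall fun x => ?_)
    change (Pos u).indicator (fun x => E x ^ 2 * (∑ i, pd i (radz ψ) x ^ 2 -
      c * (radz ψ x ^ 2 / ‖x‖ ^ 2))) x = A x * B ‖x‖
    by_cases hx : x ∈ Pos u
    · have hx0 : x ≠ 0 := h.ne_zero hx
      rw [hA, indicator_of_mem hx, indicator_of_mem hx, sum_pd_radz hψc hx0, radz_apply ψ hx0]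
      change _ = E x ^ 2 * ((deriv ψ (Real.log ‖x‖) ^ 2 - c * ψ (Real.log ‖x‖) ^ 2) / ‖x‖ ^ 2)
      ring
    · rw [hA, indicator_of_notMem hx, indicator_of_notMem hx, zero_mul]
  have hAhom : ∀ x : Ed d, ‖x‖ = 1 → ∀ r : ℝ, 0 < r → A (r • x) = r ^ (-(2 * α)) * A x := by
    intro x _ r hr
    by_cases hx : x ∈ Pos u
    · rw [hA, indicator_of_mem (h.smul_mem hx hr), indicator_of_mem hx, hE.hom x hx r hr,
        mul_pow, ← Real.rpow_natCast (r ^ (-α)) 2, ← Real.rpow_mul hr.le]
      congr 2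
      push_cast
      ring
    · have hx' : r • x ∉ Pos u := by
        intro hx'
        apply hx
        have h1 := h.smul_mem hx' (inv_pos.2 hr)
        rwa [smul_smul, inv_mul_cancel₀ hr.ne', one_smul] at h1
      rw [hA, indicator_of_notMem hx, indicator_of_notMem hx', mul_zero]
  rw [e1, polar_hom hd A (-(2 * α)) hAhom B] at key
  have e2 : ∫ r in Ioi (0 : ℝ), r ^ (d - 1) * (r ^ (-(2 * α)) * B r) =
      ∫ s, ((β * η s + deriv η s) ^ 2 - c * η s ^ 2) := by
    rw [← integral_log]
    refine setIntegral_congr_fun measurableSet_Ioi fun r hr => ?_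
    have hr0 : 0 < r := hr
    change r ^ (d - 1) * (r ^ (-(2 * α)) * ((deriv ψ (Real.log r) ^ 2 -
      c * ψ (Real.log r) ^ 2) / r ^ 2)) = _
    rw [hψd, hψ]
    have h1 : Real.exp (β * Real.log r) = r ^ β := by
      rw [Real.rpow_def_of_pos hr0, mul_comm]
    have h2 : (r : ℝ) ^ (d - 1) = r ^ ((d : ℝ) - 1) := by
      rw [← Real.rpow_natCast, Nat.cast_sub hd]
      simp
    have h3 : (r : ℝ) ^ 2 = r ^ (2 : ℝ) := by
      rw [← Real.rpow_natCast]
      norm_num
    have h4 : r ^ ((d : ℝ) - 1) * r ^ (-(2 * α)) * (r ^ β * r ^ β) / r ^ (2 : ℝ) = r⁻¹ := by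
      rw [← Real.rpow_add hr0, ← Real.rpow_add hr0, ← Real.rpow_add hr0, ← Real.rpow_sub hr0,
        ← Real.rpow_neg_one]
      congr 1
      rw [hβ]
      ring
    simp only []
    rw [h1, h2, h3]
    calc r ^ ((d : ℝ) - 1) * (r ^ (-(2 * α)) * (((r ^ β * (β * η (Real.log r) +
          deriv η (Real.log r))) ^ 2 - c * (r ^ β * η (Real.log r)) ^ 2) / r ^ (2 : ℝ))) =
        (r ^ ((d : ℝ) - 1) * r ^ (-(2 * α)) * (r ^ β * r ^ β) / r ^ (2 : ℝ)) *
          ((β * η (Real.log r) + deriv η (Real.log r)) ^ 2 - c * η (Real.log r) ^ 2) := by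
          ring
      _ = _ := by rw [h4]
  rw [e2] at key
  -- the integral of `A` over the sphere vanishes
  have hcontE : ContinuousOn E (Pos u) := hE.cont.mono h.pos_sub
  have hAm : Measurable A := by
    rw [hA]
    have h1 : ContinuousOn (fun x => E x ^ 2) (Pos u) := hcontE.pow 2
    classical
    have h2 := h1.measurable_piecewise (g := fun _ => (0 : ℝ)) continuousOn_const
      h.isOpen_pos.measurableSet
    have h3 : (Pos u).piecewise (fun x => E x ^ 2) (fun _ => (0 : ℝ)) =
        (Pos u).indicator (fun x => E x ^ 2) := by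
      funext x
      by_cases hx : x ∈ Pos u
      · rw [piecewise_eq_of_mem _ _ _ hx, indicator_of_mem hx]
      · rw [piecewise_eq_of_notMem _ _ _ hx, indicator_of_notMem hx]
    rw [h3] at h2
    exact h2
  have hA0 : ∀ x, 0 ≤ A x := fun x => indicator_nonneg (fun y _ => sq_nonneg _) x
  have hKc : IsCompact (closure (Pos u) ∩ sphere (0 : Ed d) 1) :=
    (isCompact_sphere _ _).inter_left isClosed_closure
  have hKU : closure (Pos u) ∩ sphere (0 : Ed d) 1 ⊆ U := by
    rintro x ⟨hx1, hx2⟩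
    refine h.sub ⟨hx1, ?_⟩
    rintro rfl
    simp at hx2
  obtain ⟨M, hM⟩ := hKc.exists_bound_of_continuousOn ((hE.cont.mono hKU).pow 2)
  have hAint : Integrable (fun y : sphere (0 : Ed d) 1 => A y)
      (volume : Measure (Ed d)).toSphere := by
    refine Integrable.of_bound (hAm.comp measurable_subtype_coe).aestronglyMeasurable |M|
      (Eventually.of_forall fun y => ?_)
    by_cases hy : (y : Ed d) ∈ Pos u
    · rw [hA, indicator_of_mem hy]
      exact (hM _ ⟨subset_closure hy, y.2⟩).trans (le_abs_self M)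
    · rw [hA, indicator_of_notMem hy, norm_zero]
      exact abs_nonneg M
  have hCle : (∫ y : sphere (0 : Ed d) 1, A y ∂(volume : Measure (Ed d)).toSphere) ≤ 0 := by
    by_contra hpos
    have := mul_neg_of_pos_of_neg (not_le.1 hpos) hηneg
    linarith
  have hCge : 0 ≤ ∫ y : sphere (0 : Ed d) 1, A y ∂(volume : Measure (Ed d)).toSphere :=
    integral_nonneg fun y => hA0 y
  have hC0 : ∫ y : sphere (0 : Ed d) 1, A y ∂(volume : Measure (Ed d)).toSphere = 0 :=
    le_antisymm hCle hCge
  have hae : (fun y : sphere (0 : Ed d) 1 => A y) =ᵐ[(volume : Measure (Ed d)).toSphere] 0 :=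
    (integral_eq_zero_iff_of_nonneg (f := fun y : sphere (0 : Ed d) 1 => A y)
      (fun y => hA0 y) hAint).1 hC0
  -- `E = 0` on the unit sphere
  have hsph : ∀ y : Ed d, ‖y‖ = 1 → y ∈ Pos u → E y = 0 := by
    intro y hy hyP
    by_contra hne
    have hopen : IsOpen {z : sphere (0 : Ed d) 1 | (z : Ed d) ∈ Pos u ∧ E z ≠ 0} := by
      have h1 : IsOpen (Pos u ∩ E ⁻¹' {0}ᶜ) :=
        hcontE.isOpen_inter_preimage h.isOpen_pos isOpen_compl_singleton
      exact h1.preimage continuous_subtype_val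
    have hmeas : (volume : Measure (Ed d)).toSphere
        {z : sphere (0 : Ed d) 1 | (z : Ed d) ∈ Pos u ∧ E z ≠ 0} = 0 := by
      refine measure_mono_null ?_ (ae_iff.1 hae)
      rintro z ⟨hz1, hz2⟩
      change ¬ A z = 0
      rw [hA, indicator_of_mem hz1]
      exact pow_ne_zero 2 hz2
    exact (hopen.measure_pos (volume : Measure (Ed d)).toSphere
      ⟨⟨y, by simpa using hy⟩, hyP, hne⟩).ne' hmeas
  have hn : 0 < ‖x0‖ := norm_pos_iff.2 hx00
  have hy1 : ‖‖x0‖⁻¹ • x0‖ = 1 := by
    rw [norm_smul, norm_inv, norm_norm, inv_mul_cancel₀ hn.ne']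
  have hyP : ‖x0‖⁻¹ • x0 ∈ Pos u := h.smul_mem hx0 (inv_pos.2 hn)
  have h1 := hE.hom _ hyP ‖x0‖ hn
  rw [smul_smul, mul_inv_cancel₀ hn.ne', one_smul, hsph _ hy1 hyP, mul_zero] at h1
  exact h1

end

end Vale.Agent.P098
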